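import Crest.Agent.R075.AnaDef

/-!
Row 75 (helper20), THM A: the band lemma.
-/

set_option autoImplicit false

namespace Crest.Agent.R075.Ana

open MeasureTheory Set Real

noncomputable section

/-- the curve of one band: `m` = margin, `lam` = length, window `[T, T+D]`, mid values `u`, `v` -/
def bt {e : ℝ} (Pf : Profile e) (lam m T D u v : ℝ) : ℝ → ℝ :=
  glue (m / 2) (seg 0 (m / 2) (1 / 2) u)
    (glue m (seg (m / 2) m u T)
      (glue (lam - m) (fun x => T + D * Pf.gam ((x - m) / (lam - 2 * m)))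
        (glue (lam - m / 2) (seg (lam - m) (lam - m / 2) (T + D) v)
          (seg (lam - m / 2) lam v (1 / 2)))))

section

variable {e : ℝ} (Pf : Profile e) {lam m T D u v : ℝ}

/-- the middle function -/
def mf (lam m T D : ℝ) (x : ℝ) : ℝ := T + D * Pf.gam ((x - m) / (lam - 2 * m))

theorem mf_left : mf Pf lam m T D m = T := by
  unfold mf
  rw [sub_self, zero_div, Pf.gam0, mul_zero, add_zero]

theorem mf_right (h : 0 < lam - 2 * m) : mf Pf lam m T D (lam - m) = T + D := by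
  unfold mf
  have : (lam - m - m) / (lam - 2 * m) = 1 := by
    rw [div_eq_one_iff_eq h.ne']; ring
  rw [this, Pf.gam1, mul_one]

theorem mf_lip (h : 0 < lam - 2 * m) {K : NNReal} (hD : 0 ≤ D)
    (hK : D * Pf.Cg / (lam - 2 * m) ≤ K) : LipschitzWith K (mf Pf lam m T D) := by
  refine LipschitzWith.of_dist_le_mul fun x y => ?_
  have h1 := Pf.lip.dist_le_mul ((x - m) / (lam - 2 * m)) ((y - m) / (lam - 2 * m))
  rw [Real.dist_eq, Real.dist_eq] at h1 ⊢
  have e1 : mf Pf lam m T D x - mf Pf lam m T D y = D * (Pf.gam ((x - m) / (lam - 2 * m)) -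
      Pf.gam ((y - m) / (lam - 2 * m))) := by unfold mf; ring
  rw [e1, abs_mul, abs_of_nonneg hD]
  have e2 : (x - m) / (lam - 2 * m) - (y - m) / (lam - 2 * m) = (x - y) / (lam - 2 * m) := by ring
  rw [e2, abs_div, abs_of_pos h] at h1
  calc D * |Pf.gam ((x - m) / (lam - 2 * m)) - Pf.gam ((y - m) / (lam - 2 * m))| ≤
      D * (Pf.Cg * (|x - y| / (lam - 2 * m))) := mul_le_mul_of_nonneg_left h1 hD
    _ = (D * Pf.Cg / (lam - 2 * m)) * |x - y| := by ring
    _ ≤ K * |x - y| := mul_le_mul_of_nonneg_right hK (abs_nonneg _)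

theorem bt_eq : bt Pf lam m T D u v = glue (m / 2) (seg 0 (m / 2) (1 / 2) u)
    (glue m (seg (m / 2) m u T)
      (glue (lam - m) (mf Pf lam m T D)
        (glue (lam - m / 2) (seg (lam - m) (lam - m / 2) (T + D) v)
          (seg (lam - m / 2) lam v (1 / 2))))) := rfl

variable (hm : 0 < m) (hl : 0 < lam - 2 * m)
include hm hl

theorem match5 : seg (lam - m) (lam - m / 2) (T + D) v (lam - m / 2) =
    seg (lam - m / 2) lam v (1 / 2) (lam - m / 2) := by
  rw [seg_left, seg_right _ _ (by linarith)]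

theorem match4 : mf Pf lam m T D (lam - m) = glue (lam - m / 2)
    (seg (lam - m) (lam - m / 2) (T + D) v) (seg (lam - m / 2) lam v (1 / 2)) (lam - m) := by
  rw [mf_right Pf hl, glue_le (by linarith), seg_left]

theorem match3 : seg (m / 2) m u T m = glue (lam - m) (mf Pf lam m T D)
    (glue (lam - m / 2) (seg (lam - m) (lam - m / 2) (T + D) v)
      (seg (lam - m / 2) lam v (1 / 2))) m := by
  rw [glue_le (by linarith), mf_left, seg_right _ _ (by linarith)]

theorem match2 : seg 0 (m / 2) (1 / 2) u (m / 2) = glue m (seg (m / 2) m u T)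
      (glue (lam - m) (mf Pf lam m T D)
        (glue (lam - m / 2) (seg (lam - m) (lam - m / 2) (T + D) v)
          (seg (lam - m / 2) lam v (1 / 2)))) (m / 2) := by
  rw [glue_le (by linarith), seg_left, seg_right _ _ (by linarith)]

theorem bt1 {x : ℝ} (h : x ≤ m / 2) : bt Pf lam m T D u v x = seg 0 (m / 2) (1 / 2) u x := by
  rw [bt_eq, glue_le h]

theorem bt2 {x : ℝ} (h1 : m / 2 ≤ x) (h : x ≤ m) :
    bt Pf lam m T D u v x = seg (m / 2) m u T x := by
  rw [bt_eq, glue_ge (match2 Pf hm hl) h1, glue_le h]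

theorem bt3 {x : ℝ} (h1 : m ≤ x) (h : x ≤ lam - m) :
    bt Pf lam m T D u v x = mf Pf lam m T D x := by
  rw [bt_eq, glue_ge (match2 Pf hm hl) (by linarith), glue_ge (match3 Pf hm hl) h1, glue_le h]

theorem bt4 {x : ℝ} (h1 : lam - m ≤ x) (h : x ≤ lam - m / 2) :
    bt Pf lam m T D u v x = seg (lam - m) (lam - m / 2) (T + D) v x := by
  rw [bt_eq, glue_ge (match2 Pf hm hl) (by linarith), glue_ge (match3 Pf hm hl) (by linarith),
    glue_ge (match4 Pf hm hl) h1, glue_le h]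

theorem bt5 {x : ℝ} (h1 : lam - m / 2 ≤ x) :
    bt Pf lam m T D u v x = seg (lam - m / 2) lam v (1 / 2) x := by
  rw [bt_eq, glue_ge (match2 Pf hm hl) (by linarith), glue_ge (match3 Pf hm hl) (by linarith),
    glue_ge (match4 Pf hm hl) (by linarith), glue_ge (match5 hm hl) h1]

theorem bt_zero : bt Pf lam m T D u v 0 = 1 / 2 := by
  rw [bt1 Pf hm hl (by linarith), seg_left]

theorem bt_lam : bt Pf lam m T D u v lam = 1 / 2 := by
  rw [bt5 Pf hm hl (by linarith), seg_right _ _ (by linarith)]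

theorem bt_lip {K : NNReal} (hD : 0 ≤ D) (hK : D * Pf.Cg / (lam - 2 * m) ≤ K)
    (hK2 : 2 / m ≤ K) (hu : |u| ≤ 1) (hv : |v| ≤ 1) (hu0 : 0 ≤ u) (hv0 : 0 ≤ v)
    (hT : 0 ≤ T) (hT1 : T + D ≤ 1) :
    LipschitzWith K (bt Pf lam m T D u v) := by
  have hu1 := (abs_le.1 hu).2
  have hv1 := (abs_le.1 hv).2
  have key : ∀ a b x y : ℝ, b - a = m / 2 → 0 ≤ x → x ≤ 1 → 0 ≤ y → y ≤ 1 →
      |(y - x) / (b - a)| ≤ K := by
    intro a b x y hab hx hx1 hy hy1
    rw [hab, abs_div, abs_of_pos (by linarith : 0 < m / 2)]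
    refine le_trans ?_ hK2
    rw [div_le_div_iff₀ (by linarith) hm]
    have : |y - x| ≤ 1 := abs_le.2 ⟨by linarith, by linarith⟩
    nlinarith
  refine glue_lip (seg_lip (key _ _ _ _ (by ring) (by norm_num) (by norm_num) hu0 hu1))
    (glue_lip (seg_lip (key _ _ _ _ (by ring) hu0 hu1 hT (by linarith)))
      (glue_lip (mf_lip Pf hl hD hK) (glue_lip
        (seg_lip (key _ _ _ _ (by ring) (by linarith) hT1 hv0 hv1))
        (seg_lip (key _ _ _ _ (by ring) hv0 hv1 (by norm_num) (by norm_num)))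
        (match5 hm hl)) (match4 Pf hm hl)) (match3 Pf hm hl)) (match2 Pf hm hl)

theorem bt_mem {η x : ℝ} (hD : 0 ≤ D) (hη : η ≤ 1 / 8) (hT : η ≤ T) (hT1 : T + D ≤ 1 - η)
    (hu : 1 / 8 ≤ u ∧ u ≤ 7 / 8) (hv : 1 / 8 ≤ v ∧ v ≤ 7 / 8) (hx : x ∈ Icc 0 lam) :
    η ≤ bt Pf lam m T D u v x ∧ bt Pf lam m T D u v x ≤ 1 - η := by
  obtain ⟨hx0, hx1⟩ := hx
  rcases le_total x (m / 2) with h | h
  · rw [bt1 Pf hm hl h]
    exact seg_mem (by linarith) ⟨hx0, h⟩ ⟨by linarith, by linarith⟩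
      ⟨by linarith [hu.1], by linarith [hu.2]⟩
  rcases le_total x m with h2 | h2
  · rw [bt2 Pf hm hl h h2]
    exact seg_mem (by linarith) ⟨h, h2⟩ ⟨by linarith [hu.1], by linarith [hu.2]⟩
      ⟨by linarith, by linarith⟩
  rcases le_total x (lam - m) with h3 | h3
  · rw [bt3 Pf hm hl h2 h3]
    unfold mf
    obtain ⟨g1, g2⟩ := Pf.mem ((x - m) / (lam - 2 * m))
    constructor <;> nlinarith
  rcases le_total x (lam - m / 2) with h4 | h4
  · rw [bt4 Pf hm hl h3 h4]
    exact seg_mem (by linarith) ⟨h3, h4⟩ ⟨by linarith, by linarith⟩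
      ⟨by linarith [hv.1], by linarith [hv.2]⟩
  · rw [bt5 Pf hm hl h4]
    exact seg_mem (by linarith) ⟨h4, hx1⟩ ⟨by linarith [hv.1], by linarith [hv.2]⟩
      ⟨by linarith, by linarith⟩

end

end

end Crest.Agent.R075.Ana
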