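import Crest.Agent.R075.AnaBand

/-!
Row 75 (helper20), THM A: the band lemma, integrals.
-/

set_option autoImplicit false

namespace Crest.Agent.R075.Ana

open MeasureTheory Set Real

noncomputable section

/-- steering of the mid value -/
theorem steer {N m T : ℝ} (hN : 0 < N) (hm : 0 < m) (h32 : 32 ≤ N * m) (c : ℝ) :
    ∃ u : ℝ, 1 / 8 ≤ u ∧ u ≤ 7 / 8 ∧ 1 / 16 ≤ |u - 1 / 2| ∧ 1 / 16 ≤ |u - T| ∧
      ∃ j : ℤ, N * (m / 4 * (1 / 2 + 2 * u + T)) = c + j := by
  obtain ⟨u0, h1, h2⟩ : ∃ u0 : ℝ, (u0 = 1 / 4 ∨ u0 = 3 / 4) ∧ 1 / 8 ≤ |u0 - T| := by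
    by_cases h : 1 / 8 ≤ |1 / 4 - T|
    · exact ⟨1 / 4, Or.inl rfl, h⟩
    · push Not at h
      have := abs_lt.1 h
      refine ⟨3 / 4, Or.inr rfl, ?_⟩
      rw [abs_of_nonneg (by linarith [this.1])]
      linarith [this.1]
  set f0 := N * (m / 4 * (1 / 2 + 2 * u0 + T)) with hf0
  have hNm : 0 < N * m := mul_pos hN hm
  have hfr0 := Int.fract_nonneg (c - f0)
  have hfr1 := Int.fract_lt_one (c - f0)
  set d := 2 / (N * m) * Int.fract (c - f0) with hd
  have hd0 : 0 ≤ d := by positivity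
  have hd1 : d ≤ 1 / 16 := by
    have : 2 / (N * m) ≤ 1 / 16 := by
      rw [div_le_div_iff₀ hNm (by norm_num)]
      linarith
    calc d ≤ 1 / 16 * 1 := mul_le_mul this hfr1.le hfr0 (by norm_num)
      _ = 1 / 16 := by norm_num
  refine ⟨u0 + d, ?_, ?_, ?_, ?_, -⌊c - f0⌋, ?_⟩
  · rcases h1 with h | h <;> rw [h] <;> linarith
  · rcases h1 with h | h <;> rw [h] <;> linarith
  · rcases h1 with h | h <;> rw [h]
    · rw [abs_of_neg (by linarith)]; linarith
    · rw [abs_of_pos (by linarith)]; linarith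
  · have h3 : |u0 - T| ≤ |u0 + d - T| + d := by
      have := abs_add_le (u0 + d - T) (-d)
      rw [abs_neg, abs_of_nonneg hd0] at this
      have e : u0 + d - T + -d = u0 - T := by ring
      rwa [e] at this
    linarith
  · have e1 : N * (m / 4 * (1 / 2 + 2 * (u0 + d) + T)) = f0 + N * m / 2 * d := by rw [hf0]; ring
    have e2 : N * m / 2 * d = Int.fract (c - f0) := by
      rw [hd]; field_simp
    rw [e1, e2, Int.fract]
    push_cast
    ring

theorem integral_seg_full {a b : ℝ} (u v : ℝ) (h : a ≠ b) :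
    ∫ s in a..b, seg a b u v s = (b - a) * (u + v) / 2 := by
  rw [integral_seg]
  have : b - a ≠ 0 := sub_ne_zero.2 (Ne.symm h)
  field_simp
  ring

/-- second derivative test on an affine segment -/
theorem seg_bound (hV : V2) {a b u v N k P0 : ℝ} (hab : a < b) (hN : 0 < N) (huv : u ≠ v)
    {Psi : ℝ → ℝ} (hPsi : ∀ x ∈ Icc a b, Psi x = P0 + ∫ s in a..x, seg a b u v s) :
    ‖∫ x in a..b, ee (k * x - N * Psi x)‖ ≤ 3 / Real.sqrt (N * (|v - u| / (b - a))) := by
  set s := (v - u) / (b - a) with hs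
  have hs0 : s ≠ 0 := div_ne_zero (sub_ne_zero.2 huv.symm) (by linarith)
  have e1 : ∫ x in a..b, ee (k * x - N * Psi x) =
      ∫ x in a..b, ee ((-(N * s)) / 2 * x ^ 2 + (k + N * s * a - N * u) * x +
        (-(N * P0) - N * s / 2 * a ^ 2 + N * u * a)) := by
    refine intervalIntegral.integral_congr fun x hx => ?_
    rw [uIcc_of_le hab.le] at hx
    rw [hPsi x hx, integral_seg, ← hs]
    congr 1
    ring
  rw [e1]
  refine (hV _ _ _ a b (neg_ne_zero.2 (mul_ne_zero hN.ne' hs0)) hab.le).trans (le_of_eq ?_)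
  rw [abs_neg, abs_mul, abs_of_pos hN, hs, abs_div, abs_of_pos (by linarith : 0 < b - a)]

theorem seg_bound' (hV : V2) {a b u v N k P0 m : ℝ} (hm : 0 < m) (hab : b - a = m / 2)
    (hN : 0 < N) (huv : 1 / 16 ≤ |v - u|)
    {Psi : ℝ → ℝ} (hPsi : ∀ x ∈ Icc a b, Psi x = P0 + ∫ s in a..x, seg a b u v s) :
    Real.sqrt N * ‖∫ x in a..b, ee (k * x - N * Psi x)‖ ≤ 3 * Real.sqrt (8 * m) := by
  have hlt : a < b := by linarith
  have hne : u ≠ v := by
    rintro rfl
    rw [sub_self, abs_zero] at huv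
    norm_num at huv
  have h := seg_bound hV (k := k) hlt hN hne hPsi
  refine (mul_le_mul_of_nonneg_left h (Real.sqrt_nonneg _)).trans ?_
  rw [hab]
  have hr : 0 < |v - u| / (m / 2) := by
    have : 0 < |v - u| := by linarith
    positivity
  rw [Real.sqrt_mul hN.le]
  have hsN : 0 < Real.sqrt N := Real.sqrt_pos.2 hN
  have e : Real.sqrt N * (3 / (Real.sqrt N * Real.sqrt (|v - u| / (m / 2)))) =
      3 * (1 / Real.sqrt (|v - u| / (m / 2))) := by field_simp
  rw [e]
  refine mul_le_mul_of_nonneg_left ?_ (by norm_num)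
  rw [div_le_iff₀ (Real.sqrt_pos.2 hr), ← Real.sqrt_mul (by positivity)]
  rw [show (1:ℝ) = Real.sqrt 1 by simp]
  refine Real.sqrt_le_sqrt ?_
  have e2 : 8 * m * (|v - u| / (m / 2)) = 16 * |v - u| := by field_simp; ring
  rw [e2]
  linarith

section

variable {e : ℝ} (Pf : Profile e) {lam m T D u v : ℝ}

theorem bt_cont (hm : 0 < m) (hl : 0 < lam - 2 * m) : Continuous (bt Pf lam m T D u v) := by
  unfold bt
  have h3 : Continuous (mf Pf lam m T D) := by
    unfold mf
    have := Pf.lip.continuous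
    fun_prop
  have key : ∀ {z : ℝ} {f g : ℝ → ℝ}, Continuous f → Continuous g → f z = g z →
      Continuous (glue z f g) := by
    intro z f g hf hg h
    unfold glue
    refine hf.if_le hg continuous_id continuous_const fun x hx => ?_
    have hx' : x = z := hx
    rw [hx', h]
  exact key (continuous_seg _ _ _ _) (key (continuous_seg _ _ _ _) (key h3
    (key (continuous_seg _ _ _ _) (continuous_seg _ _ _ _) (match5 hm hl)) (match4 Pf hm hl))
    (match3 Pf hm hl)) (match2 Pf hm hl)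

/-- primitive of the curve -/
def Ps (lam m T D u v : ℝ) (x : ℝ) : ℝ := ∫ s in (0:ℝ)..x, bt Pf lam m T D u v s

variable (hm : 0 < m) (hl : 0 < lam - 2 * m)
include hm hl

theorem Ps_split (a x : ℝ) : Ps Pf lam m T D u v x =
    Ps Pf lam m T D u v a + ∫ s in a..x, bt Pf lam m T D u v s := by
  unfold Ps
  rw [intervalIntegral.integral_add_adjacent_intervals]
  · exact (bt_cont Pf hm hl).intervalIntegrable _ _
  · exact (bt_cont Pf hm hl).intervalIntegrable _ _

theorem Ps1 {x : ℝ} (hx : x ∈ Icc 0 (m / 2)) : Ps Pf lam m T D u v x =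
    0 + ∫ s in (0:ℝ)..x, seg 0 (m / 2) (1 / 2) u s := by
  rw [zero_add]
  unfold Ps
  refine intervalIntegral.integral_congr fun s hs => ?_
  rw [uIcc_of_le hx.1] at hs
  exact bt1 Pf hm hl (hs.2.trans hx.2)

theorem Ps2 {x : ℝ} (hx : x ∈ Icc (m / 2) m) : Ps Pf lam m T D u v x =
    Ps Pf lam m T D u v (m / 2) + ∫ s in (m / 2)..x, seg (m / 2) m u T s := by
  rw [Ps_split Pf hm hl (m / 2)]
  congr 1
  refine intervalIntegral.integral_congr fun s hs => ?_
  rw [uIcc_of_le hx.1] at hs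
  exact bt2 Pf hm hl hs.1 (hs.2.trans hx.2)

theorem Ps3 {x : ℝ} (hx : x ∈ Icc m (lam - m)) : Ps Pf lam m T D u v x =
    Ps Pf lam m T D u v m + ∫ s in m..x, mf Pf lam m T D s := by
  rw [Ps_split Pf hm hl m]
  congr 1
  refine intervalIntegral.integral_congr fun s hs => ?_
  rw [uIcc_of_le hx.1] at hs
  exact bt3 Pf hm hl hs.1 (hs.2.trans hx.2)

theorem Ps4 {x : ℝ} (hx : x ∈ Icc (lam - m) (lam - m / 2)) : Ps Pf lam m T D u v x =
    Ps Pf lam m T D u v (lam - m) +
      ∫ s in (lam - m)..x, seg (lam - m) (lam - m / 2) (T + D) v s := by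
  rw [Ps_split Pf hm hl (lam - m)]
  congr 1
  refine intervalIntegral.integral_congr fun s hs => ?_
  rw [uIcc_of_le hx.1] at hs
  exact bt4 Pf hm hl hs.1 (hs.2.trans hx.2)

theorem Ps5 {x : ℝ} (hx : x ∈ Icc (lam - m / 2) lam) : Ps Pf lam m T D u v x =
    Ps Pf lam m T D u v (lam - m / 2) +
      ∫ s in (lam - m / 2)..x, seg (lam - m / 2) lam v (1 / 2) s := by
  rw [Ps_split Pf hm hl (lam - m / 2)]
  congr 1
  refine intervalIntegral.integral_congr fun s hs => ?_
  rw [uIcc_of_le hx.1] at hs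
  exact bt5 Pf hm hl hs.1

theorem Ps_m : Ps Pf lam m T D u v m = m / 4 * (1 / 2 + 2 * u + T) := by
  rw [Ps2 Pf hm hl ⟨by linarith, le_rfl⟩, Ps1 Pf hm hl ⟨by linarith, le_rfl⟩,
    integral_seg_full _ _ (by linarith), integral_seg_full _ _ (by linarith)]
  ring

theorem Ps_lam : Ps Pf lam m T D u v lam = Ps Pf lam m T D u v (lam - m) +
    m / 4 * (1 / 2 + 2 * v + (T + D)) := by
  rw [Ps5 Pf hm hl ⟨by linarith, le_rfl⟩, Ps4 Pf hm hl ⟨by linarith, le_rfl⟩,
    integral_seg_full _ _ (by linarith), integral_seg_full _ _ (by linarith)]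
  ring

/-- the middle part of the primitive does not depend on `u`, `v` -/
theorem Ps_mid {x : ℝ} (hx : x ∈ Icc m (lam - m)) : Ps Pf lam m T D u v x =
    Ps Pf lam m T D u v m + (T * (x - m) + D * (lam - 2 * m) *
      ∫ s in (0:ℝ)..((x - m) / (lam - 2 * m)), Pf.gam s) := by
  rw [Ps3 Pf hm hl hx]
  congr 1
  unfold mf
  have hc : Continuous Pf.gam := Pf.lip.continuous
  rw [intervalIntegral.integral_add (by simp) (by
    apply Continuous.intervalIntegrable; fun_prop), intervalIntegral.integral_const,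
    intervalIntegral.integral_const_mul]
  have e1 : ∀ s : ℝ, (s - m) / (lam - 2 * m) = s / (lam - 2 * m) - m / (lam - 2 * m) := by
    intro s; ring
  have h2 : (∫ s in m..x, Pf.gam ((s - m) / (lam - 2 * m))) =
      (lam - 2 * m) * ∫ s in (0:ℝ)..((x - m) / (lam - 2 * m)), Pf.gam s := by
    have := intervalIntegral.integral_comp_div_sub (a := m) (b := x) (f := Pf.gam) hl.ne'
      (m / (lam - 2 * m))
    calc (∫ s in m..x, Pf.gam ((s - m) / (lam - 2 * m))) =
        ∫ s in m..x, Pf.gam (s / (lam - 2 * m) - m / (lam - 2 * m)) := by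
          refine intervalIntegral.integral_congr fun s _ => ?_
          show Pf.gam ((s - m) / (lam - 2 * m)) = Pf.gam (s / (lam - 2 * m) - m / (lam - 2 * m))
          rw [e1]
      _ = _ := by
          rw [this, smul_eq_mul]
          congr 2
          · ring
          · ring
  rw [h2, smul_eq_mul]
  ring

end

end

end Crest.Agent.R075.Ana
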