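import Crest.Agent.R075.AnaBand2

/-!
Row 75 (helper20), THM A: the band lemma.
-/

set_option autoImplicit false

namespace Crest.Agent.R075.Ana

open MeasureTheory Set Real

noncomputable section

section

variable {e : ℝ} (Pf : Profile e) {lam m T D u v : ℝ}

theorem mid_int (hm : 0 < m) (hl : 0 < lam - 2 * m) (hD : 0 < D) {N k : ℝ} (hN : 0 < N) :
    ∫ x in m..(lam - m), ee (k * x - N * Ps Pf lam m T D u v x) =
      ((lam - 2 * m : ℝ) : ℂ) * (ee (k * m - N * Ps Pf lam m T D u v m) *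
        ∫ x in (0:ℝ)..1, ee ((N * D * (lam - 2 * m)) * (x * ((k / N - T) / D) -
          ∫ s in (0:ℝ)..x, Pf.gam s))) := by
  set F : ℝ → ℂ := fun x => ee (k * m - N * Ps Pf lam m T D u v m) *
    ee ((N * D * (lam - 2 * m)) * (x * ((k / N - T) / D) - ∫ s in (0:ℝ)..x, Pf.gam s)) with hF
  have h1 : ∫ x in m..(lam - m), ee (k * x - N * Ps Pf lam m T D u v x) =
      ∫ x in m..(lam - m), F (x / (lam - 2 * m) - m / (lam - 2 * m)) := by
    refine intervalIntegral.integral_congr fun x hx => ?_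
    rw [uIcc_of_le (by linarith)] at hx
    rw [hF]
    simp only
    rw [← ee_add, Ps_mid Pf hm hl hx, ← sub_div]
    congr 1
    have e1 : x - m = (x - m) / (lam - 2 * m) * (lam - 2 * m) := (div_mul_cancel₀ _ hl.ne').symm
    have e2 : N * D * ((k / N - T) / D) = k - N * T := by field_simp
    set s := (x - m) / (lam - 2 * m) with hs
    linear_combination (k - N * T) * e1 - s * (lam - 2 * m) * e2
  rw [h1, intervalIntegral.integral_comp_div_sub (f := F) hl.ne']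
  have e1 : m / (lam - 2 * m) - m / (lam - 2 * m) = 0 := by ring
  have e2 : (lam - m) / (lam - 2 * m) - m / (lam - 2 * m) = 1 := by
    rw [← sub_div, div_eq_one_iff_eq hl.ne']; ring
  rw [e1, e2, hF, intervalIntegral.integral_const_mul, Complex.real_smul]

theorem ee_cont_Ps (hm : 0 < m) (hl : 0 < lam - 2 * m) (N k : ℝ) :
    Continuous fun x => ee (k * x - N * Ps Pf lam m T D u v x) := by
  have h : Continuous (Ps Pf lam m T D u v) := by
    unfold Ps
    exact intervalIntegral.continuous_primitive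
      (fun a b => (bt_cont Pf hm hl).intervalIntegrable a b) 0
  exact ee_continuous.comp (by fun_prop)

/-- main estimate for one band, with the steered mid values -/
theorem band_est (hV : V2) (hm : 0 < m) (hl : 0 < lam - 2 * m) (hD : 0 < D) {N k al : ℝ}
    (hN : 0 < N) (hL : Pf.L0 ≤ N * D * (lam - 2 * m))
    (hu1 : 1 / 16 ≤ |u - 1 / 2|) (hu2 : 1 / 16 ≤ |u - T|)
    (hv1 : 1 / 16 ≤ |v - 1 / 2|) (hv2 : 1 / 16 ≤ |v - (T + D)|)
    (hst : ∃ j : ℤ, -(N * Ps Pf lam m T D u v m) = al + 1 / 8 + j) :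
    ‖((Real.sqrt N : ℝ) : ℂ) * (∫ x in (0:ℝ)..lam, ee (k * x - N * Ps Pf lam m T D u v x)) -
      ((Real.sqrt ((lam - 2 * m) / D) * (Real.sqrt Pf.kap * Pf.w ((k / N - T) / D)) : ℝ) : ℂ) *
        ee (al + k * m + N * D * (lam - 2 * m) * Pf.g ((k / N - T) / D))‖ ≤
      Real.sqrt ((lam - 2 * m) / D) * e + 12 * Real.sqrt (8 * m) := by
  set Psi := Ps Pf lam m T D u v with hPsi
  set I : ℝ → ℝ → ℂ := fun a b => ∫ x in a..b, ee (k * x - N * Psi x) with hI
  have hint : ∀ a b : ℝ, IntervalIntegrable (fun x => ee (k * x - N * Psi x)) volume a b :=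
    fun a b => (ee_cont_Ps Pf hm hl N k).intervalIntegrable _ _
  have hsplit : I 0 lam = I 0 (m / 2) + I (m / 2) m + I m (lam - m) +
      I (lam - m) (lam - m / 2) + I (lam - m / 2) lam := by
    simp only [hI]
    rw [intervalIntegral.integral_add_adjacent_intervals (hint _ _) (hint _ _),
      intervalIntegral.integral_add_adjacent_intervals (hint _ _) (hint _ _),
      intervalIntegral.integral_add_adjacent_intervals (hint _ _) (hint _ _),
      intervalIntegral.integral_add_adjacent_intervals (hint _ _) (hint _ _)]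
  have b1 : Real.sqrt N * ‖I 0 (m / 2)‖ ≤ 3 * Real.sqrt (8 * m) :=
    seg_bound' hV hm (by ring) hN hu1 (Psi := Psi) (P0 := 0)
      (fun x hx => Ps1 Pf hm hl hx)
  have b2 : Real.sqrt N * ‖I (m / 2) m‖ ≤ 3 * Real.sqrt (8 * m) :=
    seg_bound' hV hm (by ring) hN (by rwa [abs_sub_comm]) (Psi := Psi)
      (P0 := Psi (m / 2)) (fun x hx => Ps2 Pf hm hl hx)
  have b4 : Real.sqrt N * ‖I (lam - m) (lam - m / 2)‖ ≤ 3 * Real.sqrt (8 * m) :=
    seg_bound' hV hm (by ring) hN hv2 (Psi := Psi)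
      (P0 := Psi (lam - m)) (fun x hx => Ps4 Pf hm hl hx)
  have b5 : Real.sqrt N * ‖I (lam - m / 2) lam‖ ≤ 3 * Real.sqrt (8 * m) :=
    seg_bound' hV hm (by ring) hN (by rwa [abs_sub_comm]) (Psi := Psi)
      (P0 := Psi (lam - m / 2)) (fun x hx => Ps5 Pf hm hl hx)
  set y := (k / N - T) / D with hy
  set L := N * D * (lam - 2 * m) with hLdef
  set J : ℂ := ∫ x in (0:ℝ)..1, ee (L * (x * y - ∫ s in (0:ℝ)..x, Pf.gam s)) with hJ
  have b3 : I m (lam - m) = ((lam - 2 * m : ℝ) : ℂ) * (ee (k * m - N * Psi m) * J) :=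
    mid_int Pf hm hl hD hN
  obtain ⟨j, hj⟩ := hst
  have hph : ee (k * m - N * Psi m) = ee (al + k * m + 1 / 8) := by
    have : k * m - N * Psi m = al + k * m + 1 / 8 + j := by
      have : -(N * Psi m) = al + 1 / 8 + j := hj
      linarith
    rw [this, ee_add_int]
  have hL0 : 0 < L := by rw [hLdef]; positivity
  have hsq : Real.sqrt N * (lam - 2 * m) = Real.sqrt ((lam - 2 * m) / D) * Real.sqrt L := by
    rw [← Real.sqrt_mul (by positivity), hLdef]
    have : (lam - 2 * m) / D * (N * D * (lam - 2 * m)) = N * (lam - 2 * m) ^ 2 := by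
      field_simp
    rw [this, Real.sqrt_mul hN.le, Real.sqrt_sq hl.le]
  have has := Pf.asym L hL y
  have hmid : ‖((Real.sqrt N : ℝ) : ℂ) * I m (lam - m) -
      ((Real.sqrt ((lam - 2 * m) / D) * (Real.sqrt Pf.kap * Pf.w y) : ℝ) : ℂ) *
        ee (al + k * m + L * Pf.g y)‖ ≤ Real.sqrt ((lam - 2 * m) / D) * e := by
    have e1 : ((Real.sqrt N : ℝ) : ℂ) * I m (lam - m) =
        ((Real.sqrt ((lam - 2 * m) / D) : ℝ) : ℂ) * (ee (al + k * m + 1 / 8) *
          (((Real.sqrt L : ℝ) : ℂ) * J)) := by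
      rw [b3, hph]
      have h2 : ((Real.sqrt N : ℝ) : ℂ) * ((lam - 2 * m : ℝ) : ℂ) =
          ((Real.sqrt ((lam - 2 * m) / D) : ℝ) : ℂ) * ((Real.sqrt L : ℝ) : ℂ) := by
        rw [← Complex.ofReal_mul, hsq, Complex.ofReal_mul]
      calc ((Real.sqrt N : ℝ) : ℂ) * (((lam - 2 * m : ℝ) : ℂ) * (ee (al + k * m + 1 / 8) * J)) =
          (((Real.sqrt N : ℝ) : ℂ) * ((lam - 2 * m : ℝ) : ℂ)) * (ee (al + k * m + 1 / 8) * J) := by
            ring
        _ = _ := by rw [h2]; ring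
    have e2 : ee (al + k * m + L * Pf.g y) = ee (al + k * m + 1 / 8) *
        ee (L * Pf.g y - 1 / 8) := by
      rw [← ee_add]; congr 1; ring
    rw [e1, e2, Complex.ofReal_mul]
    have e3 : ((Real.sqrt ((lam - 2 * m) / D) : ℝ) : ℂ) * (ee (al + k * m + 1 / 8) *
          (((Real.sqrt L : ℝ) : ℂ) * J)) - ((Real.sqrt ((lam - 2 * m) / D) : ℝ) : ℂ) *
          ((Real.sqrt Pf.kap * Pf.w y : ℝ) : ℂ) * (ee (al + k * m + 1 / 8) *
            ee (L * Pf.g y - 1 / 8)) =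
        ((Real.sqrt ((lam - 2 * m) / D) : ℝ) : ℂ) * (ee (al + k * m + 1 / 8) *
          (((Real.sqrt L : ℝ) : ℂ) * J - ((Real.sqrt Pf.kap * Pf.w y : ℝ) : ℂ) *
            ee (L * Pf.g y - 1 / 8))) := by ring
    rw [e3, norm_mul, norm_mul, norm_ee, one_mul, Complex.norm_real, Real.norm_eq_abs,
      abs_of_nonneg (Real.sqrt_nonneg _)]
    exact mul_le_mul_of_nonneg_left has (Real.sqrt_nonneg _)
  have hfin : ((Real.sqrt N : ℝ) : ℂ) * I 0 lam -
      ((Real.sqrt ((lam - 2 * m) / D) * (Real.sqrt Pf.kap * Pf.w y) : ℝ) : ℂ) *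
        ee (al + k * m + L * Pf.g y) =
      (((Real.sqrt N : ℝ) : ℂ) * I m (lam - m) -
      ((Real.sqrt ((lam - 2 * m) / D) * (Real.sqrt Pf.kap * Pf.w y) : ℝ) : ℂ) *
        ee (al + k * m + L * Pf.g y)) + (((Real.sqrt N : ℝ) : ℂ) * I 0 (m / 2) +
        (((Real.sqrt N : ℝ) : ℂ) * I (m / 2) m + (((Real.sqrt N : ℝ) : ℂ) *
          I (lam - m) (lam - m / 2) + ((Real.sqrt N : ℝ) : ℂ) * I (lam - m / 2) lam))) := by
    rw [hsplit]; ring
  have hn : ∀ z : ℂ, ‖((Real.sqrt N : ℝ) : ℂ) * z‖ = Real.sqrt N * ‖z‖ := by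
    intro z
    rw [norm_mul, Complex.norm_real, Real.norm_eq_abs, abs_of_nonneg (Real.sqrt_nonneg _)]
  show ‖((Real.sqrt N : ℝ) : ℂ) * I 0 lam - _‖ ≤ _
  rw [hfin]
  refine (norm_add_le _ _).trans ?_
  have t1 := norm_add_le (((Real.sqrt N : ℝ) : ℂ) * I 0 (m / 2)) (((Real.sqrt N : ℝ) : ℂ) *
    I (m / 2) m + (((Real.sqrt N : ℝ) : ℂ) * I (lam - m) (lam - m / 2) +
      ((Real.sqrt N : ℝ) : ℂ) * I (lam - m / 2) lam))
  have t2 := norm_add_le (((Real.sqrt N : ℝ) : ℂ) * I (m / 2) m) (((Real.sqrt N : ℝ) : ℂ) *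
    I (lam - m) (lam - m / 2) + ((Real.sqrt N : ℝ) : ℂ) * I (lam - m / 2) lam)
  have t3 := norm_add_le (((Real.sqrt N : ℝ) : ℂ) * I (lam - m) (lam - m / 2))
    (((Real.sqrt N : ℝ) : ℂ) * I (lam - m / 2) lam)
  rw [hn] at t1 t2 t3
  rw [hn] at t3
  linarith

end

/-- **Band lemma.** -/
theorem band {e : ℝ} (Pf : Profile e) (hV : V2) {lam ze T D eta al : ℝ} (hlam : 0 < lam)
    (hze : 0 < ze) (hze4 : ze ≤ 1 / 4) (hD : 0 < D) (heta : 0 < eta) (heta8 : eta ≤ 1 / 8)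
    (hT : eta ≤ T) (hT1 : T + D ≤ 1 - eta) :
    ∃ (K : NNReal) (N0 : ℕ), ∀ N : ℕ, N0 ≤ N → ∃ tau : ℝ → ℝ, LipschitzWith K tau ∧
      tau 0 = 1 / 2 ∧ tau lam = 1 / 2 ∧
      (∀ x ∈ Icc 0 lam, eta ≤ tau x ∧ tau x ≤ 1 - eta) ∧
      (∃ j : ℤ, (N : ℝ) * ∫ x in (0:ℝ)..lam, tau x = j) ∧
      ∀ k : ℝ, ‖((Real.sqrt N : ℝ) : ℂ) *
          (∫ x in (0:ℝ)..lam, ee (k * x - N * ∫ s in (0:ℝ)..x, tau s)) -
        ((Real.sqrt (1 - 2 * ze) * Real.sqrt Pf.kap * Pf.w ((k / N - T) / D) *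
          Real.sqrt (lam / D) : ℝ) : ℂ) *
          ee (al + lam * (ze * k + (1 - 2 * ze) * (N * D * Pf.g ((k / N - T) / D))))‖ ≤
        Real.sqrt (lam / D) * e + 12 * Real.sqrt (8 * (ze * lam)) := by
  have he : 0 ≤ e := by linarith [Pf.one_le, Pf.le]
  set m := ze * lam with hmdef
  have hm : 0 < m := mul_pos hze hlam
  have hl : 0 < lam - 2 * m := by
    rw [hmdef]
    nlinarith
  have hl' : lam - 2 * m = (1 - 2 * ze) * lam := by rw [hmdef]; ring
  set K : NNReal := ⟨2 / m + D * Pf.Cg / (lam - 2 * m), by positivity⟩ with hK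
  obtain ⟨N0, hN0⟩ := exists_nat_ge (max (max 1 (32 / m)) (Pf.L0 / (D * (lam - 2 * m))))
  refine ⟨K, N0, fun N hN => ?_⟩
  have hNr : (N0 : ℝ) ≤ N := by exact_mod_cast hN
  have hN1 : (1:ℝ) ≤ N := ((le_max_left _ _).trans (le_max_left _ _)).trans (hN0.trans hNr)
  have hNpos : (0:ℝ) < N := by linarith
  have hN2 : 32 / m ≤ N := ((le_max_right _ _).trans (le_max_left _ _)).trans (hN0.trans hNr)
  have hN3 : Pf.L0 / (D * (lam - 2 * m)) ≤ N := (le_max_right _ _).trans (hN0.trans hNr)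
  have h32 : 32 ≤ (N:ℝ) * m := by rwa [div_le_iff₀ hm] at hN2
  have hL : Pf.L0 ≤ N * D * (lam - 2 * m) := by
    rw [div_le_iff₀ (by positivity)] at hN3
    linarith
  obtain ⟨u, hu0, hu1, hu2, hu3, j1, hj1⟩ := steer hNpos hm h32 (T := T) (-(al + 1 / 8))
  have hv : ∀ v v', Ps Pf lam m T D u v (lam - m) = Ps Pf lam m T D u v' (lam - m) := by
    intro v v'
    rw [Ps_mid Pf hm hl ⟨by linarith, le_rfl⟩, Ps_mid Pf hm hl ⟨by linarith, le_rfl⟩,
      Ps_m Pf hm hl, Ps_m Pf hm hl]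
  obtain ⟨v, hv0, hv1, hv2, hv3, j2, hj2⟩ := steer hNpos hm h32 (T := T + D)
    (-(N * Ps Pf lam m T D u 0 (lam - m)))
  refine ⟨bt Pf lam m T D u v, ?_, bt_zero Pf hm hl, bt_lam Pf hm hl, ?_, ?_, ?_⟩
  · refine bt_lip Pf hm hl hD.le ?_ ?_ (abs_le.2 ⟨by linarith, by linarith⟩)
      (abs_le.2 ⟨by linarith, by linarith⟩) (by linarith) (by linarith) (by linarith)
      (by linarith)
    · show D * Pf.Cg / (lam - 2 * m) ≤ 2 / m + D * Pf.Cg / (lam - 2 * m)
      have : 0 ≤ 2 / m := by positivity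
      linarith
    · show 2 / m ≤ 2 / m + D * Pf.Cg / (lam - 2 * m)
      have : 0 ≤ D * Pf.Cg / (lam - 2 * m) := by positivity
      linarith
  · intro x hx
    exact bt_mem Pf hm hl hD.le heta8 hT hT1 ⟨hu0, hu1⟩ ⟨hv0, hv1⟩ hx
  · refine ⟨j2, ?_⟩
    have h1 : (∫ x in (0:ℝ)..lam, bt Pf lam m T D u v x) = Ps Pf lam m T D u v lam := rfl
    rw [h1, Ps_lam Pf hm hl, mul_add, hj2, hv v 0]
    ring
  · intro k
    have hst : ∃ j : ℤ, -((N:ℝ) * Ps Pf lam m T D u v m) = al + 1 / 8 + j := by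
      refine ⟨-j1, ?_⟩
      rw [Ps_m Pf hm hl, hj1]
      push_cast
      ring
    have h := band_est Pf hV hm hl hD (k := k) hNpos hL hu2 hu3 hv2 hv3 hst
    have e1 : Real.sqrt ((lam - 2 * m) / D) * (Real.sqrt Pf.kap * Pf.w ((k / N - T) / D)) =
        Real.sqrt (1 - 2 * ze) * Real.sqrt Pf.kap * Pf.w ((k / N - T) / D) *
          Real.sqrt (lam / D) := by
      rw [hl', mul_div_assoc, Real.sqrt_mul (by linarith)]
      ring
    have e2 : al + k * m + N * D * (lam - 2 * m) * Pf.g ((k / N - T) / D) =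
        al + lam * (ze * k + (1 - 2 * ze) * (N * D * Pf.g ((k / N - T) / D))) := by
      rw [hl', hmdef]
      ring
    rw [e1, e2] at h
    refine h.trans ?_
    have h3 : Real.sqrt ((lam - 2 * m) / D) ≤ Real.sqrt (lam / D) := by
      refine Real.sqrt_le_sqrt (div_le_div_of_nonneg_right ?_ hD.le)
      linarith
    have h4 := mul_le_mul_of_nonneg_right h3 he
    linarith

end

end Crest.Agent.R075.Ana
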