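import Crest.Agent.R075.Basic

/-!
Row 75 (helper20), THM A: common definitions: `ee`, the profile data, gluing of Lipschitz functions.
-/

set_option autoImplicit false

namespace Crest.Agent.R075.Ana

open MeasureTheory Set Real

noncomputable section

/-- profile data with error `e` -/
structure Profile (e : ℝ) where
  kap : ℝ
  one_le : 1 ≤ kap
  le : kap ≤ 1 + e
  gam : ℝ → ℝ
  Cg : NNReal
  lip : LipschitzWith Cg gam
  mem : ∀ x, 0 ≤ gam x ∧ gam x ≤ 1
  gam0 : gam 0 = 0
  gam1 : gam 1 = 1
  w : ℝ → ℝ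
  w_nonneg : ∀ y, 0 ≤ w y
  w_le : ∀ y, w y ≤ 1
  w_off : ∀ y, y < 0 ∨ 1 < y → w y = 0
  g : ℝ → ℝ
  L0 : ℝ
  asym : ∀ L : ℝ, L0 ≤ L → ∀ y : ℝ,
    ‖((Real.sqrt L : ℝ) : ℂ) * (∫ x in (0:ℝ)..1, ee (L * (x * y - ∫ s in (0:ℝ)..x, gam s))) -
      ((Real.sqrt kap * w y : ℝ) : ℂ) * ee (L * g y - 1 / 8)‖ ≤ e

/-- the second derivative test for quadratic phases (helper201) -/
def V2 : Prop := ∀ s mu nu a b : ℝ, s ≠ 0 → a ≤ b →
  ‖∫ x in a..b, ee (s / 2 * x ^ 2 + mu * x + nu)‖ ≤ 3 / Real.sqrt |s|

/-! ### gluing -/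

/-- glue two functions at `z` -/
def glue (z : ℝ) (f g : ℝ → ℝ) (x : ℝ) : ℝ := if x ≤ z then f x else g x

theorem glue_le {z : ℝ} {f g : ℝ → ℝ} {x : ℝ} (h : x ≤ z) : glue z f g x = f x := if_pos h

theorem glue_ge {z : ℝ} {f g : ℝ → ℝ} (hfg : f z = g z) {x : ℝ} (h : z ≤ x) :
    glue z f g x = g x := by
  unfold glue
  split_ifs with h1
  · have : x = z := le_antisymm h1 h
    rw [this, hfg]
  · rfl

theorem glue_lip {z : ℝ} {f g : ℝ → ℝ} {K : NNReal} (hf : LipschitzWith K f)
    (hg : LipschitzWith K g) (hfg : f z = g z) : LipschitzWith K (glue z f g) := by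
  refine LipschitzWith.of_dist_le_mul fun x y => ?_
  have key : ∀ x y : ℝ, x ≤ y → dist (glue z f g x) (glue z f g y) ≤ K * dist x y := by
    intro x y hxy
    by_cases h1 : y ≤ z
    · rw [glue_le h1, glue_le (hxy.trans h1)]
      exact hf.dist_le_mul x y
    · by_cases h2 : z ≤ x
      · rw [glue_ge hfg h2, glue_ge hfg (h2.trans hxy)]
        exact hg.dist_le_mul x y
      · push Not at h1 h2
        rw [glue_le h2.le, glue_ge hfg h1.le]
        calc dist (f x) (g y) ≤ dist (f x) (f z) + dist (g z) (g y) := by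
              have := dist_triangle (f x) (f z) (g y)
              rwa [hfg] at this ⊢
          _ ≤ K * dist x z + K * dist z y :=
              add_le_add (hf.dist_le_mul x z) (hg.dist_le_mul z y)
          _ = K * dist x y := by
              rw [← mul_add]
              congr 1
              rw [Real.dist_eq, Real.dist_eq, Real.dist_eq, abs_of_neg (by linarith),
                abs_of_neg (by linarith), abs_of_nonpos (by linarith)]
              ring
  rcases le_total x y with h | h
  · exact key x y h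
  · rw [dist_comm, dist_comm x y]
    exact key y x h

/-- affine function with value `u` at `a` and `v` at `b` -/
def seg (a b u v x : ℝ) : ℝ := u + (v - u) / (b - a) * (x - a)

theorem seg_left (a b u v : ℝ) : seg a b u v a = u := by unfold seg; ring

theorem seg_right {a b : ℝ} (u v : ℝ) (h : a ≠ b) : seg a b u v b = v := by
  unfold seg
  have : b - a ≠ 0 := sub_ne_zero.2 (Ne.symm h)
  rw [div_mul_cancel₀ _ this]
  ring

theorem seg_mem {a b u v lo hi x : ℝ} (h : a < b) (hx : x ∈ Icc a b) (hu : lo ≤ u ∧ u ≤ hi)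
    (hv : lo ≤ v ∧ v ≤ hi) : lo ≤ seg a b u v x ∧ seg a b u v x ≤ hi := by
  unfold seg
  obtain ⟨h1, h2⟩ := hx
  set r := (x - a) / (b - a) with hr
  have hba : 0 < b - a := by linarith
  have hr0 : 0 ≤ r := div_nonneg (by linarith) hba.le
  have hr1 : r ≤ 1 := by rw [hr, div_le_one hba]; linarith
  have e : u + (v - u) / (b - a) * (x - a) = (1 - r) * u + r * v := by
    rw [hr]; field_simp; ring
  rw [e]
  constructor <;> nlinarith [hu.1, hu.2, hv.1, hv.2]

theorem seg_lip {a b u v : ℝ} {K : NNReal} (hK : |(v - u) / (b - a)| ≤ K) :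
    LipschitzWith K (seg a b u v) := by
  refine LipschitzWith.of_dist_le_mul fun x y => ?_
  rw [Real.dist_eq, Real.dist_eq]
  have e : seg a b u v x - seg a b u v y = (v - u) / (b - a) * (x - y) := by unfold seg; ring
  rw [e, abs_mul]
  exact mul_le_mul_of_nonneg_right hK (abs_nonneg _)

theorem continuous_seg (a b u v : ℝ) : Continuous (seg a b u v) := by
  unfold seg; fun_prop

theorem integral_seg (a b u v c x : ℝ) :
    ∫ s in c..x, seg a b u v s =
      ((v - u) / (b - a)) * ((x - a) ^ 2 - (c - a) ^ 2) / 2 + u * (x - c) := by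
  unfold seg
  have h : ∀ s ∈ uIcc c x, HasDerivAt (fun s => u * s + (v - u) / (b - a) * (s - a) ^ 2 / 2)
      (u + (v - u) / (b - a) * (s - a)) s := by
    intro s _
    have h1 := ((hasDerivAt_id s).const_mul u)
    have h2 := (((hasDerivAt_id s).sub_const a).pow 2).const_mul ((v - u) / (b - a))
    have h3 := h1.add (h2.div_const 2)
    refine h3.congr_deriv ?_
    simp
    ring
  rw [intervalIntegral.integral_eq_sub_of_hasDerivAt h
    ((continuous_const.add (continuous_const.mul
      (continuous_id.sub continuous_const))).intervalIntegrable _ _)]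
  ring

end

end Crest.Agent.R075.Ana
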