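import Crest.Agent.R075.Basic

/-! Row 75, THM A, Fourier part (helper544): Lipschitz curves, trapezoid cut-off. -/

set_option autoImplicit false

open MeasureTheory Set intervalIntegral

namespace Crest.Agent.R075

/-- the real coefficients attached to the curve `t` on `[0,1/2]` -/
noncomputable def ck (N : ℕ) (t : ℝ → ℝ) (k : ℤ) : ℝ :=
  2 * Real.sqrt N * (∫ x in (0 : ℝ)..(1 / 2), ee (k * x - N * ∫ y in (0 : ℝ)..x, t y)).re

namespace Fou

/-- distance to the nearest integer -/
noncomputable def cn (x : ℝ) : ℝ := ‖(x : UnitAddCircle)‖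

lemma cn_add_one (x : ℝ) : cn (x + 1) = cn x := by
  unfold cn
  congr 1
  exact AddCircle.coe_add_period 1 x

lemma cn_neg (x : ℝ) : cn (-x) = cn x := by
  unfold cn
  rw [← norm_neg (x : UnitAddCircle)]
  congr 1

lemma cn_mem (x : ℝ) : cn x ∈ Icc (0 : ℝ) (1 / 2) := by
  refine ⟨norm_nonneg _, ?_⟩
  have := AddCircle.norm_le_half_period (p := (1 : ℝ)) (x := (x : UnitAddCircle)) one_ne_zero
  simpa [cn] using this

lemma cn_eq {x : ℝ} (hx : x ∈ Icc (0 : ℝ) (1 / 2)) : cn x = x := by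
  have := (AddCircle.norm_coe_eq_abs_iff (1 : ℝ) (x := x) one_ne_zero).2 (by
    rw [abs_of_nonneg hx.1, abs_one]; exact hx.2)
  rw [abs_of_nonneg hx.1] at this
  exact this

lemma cn_sub_le (x y : ℝ) : |cn x - cn y| ≤ |x - y| := by
  unfold cn
  refine (abs_norm_sub_norm_le _ _).trans ?_
  have h : ((x : UnitAddCircle) - (y : UnitAddCircle)) = ((x - y : ℝ) : UnitAddCircle) := rfl
  rw [h, UnitAddCircle.norm_eq]
  by_cases h1 : |x - y| ≤ 1 / 2
  · have := (AddCircle.norm_coe_eq_abs_iff (1 : ℝ) (x := x - y) one_ne_zero).2 (by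
      rwa [abs_one])
    rw [UnitAddCircle.norm_eq] at this
    exact this.le
  · have h2 := abs_sub_round (x - y)
    linarith [not_le.1 h1]

/-- the even, 1-periodic extension of the curve -/
noncomputable def tt (t : ℝ → ℝ) (x : ℝ) : ℝ := t (cn x)

variable {t : ℝ → ℝ} {Kl : NNReal}

lemma tt_lip (ht : LipschitzOnWith Kl t (Icc 0 (1 / 2))) (x y : ℝ) : |tt t x - tt t y| ≤ Kl * |x - y| := by
  have h := ht.dist_le_mul _ (cn_mem x) _ (cn_mem y)
  rw [Real.dist_eq, Real.dist_eq] at h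
  exact h.trans (mul_le_mul_of_nonneg_left (cn_sub_le x y) Kl.2)

lemma tt_cont (ht : LipschitzOnWith Kl t (Icc 0 (1 / 2))) : Continuous (tt t) := by
  have : LipschitzWith Kl (tt t) := by
    apply LipschitzWith.of_dist_le_mul
    intro x y
    rw [Real.dist_eq, Real.dist_eq]
    exact tt_lip ht x y
  exact this.continuous

lemma tt_add_one (x : ℝ) : tt t (x + 1) = tt t x := by unfold tt; rw [cn_add_one]

lemma tt_neg (x : ℝ) : tt t (-x) = tt t x := by unfold tt; rw [cn_neg]

/-- the phase -/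
noncomputable def Ps (t : ℝ → ℝ) (x : ℝ) : ℝ := ∫ y in (0 : ℝ)..x, tt t y

lemma Ps_eq {x : ℝ} (hx : x ∈ Icc (0 : ℝ) (1 / 2)) : Ps t x = ∫ y in (0 : ℝ)..x, t y := by
  unfold Ps
  apply intervalIntegral.integral_congr
  intro y hy
  rw [uIcc_of_le hx.1] at hy
  simp only [tt]
  rw [cn_eq ⟨hy.1, hy.2.trans hx.2⟩]

lemma Ps_neg (x : ℝ) : Ps t (-x) = - Ps t x := by
  unfold Ps
  have h := intervalIntegral.integral_comp_neg (a := (0 : ℝ)) (b := x) (f := tt t)
  rw [neg_zero] at h
  rw [intervalIntegral.integral_symm (-x) 0, ← h]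
  congr 1
  apply intervalIntegral.integral_congr
  intro y _
  exact tt_neg y

lemma Ps_sub (ht : LipschitzOnWith Kl t (Icc 0 (1 / 2))) (x y : ℝ) :
    Ps t y - Ps t x = ∫ s in x..y, tt t s := by
  unfold Ps
  rw [← intervalIntegral.integral_add_adjacent_intervals
    ((tt_cont ht).intervalIntegrable 0 x) ((tt_cont ht).intervalIntegrable x y)]
  ring

lemma Ps_cont (ht : LipschitzOnWith Kl t (Icc 0 (1 / 2))) : Continuous (Ps t) := by
  unfold Ps
  exact intervalIntegral.continuous_primitive (fun a b => (tt_cont ht).intervalIntegrable a b) 0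

lemma Ps_per (ht : LipschitzOnWith Kl t (Icc 0 (1 / 2))) (x : ℝ) :
    Ps t (x + 1) = Ps t x + 2 * ∫ y in (0 : ℝ)..(1 / 2), t y := by
  have h1 := Ps_sub ht x (x + 1)
  have hp : Function.Periodic (tt t) 1 := tt_add_one
  have h2 := hp.intervalIntegral_add_eq x (-(1 / 2))
  have h3 : (∫ y in (-(1 / 2) : ℝ)..(-(1 / 2) + 1), tt t y) = Ps t (1 / 2) - Ps t (-(1 / 2)) := by
    rw [Ps_sub ht]
    norm_num
  have h4 := Ps_eq (t := t) (x := 1 / 2) ⟨by norm_num, le_rfl⟩
  rw [Ps_neg] at h3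
  rw [← h4]
  linarith

lemma Ps_taylor (ht : LipschitzOnWith Kl t (Icc 0 (1 / 2))) (x v : ℝ) :
    |Ps t (x + v) - Ps t x - tt t x * v| ≤ Kl * v ^ 2 := by
  rw [Ps_sub ht]
  have h1 : (∫ s in x..(x + v), tt t s) - tt t x * v = ∫ s in x..(x + v), (tt t s - tt t x) := by
    rw [intervalIntegral.integral_sub ((tt_cont ht).intervalIntegrable _ _)
      (continuous_const.intervalIntegrable _ _)]
    simp
    ring
  rw [h1]
  have h2 := intervalIntegral.norm_integral_le_of_norm_le_const (a := x) (b := x + v)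
    (f := fun s => tt t s - tt t x) (C := Kl * |v|) (by
      intro s hs
      rw [Real.norm_eq_abs]
      refine (tt_lip ht s x).trans (mul_le_mul_of_nonneg_left ?_ Kl.2)
      rcases le_total 0 v with hv | hv
      · rw [uIoc_of_le (by linarith)] at hs
        rw [abs_of_nonneg hv, abs_of_nonneg (by linarith [hs.1])]
        linarith [hs.2]
      · rw [uIoc_of_ge (by linarith)] at hs
        rw [abs_of_nonpos hv, abs_of_nonpos (by linarith [hs.2])]
        linarith [hs.1])
  rw [Real.norm_eq_abs] at h2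
  refine h2.trans (le_of_eq ?_)
  rw [add_sub_cancel_left, mul_assoc, ← abs_mul, ← sq, abs_of_nonneg (sq_nonneg v)]

/-- the unimodular function -/
noncomputable def Pf (N : ℕ) (t : ℝ → ℝ) (x : ℝ) : ℂ := ee (-(N * Ps t x))

lemma Pf_cont (N : ℕ) (ht : LipschitzOnWith Kl t (Icc 0 (1 / 2))) : Continuous (Pf N t) := by
  unfold Pf
  exact ee_continuous.comp (continuous_const.mul (Ps_cont ht)).neg

lemma Pf_per {N : ℕ} (ht : LipschitzOnWith Kl t (Icc 0 (1 / 2)))
    (hj : ∃ j : ℤ, 2 * N * (∫ x in (0 : ℝ)..(1 / 2), t x) = j) (x : ℝ) : Pf N t (x + 1) = Pf N t x := by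
  obtain ⟨j, hj⟩ := hj
  unfold Pf
  rw [Ps_per ht]
  have : (-(N * (Ps t x + 2 * ∫ y in (0 : ℝ)..(1 / 2), t y)) : ℝ) = -(N * Ps t x) + ((-j : ℤ) : ℝ) := by
    push_cast
    rw [← hj]
    ring
  rw [this, ee_add_int]

lemma norm_Pf (N : ℕ) (x : ℝ) : ‖Pf N t x‖ = 1 := norm_ee _

lemma ck_eq (N : ℕ) (ht : LipschitzOnWith Kl t (Icc 0 (1 / 2))) (k : ℤ) :
    ((ck N t k : ℝ) : ℂ) = Real.sqrt N * ∫ x in (-(1 / 2) : ℝ)..(1 / 2), ee (k * x) * Pf N t x := by
  set f : ℝ → ℂ := fun x => ee (k * x) * Pf N t x with hf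
  have hfc : Continuous f := (ee_continuous.comp (continuous_const.mul continuous_id)).mul (Pf_cont N ht)
  have h1 : (∫ x in (-(1 / 2) : ℝ)..(1 / 2), f x)
      = (∫ x in (-(1 / 2) : ℝ)..0, f x) + ∫ x in (0 : ℝ)..(1 / 2), f x :=
    (intervalIntegral.integral_add_adjacent_intervals (hfc.intervalIntegrable _ _)
      (hfc.intervalIntegrable _ _)).symm
  have h2 : (∫ x in (-(1 / 2) : ℝ)..0, f x) = ∫ x in (0 : ℝ)..(1 / 2), f (-x) := by
    rw [intervalIntegral.integral_comp_neg]
    norm_num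
  have h3 : ∀ x, f (-x) = (starRingEnd ℂ) (f x) := by
    intro x
    simp only [hf, Pf]
    rw [map_mul, ee_conj, ee_conj, Ps_neg]
    congr 2 <;> ring
  have h4 : (∫ x in (0 : ℝ)..(1 / 2), f (-x)) = (starRingEnd ℂ) (∫ x in (0 : ℝ)..(1 / 2), f x) := by
    rw [← intervalIntegral.intervalIntegral_conj]
    apply intervalIntegral.integral_congr
    intro x _
    exact h3 x
  have h5 : (∫ x in (0 : ℝ)..(1 / 2), f x) = ∫ x in (0 : ℝ)..(1 / 2), ee (k * x - N * ∫ y in (0 : ℝ)..x, t y) := by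
    apply intervalIntegral.integral_congr
    intro x hx
    rw [uIcc_of_le (by norm_num)] at hx
    simp only [hf, Pf]
    rw [Ps_eq hx, ← ee_add]
    congr 1
  rw [h1, h2, h4, h5]
  unfold ck
  set I := ∫ x in (0 : ℝ)..(1 / 2), ee (k * x - N * ∫ y in (0 : ℝ)..x, t y)
  apply Complex.ext
  · simp [Complex.mul_re]
    ring
  · simp [Complex.mul_im]

/-- the kernel (product of two Dirichlet kernels) -/
noncomputable def Kr (c p q : ℕ) (v : ℝ) : ℂ :=
  (1 / (q : ℂ)) * ∑ j ∈ Finset.range q, ∑ i ∈ Finset.range p, ee (((c + i + j : ℕ) : ℝ) * v)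

lemma Kr_cont (c p q : ℕ) : Continuous (Kr c p q) := by
  unfold Kr
  apply continuous_const.mul
  apply continuous_finsetSum
  intro j _
  apply continuous_finsetSum
  intro i _
  exact ee_continuous.comp (continuous_const.mul continuous_id)

lemma Kr_per (c p q : ℕ) (v : ℝ) : Kr c p q (v + 1) = Kr c p q v := by
  unfold Kr
  congr 1
  apply Finset.sum_congr rfl
  intro j _
  apply Finset.sum_congr rfl
  intro i _
  rw [mul_add, mul_one]
  have := ee_add_int (((c + i + j : ℕ) : ℝ) * v) ((c + i + j : ℕ) : ℤ)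
  rwa [Int.cast_natCast] at this

lemma Kr_eq (c p q : ℕ) (v : ℝ) : Kr c p q v = (1 / (q : ℂ)) * (ee (c * v) *
    ((∑ j ∈ Finset.range q, ee v ^ j) * (∑ i ∈ Finset.range p, ee v ^ i))) := by
  unfold Kr
  congr 1
  rw [Finset.sum_mul_sum, Finset.mul_sum]
  apply Finset.sum_congr rfl
  intro j _
  rw [Finset.mul_sum]
  apply Finset.sum_congr rfl
  intro i _
  rw [← ee_mul_nat, ← ee_mul_nat, ← ee_add, ← ee_add]
  congr 1
  push_cast
  ring

lemma norm_Kr_le (c p : ℕ) {q : ℕ} (hq : 0 < q) (v : ℝ) : ‖Kr c p q v‖ ≤ p := by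
  have hq' : (0 : ℝ) < q := by exact_mod_cast hq
  unfold Kr
  rw [norm_mul, norm_div, norm_one, Complex.norm_natCast]
  have : ‖∑ j ∈ Finset.range q, ∑ i ∈ Finset.range p, ee (((c + i + j : ℕ) : ℝ) * v)‖ ≤ q * p := by
    refine (norm_sum_le _ _).trans ?_
    refine (Finset.sum_le_sum (fun j _ => norm_sum_le _ _)).trans ?_
    simp
  calc 1 / (q : ℝ) * _ ≤ 1 / (q : ℝ) * (q * p) := by gcongr
    _ = p := by field_simp

lemma norm_ee_sub_one_ge {v : ℝ} (hv : |v| ≤ 1 / 2) : 4 * |v| ≤ ‖ee v - 1‖ := by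
  have h : ee v = Complex.exp (Complex.I * ((2 * Real.pi * v : ℝ) : ℂ)) := by
    rw [ee_eq]; congr 1; ring
  rw [h, Complex.norm_exp_I_mul_ofReal_sub_one]
  rw [show 2 * Real.pi * v / 2 = Real.pi * v by ring]
  rw [norm_mul, Real.norm_eq_abs, Real.norm_eq_abs, abs_two]
  have h1 : |Real.sin (Real.pi * v)| = Real.sin (Real.pi * |v|) := by
    rcases le_total 0 v with h0 | h0
    · rw [abs_of_nonneg h0] at hv ⊢
      rw [abs_of_nonneg]
      apply Real.sin_nonneg_of_nonneg_of_le_pi (by positivity)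
      nlinarith [Real.pi_pos]
    · rw [abs_of_nonpos h0] at hv ⊢
      have : Real.sin (Real.pi * v) = - Real.sin (Real.pi * -v) := by
        rw [mul_neg, Real.sin_neg]; ring
      rw [this, abs_neg, abs_of_nonneg]
      apply Real.sin_nonneg_of_nonneg_of_le_pi
      · have : 0 ≤ -v := by linarith
        positivity
      · nlinarith [Real.pi_pos]
  rw [h1]
  have h2 := Real.mul_le_sin (x := Real.pi * |v|) (by positivity) (by nlinarith [Real.pi_pos])
  have h3 : 2 / Real.pi * (Real.pi * |v|) = 2 * |v| := by field_simp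
  linarith

lemma norm_geom_le {v : ℝ} (hv : |v| ≤ 1 / 2) (hv0 : v ≠ 0) (n : ℕ) :
    ‖∑ j ∈ Finset.range n, ee v ^ j‖ ≤ 1 / (2 * |v|) := by
  have hpos : 0 < |v| := abs_pos.2 hv0
  have h1 := norm_ee_sub_one_ge hv
  have hne : ee v ≠ 1 := by
    intro h
    rw [h, sub_self, norm_zero] at h1
    linarith
  rw [geom_sum_eq hne, norm_div]
  have h2 : ‖ee v ^ n - 1‖ ≤ 2 := by
    refine (norm_sub_le _ _).trans ?_
    rw [norm_pow, norm_ee, one_pow, norm_one]
    norm_num
  calc ‖ee v ^ n - 1‖ / ‖ee v - 1‖ ≤ 2 / (4 * |v|) := by gcongr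
    _ = 1 / (2 * |v|) := by field_simp; norm_num

lemma norm_Kr_le' (c p : ℕ) {q : ℕ} (hq : 0 < q) {v : ℝ} (hv : |v| ≤ 1 / 2) (hv0 : v ≠ 0) :
    ‖Kr c p q v‖ ≤ 1 / (4 * q * v ^ 2) := by
  have hq' : (0 : ℝ) < q := by exact_mod_cast hq
  have hpos : 0 < |v| := abs_pos.2 hv0
  rw [Kr_eq, norm_mul, norm_mul, norm_mul, norm_ee, norm_div, norm_one, Complex.norm_natCast, one_mul]
  calc 1 / (q : ℝ) * (‖∑ j ∈ Finset.range q, ee v ^ j‖ * ‖∑ i ∈ Finset.range p, ee v ^ i‖)
      ≤ 1 / (q : ℝ) * (1 / (2 * |v|) * (1 / (2 * |v|))) := by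
        gcongr
        · exact norm_geom_le hv hv0 q
        · exact norm_geom_le hv hv0 p
    _ = 1 / (4 * q * |v| ^ 2) := by field_simp; norm_num
    _ = _ := by rw [sq_abs]

/-- orthogonality -/
lemma int_ee (k : ℤ) : (∫ v in (-(1 / 2) : ℝ)..(1 / 2), ee (k * v)) = if k = 0 then 1 else 0 := by
  by_cases hk : k = 0
  · subst hk
    simp
    norm_num
  · rw [if_neg hk]
    have hk' : (k : ℝ) ≠ 0 := by exact_mod_cast hk
    have hkc : (k : ℂ) ≠ 0 := by exact_mod_cast hk
    have hpi : (Real.pi : ℂ) ≠ 0 := by exact_mod_cast Real.pi_ne_zero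
    have hd : ∀ v ∈ uIcc (-(1 / 2) : ℝ) (1 / 2), HasDerivAt
        (fun v : ℝ => ee (k * v) / (2 * Real.pi * Complex.I * k)) (ee (k * v)) v := by
      intro v _
      have h1 : HasDerivAt (fun v : ℝ => (k : ℝ) * v) (k : ℝ) v := by
        simpa using (hasDerivAt_id v).const_mul (k : ℝ)
      have h2 := HasDerivAt.scomp v (ee_hasDerivAt (k * v)) h1
      have h3 := h2.div_const (2 * Real.pi * Complex.I * k : ℂ)
      refine h3.congr_deriv ?_
      simp only [Complex.real_smul, Complex.ofReal_intCast]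
      field_simp
    rw [intervalIntegral.integral_eq_sub_of_hasDerivAt hd]
    · have : ee (k * (1 / 2)) = ee (k * (-(1 / 2))) := by
        have := ee_add_int ((k : ℝ) * (-(1 / 2))) k
        rw [← this]
        congr 1
        ring
      rw [this, sub_self]
    · exact (ee_continuous.comp (continuous_const.mul continuous_id)).intervalIntegrable _ _

lemma int_Kr {c p q : ℕ} (hq : 0 < q) {k : ℤ} (h1 : (c : ℤ) + q ≤ k + 1) (h2 : k < c + p) :
    (∫ v in (-(1 / 2) : ℝ)..(1 / 2), ee (-(k * v)) * Kr c p q v) = 1 := by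
  have hq' : (q : ℂ) ≠ 0 := by exact_mod_cast hq.ne'
  have e : ∀ v : ℝ, ee (-(k * v)) * Kr c p q v = (1 / (q : ℂ)) *
      ∑ j ∈ Finset.range q, ∑ i ∈ Finset.range p, ee ((((c + i + j : ℕ) : ℤ) - k : ℤ) * v) := by
    intro v
    unfold Kr
    rw [mul_left_comm, Finset.mul_sum]
    congr 1
    apply Finset.sum_congr rfl
    intro j _
    rw [Finset.mul_sum]
    apply Finset.sum_congr rfl
    intro i _
    rw [← ee_add]
    congr 1
    push_cast
    ring
  simp_rw [e]
  rw [intervalIntegral.integral_const_mul, intervalIntegral.integral_finsetSum]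
  swap
  · intro j _
    apply Continuous.intervalIntegrable
    apply continuous_finsetSum
    intro i _
    exact ee_continuous.comp (continuous_const.mul continuous_id)
  have e2 : ∀ j ∈ Finset.range q, (∫ v in (-(1 / 2) : ℝ)..(1 / 2),
      ∑ i ∈ Finset.range p, ee ((((c + i + j : ℕ) : ℤ) - k : ℤ) * v)) = 1 := by
    intro j hj
    rw [Finset.mem_range] at hj
    rw [intervalIntegral.integral_finsetSum]
    swap
    · intro i _
      exact (ee_continuous.comp (continuous_const.mul continuous_id)).intervalIntegrable _ _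
    simp_rw [int_ee]
    rw [Finset.sum_eq_single (k - c - j).toNat]
    · rw [if_pos]
      have : (0 : ℤ) ≤ k - c - j := by omega
      push_cast
      rw [Int.toNat_of_nonneg this]
      ring
    · intro i _ hi
      rw [if_neg]
      intro h
      apply hi
      push_cast at h
      omega
    · intro hn
      exfalso
      apply hn
      rw [Finset.mem_range]
      omega
  rw [Finset.sum_congr rfl e2]
  simp
  field_simp

/-- the smoothed sum -/
noncomputable def Asum (N : ℕ) (t : ℝ → ℝ) (c p q : ℕ) (th : ℝ) : ℂ :=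
  (1 / (q : ℂ)) * ∑ j ∈ Finset.range q, ∑ i ∈ Finset.range p,
    ((ck N t ((c + i + j : ℕ) : ℤ) : ℝ) : ℂ) * ee (-(((c + i + j : ℕ) : ℝ) * th))

lemma Asum_eq (N : ℕ) (ht : LipschitzOnWith Kl t (Icc 0 (1 / 2)))
    (hj : ∃ j : ℤ, 2 * N * (∫ x in (0 : ℝ)..(1 / 2), t x) = j) (c p q : ℕ) (th : ℝ) :
    Asum N t c p q th = Real.sqrt N * ∫ v in (-(1 / 2) : ℝ)..(1 / 2), Pf N t (th + v) * Kr c p q v := by
  have hPc := Pf_cont N ht
  have hKc := Kr_cont c p q
  have e1 : Asum N t c p q th = Real.sqrt N * ∫ x in (-(1 / 2) : ℝ)..(1 / 2), Pf N t x * Kr c p q (x - th) := by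
    have e2 : ∀ x : ℝ, Pf N t x * Kr c p q (x - th) = (1 / (q : ℂ)) *
        ∑ j ∈ Finset.range q, ∑ i ∈ Finset.range p,
          (ee ((((c + i + j : ℕ) : ℤ) : ℝ) * x) * Pf N t x) * ee (-(((c + i + j : ℕ) : ℝ) * th)) := by
      intro x
      unfold Kr
      rw [mul_left_comm, Finset.mul_sum]
      congr 1
      apply Finset.sum_congr rfl
      intro j _
      rw [Finset.mul_sum]
      apply Finset.sum_congr rfl
      intro i _
      have : ee (((c + i + j : ℕ) : ℝ) * (x - th)) = ee ((((c + i + j : ℕ) : ℤ) : ℝ) * x)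
          * ee (-(((c + i + j : ℕ) : ℝ) * th)) := by
        rw [← ee_add]
        congr 1
        push_cast
        ring
      rw [this]
      ring
    simp_rw [e2]
    rw [intervalIntegral.integral_const_mul, intervalIntegral.integral_finsetSum]
    swap
    · intro j _
      apply Continuous.intervalIntegrable
      apply continuous_finsetSum
      intro i _
      exact ((ee_continuous.comp (continuous_const.mul continuous_id)).mul hPc).mul continuous_const
    unfold Asum
    rw [mul_left_comm]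
    congr 1
    rw [Finset.mul_sum]
    apply Finset.sum_congr rfl
    intro j _
    rw [intervalIntegral.integral_finsetSum]
    swap
    · intro i _
      exact (((ee_continuous.comp (continuous_const.mul continuous_id)).mul hPc).mul
        continuous_const).intervalIntegrable _ _
    rw [Finset.mul_sum]
    apply Finset.sum_congr rfl
    intro i _
    rw [intervalIntegral.integral_mul_const, ck_eq N ht]
    ring
  rw [e1]
  congr 1
  have hper : Function.Periodic (fun x => Pf N t x * Kr c p q (x - th)) 1 := by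
    intro x
    simp only
    rw [Pf_per ht hj, show x + 1 - th = (x - th) + 1 by ring, Kr_per]
  have h1 := hper.intervalIntegral_add_eq (-(1 / 2)) (th + -(1 / 2))
  have h2 : (∫ x in (-(1 / 2) : ℝ)..(1 / 2), Pf N t x * Kr c p q (x - th))
      = ∫ x in (-(1 / 2) : ℝ)..(-(1 / 2) + 1), Pf N t x * Kr c p q (x - th) := by norm_num
  rw [h2, h1]
  have h3 := intervalIntegral.integral_comp_add_left (a := (-(1 / 2) : ℝ)) (b := 1 / 2)
    (f := fun x => Pf N t x * Kr c p q (x - th)) th
  have h4 : (th + -(1 / 2) + 1 : ℝ) = th + 1 / 2 := by ring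
  rw [h4, ← h3]
  apply intervalIntegral.integral_congr
  intro v _
  simp

lemma int_inv_sq {a b : ℝ} (ha : 0 < a) (hab : a ≤ b) : (∫ v in a..b, 1 / v ^ 2) ≤ 1 / a := by
  have hd : ∀ v ∈ uIcc a b, HasDerivAt (fun v : ℝ => -(v⁻¹)) (1 / v ^ 2) v := by
    intro v hv
    rw [uIcc_of_le hab] at hv
    have hv0 : v ≠ 0 := (lt_of_lt_of_le ha hv.1).ne'
    refine (hasDerivAt_inv hv0).neg.congr_deriv ?_
    field_simp
  rw [intervalIntegral.integral_eq_sub_of_hasDerivAt hd]
  · have : 0 < b := lt_of_lt_of_le ha hab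
    have h2 : 0 < b⁻¹ := by positivity
    rw [one_div]
    linarith
  · apply ContinuousOn.intervalIntegrable
    rw [uIcc_of_le hab]
    apply ContinuousOn.div continuousOn_const (continuousOn_id.pow 2)
    intro v hv
    exact pow_ne_zero 2 (lt_of_lt_of_le ha hv.1).ne'

/-- main estimate -/
lemma main_est {N : ℕ} (hN : 1 ≤ N) (ht : LipschitzOnWith Kl t (Icc 0 (1 / 2)))
    (hj : ∃ j : ℤ, 2 * N * (∫ x in (0 : ℝ)..(1 / 2), t x) = j) {c p q : ℕ} (hq : 0 < q) (hp : p ≤ N) (th : ℝ)
    (h1 : (c : ℤ) + q ≤ round (N * tt t th) + 1) (h2 : round (N * tt t th) < (c : ℤ) + p)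
    {B : ℝ} (hB : 0 < B) (hBN : 2 * B ≤ N) :
    ‖Asum N t c p q th - Real.sqrt N * Pf N t th‖
      ≤ Real.sqrt N * (4 * Real.pi * (Kl * B ^ 3 + B ^ 2) / N + N / (q * B)) := by
  set k : ℤ := round (N * tt t th) with hk
  have hN' : (1 : ℝ) ≤ N := by exact_mod_cast hN
  have hN0 : (0 : ℝ) < N := by linarith
  have hq' : (0 : ℝ) < q := by exact_mod_cast hq
  have hPc := Pf_cont N ht
  have hKc := Kr_cont c p q
  set F : ℝ → ℂ := fun v => (Pf N t (th + v) - Pf N t th * ee (-(k * v))) * Kr c p q v with hF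
  have hFc : Continuous F := by
    apply Continuous.mul _ hKc
    apply Continuous.sub (hPc.comp (continuous_const.add continuous_id))
    exact continuous_const.mul (ee_continuous.comp (continuous_const.mul continuous_id).neg)
  have e1 : Asum N t c p q th - Real.sqrt N * Pf N t th = Real.sqrt N * ∫ v in (-(1 / 2) : ℝ)..(1 / 2), F v := by
    rw [Asum_eq N ht hj]
    have e2 : (∫ v in (-(1 / 2) : ℝ)..(1 / 2), F v) = (∫ v in (-(1 / 2) : ℝ)..(1 / 2), Pf N t (th + v) * Kr c p q v)
        - Pf N t th * ∫ v in (-(1 / 2) : ℝ)..(1 / 2), ee (-(k * v)) * Kr c p q v := by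
      rw [← intervalIntegral.integral_const_mul, ← intervalIntegral.integral_sub]
      · apply intervalIntegral.integral_congr
        intro v _
        simp only [hF]
        ring
      · exact ((hPc.comp (continuous_const.add continuous_id)).mul hKc).intervalIntegrable _ _
      · exact (continuous_const.mul ((ee_continuous.comp (continuous_const.mul continuous_id).neg).mul
          hKc)).intervalIntegrable _ _
    rw [e2, int_Kr hq h1 h2]
    ring
  -- pointwise bounds
  have b1 : ∀ v, ‖Pf N t (th + v) - Pf N t th * ee (-(k * v))‖ ≤ 2 := by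
    intro v
    refine (norm_sub_le _ _).trans ?_
    rw [norm_mul, norm_Pf, norm_Pf, norm_ee]
    norm_num
  have b2 : ∀ v, ‖Pf N t (th + v) - Pf N t th * ee (-(k * v))‖ ≤ 2 * Real.pi * (N * (Kl * v ^ 2) + |v| / 2) := by
    intro v
    unfold Pf
    rw [← ee_add]
    refine (norm_ee_sub_le _ _).trans ?_
    apply mul_le_mul_of_nonneg_left _ (by positivity)
    have e3 : (-(N * Ps t (th + v)) - (-(N * Ps t th) + -(k * v)) : ℝ)
        = -(N * (Ps t (th + v) - Ps t th - tt t th * v)) + -((N * tt t th - k) * v) := by ring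
    rw [e3]
    refine (abs_add_le _ _).trans ?_
    rw [abs_neg, abs_neg, abs_mul, abs_mul, Nat.abs_cast]
    apply add_le_add
    · exact mul_le_mul_of_nonneg_left (Ps_taylor ht th v) (by positivity)
    · have := abs_sub_round ((N : ℝ) * tt t th)
      rw [← hk] at this
      calc |(N : ℝ) * tt t th - k| * |v| ≤ 1 / 2 * |v| := mul_le_mul_of_nonneg_right this (abs_nonneg v)
        _ = |v| / 2 := by ring
  set δ : ℝ := B / N with hδ
  have hδ0 : 0 < δ := by positivity
  have hδ1 : δ ≤ 1 / 2 := by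
    rw [hδ, div_le_iff₀ hN0]; linarith
  have i1 : ‖∫ v in (-δ)..δ, F v‖ ≤ (2 * Real.pi * (N * (Kl * δ ^ 2) + δ / 2) * N) * |δ - -δ| := by
    apply intervalIntegral.norm_integral_le_of_norm_le_const
    intro v hv
    rw [uIoc_of_le (by linarith)] at hv
    have hv1 : |v| ≤ δ := abs_le.2 ⟨hv.1.le, hv.2⟩
    simp only [hF]
    rw [norm_mul]
    apply mul_le_mul _ ((norm_Kr_le c p hq v).trans (by exact_mod_cast hp)) (norm_nonneg _) (by positivity)
    refine (b2 v).trans ?_
    have : v ^ 2 ≤ δ ^ 2 := by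
      rw [← sq_abs]
      exact pow_le_pow_left₀ (abs_nonneg v) hv1 2
    gcongr
  have o1 : ‖∫ v in δ..(1 / 2), F v‖ ≤ 1 / (2 * q) * (1 / δ) := by
    have h3 : ‖∫ v in δ..(1 / 2), F v‖ ≤ ∫ v in δ..(1 / 2), 1 / (2 * q) * (1 / v ^ 2) := by
      apply intervalIntegral.norm_integral_le_of_norm_le hδ1
      · apply Filter.Eventually.of_forall
        intro v hv
        have hv0 : 0 < v := lt_of_lt_of_le hδ0 hv.1.le
        simp only [hF]
        rw [norm_mul]
        calc _ ≤ 2 * (1 / (4 * q * v ^ 2)) :=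
              mul_le_mul (b1 v) (norm_Kr_le' c p hq (by rw [abs_of_pos hv0]; exact hv.2) hv0.ne')
                (norm_nonneg _) (by norm_num)
          _ = _ := by field_simp; norm_num
      · apply IntervalIntegrable.const_mul
        apply ContinuousOn.intervalIntegrable
        rw [uIcc_of_le hδ1]
        apply ContinuousOn.div continuousOn_const (continuousOn_id.pow 2)
        intro v hv
        exact pow_ne_zero 2 (lt_of_lt_of_le hδ0 hv.1).ne'
    rw [intervalIntegral.integral_const_mul] at h3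
    exact h3.trans (mul_le_mul_of_nonneg_left (int_inv_sq hδ0 hδ1) (by positivity))
  have o2 : ‖∫ v in (-(1 / 2))..(-δ), F v‖ ≤ 1 / (2 * q) * (1 / δ) := by
    have h4 : (∫ v in (-(1 / 2))..(-δ), F v) = ∫ v in δ..(1 / 2), F (-v) := by
      rw [intervalIntegral.integral_comp_neg]
    rw [h4]
    have h3 : ‖∫ v in δ..(1 / 2), F (-v)‖ ≤ ∫ v in δ..(1 / 2), 1 / (2 * q) * (1 / v ^ 2) := by
      apply intervalIntegral.norm_integral_le_of_norm_le hδ1
      · apply Filter.Eventually.of_forall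
        intro v hv
        have hv0 : 0 < v := lt_of_lt_of_le hδ0 hv.1.le
        simp only [hF]
        rw [norm_mul]
        calc _ ≤ 2 * (1 / (4 * q * (-v) ^ 2)) :=
              mul_le_mul (b1 (-v)) (norm_Kr_le' c p hq (by rw [abs_neg, abs_of_pos hv0]; exact hv.2)
                (neg_ne_zero.2 hv0.ne'))
                (norm_nonneg _) (by norm_num)
          _ = _ := by field_simp; norm_num
      · apply IntervalIntegrable.const_mul
        apply ContinuousOn.intervalIntegrable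
        rw [uIcc_of_le hδ1]
        apply ContinuousOn.div continuousOn_const (continuousOn_id.pow 2)
        intro v hv
        exact pow_ne_zero 2 (lt_of_lt_of_le hδ0 hv.1).ne'
    rw [intervalIntegral.integral_const_mul] at h3
    exact h3.trans (mul_le_mul_of_nonneg_left (int_inv_sq hδ0 hδ1) (by positivity))
  have e4 : (∫ v in (-(1 / 2) : ℝ)..(1 / 2), F v)
      = ((∫ v in (-(1 / 2))..(-δ), F v) + ∫ v in (-δ)..δ, F v) + ∫ v in δ..(1 / 2), F v := by
    rw [intervalIntegral.integral_add_adjacent_intervals (hFc.intervalIntegrable _ _)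
      (hFc.intervalIntegrable _ _), intervalIntegral.integral_add_adjacent_intervals
      (hFc.intervalIntegrable _ _) (hFc.intervalIntegrable _ _)]
  rw [e1, norm_mul, Complex.norm_real, Real.norm_eq_abs, abs_of_nonneg (Real.sqrt_nonneg _)]
  apply mul_le_mul_of_nonneg_left _ (Real.sqrt_nonneg _)
  rw [e4]
  calc _ ≤ (1 / (2 * q) * (1 / δ) + (2 * Real.pi * (N * (Kl * δ ^ 2) + δ / 2) * N) * |δ - -δ|)
        + 1 / (2 * q) * (1 / δ) := by
        refine (norm_add_le _ _).trans (add_le_add ?_ o1)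
        exact (norm_add_le _ _).trans (add_le_add o2 i1)
    _ ≤ (1 / (2 * q) * (1 / δ) + (2 * Real.pi * (N * (Kl * δ ^ 2) + δ) * N) * (2 * δ))
        + 1 / (2 * q) * (1 / δ) := by
        have h5 : |δ - -δ| = 2 * δ := by
          rw [abs_of_pos (by linarith)]; ring
        rw [h5]
        gcongr
        linarith
    _ = _ := by
        rw [hδ]
        have := hN0.ne'
        have := hB.ne'
        field_simp
        ring

/-- the trapezoid cut-off -/
noncomputable def chi (c p q : ℕ) (k : ℕ) : ℝ :=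
  (1 / (q : ℝ)) * ∑ j ∈ Finset.range q, ∑ i ∈ Finset.range p, if c + i + j = k then (1 : ℝ) else 0

lemma chi_nonneg (c p q k : ℕ) : 0 ≤ chi c p q k := by
  unfold chi
  apply mul_nonneg (by positivity)
  apply Finset.sum_nonneg
  intro j _
  apply Finset.sum_nonneg
  intro i _
  split_ifs <;> norm_num

lemma chi_le_one (c p q k : ℕ) : chi c p q k ≤ 1 := by
  unfold chi
  have h : ∑ j ∈ Finset.range q, ∑ i ∈ Finset.range p, (if c + i + j = k then (1 : ℝ) else 0) ≤ q := by
    calc _ ≤ ∑ j ∈ Finset.range q, (1 : ℝ) := by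
          apply Finset.sum_le_sum
          intro j _
          rw [← Finset.sum_filter, Finset.sum_const, nsmul_eq_mul, mul_one]
          have : (Finset.filter (fun i => c + i + j = k) (Finset.range p)).card ≤ 1 := by
            rw [Finset.card_le_one]
            intro a ha b hb
            simp only [Finset.mem_filter] at ha hb
            omega
          exact_mod_cast this
      _ = q := by simp
  rcases Nat.eq_zero_or_pos q with hq | hq
  · subst hq; simp
  · have hq' : (0 : ℝ) < q := by exact_mod_cast hq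
    calc _ ≤ 1 / (q : ℝ) * q := by gcongr
      _ = 1 := by field_simp

lemma chi_supp {c p q k : ℕ} (h : chi c p q k ≠ 0) : ∃ i < p, ∃ j < q, c + i + j = k := by
  unfold chi at h
  have h2 : ∑ j ∈ Finset.range q, ∑ i ∈ Finset.range p, (if c + i + j = k then (1 : ℝ) else 0) ≠ 0 := by
    intro h0; rw [h0, mul_zero] at h; exact h rfl
  obtain ⟨j, hj, h3⟩ := Finset.exists_ne_zero_of_sum_ne_zero h2
  obtain ⟨i, hi, h4⟩ := Finset.exists_ne_zero_of_sum_ne_zero h3
  refine ⟨i, Finset.mem_range.1 hi, j, Finset.mem_range.1 hj, ?_⟩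
  by_contra h5
  rw [if_neg h5] at h4
  exact h4 rfl

lemma sum_chi {N c p q : ℕ} (hN : ∀ i < p, ∀ j < q, c + i + j < N) (t : ℝ → ℝ) (th : ℝ) :
    ∑ k ∈ Finset.range N, ((chi c p q k * ck N t k : ℝ) : ℂ) * ee (-th) ^ k = Asum N t c p q th := by
  unfold Asum chi
  have e1 : ∀ k ∈ Finset.range N, (((1 / (q : ℝ)) * (∑ j ∈ Finset.range q, ∑ i ∈ Finset.range p,
      if c + i + j = k then (1 : ℝ) else 0) * ck N t k : ℝ) : ℂ) * ee (-th) ^ k
      = (1 / (q : ℂ)) * ∑ j ∈ Finset.range q, ∑ i ∈ Finset.range p,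
        if c + i + j = k then ((ck N t k : ℝ) : ℂ) * ee (-th) ^ k else 0 := by
    intro k _
    push_cast
    rw [mul_assoc, mul_assoc]
    congr 1
    rw [Finset.sum_mul]
    apply Finset.sum_congr rfl
    intro j _
    rw [Finset.sum_mul]
    apply Finset.sum_congr rfl
    intro i _
    split_ifs <;> simp
  rw [Finset.sum_congr rfl e1, ← Finset.mul_sum]
  congr 1
  rw [Finset.sum_comm]
  apply Finset.sum_congr rfl
  intro j hj
  rw [Finset.sum_comm]
  apply Finset.sum_congr rfl
  intro i hi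
  rw [Finset.sum_ite_eq]
  rw [if_pos (Finset.mem_range.2 (hN i (Finset.mem_range.1 hi) j (Finset.mem_range.1 hj)))]
  congr 1
  rw [← ee_mul_nat]
  congr 1
  ring

end Fou

set_option maxHeartbeats 2000000 in
/-- THM A, Fourier part. -/
theorem fourier (Kl : NNReal) (eta eps : ℝ) (heta : 0 < eta) (heps : 0 < eps) :
    ∃ N0 : ℕ, ∀ N ≥ N0, ∃ chi : ℕ → ℝ, (∀ k, 0 ≤ chi k ∧ chi k ≤ 1) ∧
      (∀ k, chi k ≠ 0 → 0 < k ∧ k < N ∧ eta / 2 * N ≤ k ∧ (k : ℝ) ≤ (1 - eta / 2) * N) ∧
      ∀ t : ℝ → ℝ, LipschitzOnWith Kl t (Icc 0 (1 / 2)) →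
        (∀ x ∈ Icc (0 : ℝ) (1 / 2), eta ≤ t x ∧ t x ≤ 1 - eta) →
        (∃ j : ℤ, 2 * N * (∫ x in (0 : ℝ)..(1 / 2), t x) = j) →
        ∀ z : ℂ, ‖z‖ = 1 →
          |‖∑ k ∈ Finset.range N, ((chi k * ck N t k : ℝ) : ℂ) * z ^ k‖ - Real.sqrt N|
            ≤ eps * Real.sqrt N := by
  by_cases heta2 : eta ≤ 1 / 2
  swap
  · refine ⟨0, fun N _ => ⟨fun _ => 0, fun k => ⟨le_rfl, zero_le_one⟩, fun k hk => absurd rfl hk, ?_⟩⟩
    intro t _ hb
    exfalso
    have := hb 0 ⟨le_rfl, by norm_num⟩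
    linarith [this.1, this.2, not_le.1 heta2]
  set B : ℝ := 16 / (eta * eps) with hB
  have hB0 : 0 < B := by positivity
  set M : ℝ := 8 * Real.pi * (Kl * B ^ 3 + B ^ 2) / eps with hM
  have hM0 : 0 < M := by
    have : (0 : ℝ) ≤ Kl := Kl.2
    positivity
  obtain ⟨N0, hN0⟩ := exists_nat_ge (max M (max (8 / eta) (2 * B)) + 1)
  refine ⟨N0, fun N hN => ?_⟩
  have hNr : (N0 : ℝ) ≤ N := by exact_mod_cast hN
  have hNM : M ≤ N := by
    have := le_max_left M (max (8 / eta) (2 * B)); linarith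
  have hN8 : 8 / eta ≤ N := by
    have := le_max_left (8 / eta) (2 * B)
    have := le_max_right M (max (8 / eta) (2 * B)); linarith
  have hNB : 2 * B ≤ N := by
    have := le_max_right (8 / eta) (2 * B)
    have := le_max_right M (max (8 / eta) (2 * B)); linarith
  have hNpos : (0 : ℝ) < N := by linarith
  have hN1 : 1 ≤ N := by
    have : 0 < N := by exact_mod_cast hNpos
    omega
  have hetaN : 8 ≤ eta * N := by
    rw [div_le_iff₀ heta] at hN8
    linarith
  set c : ℕ := ⌈eta * N / 2⌉₊ with hc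
  set q : ℕ := ⌊eta * N / 4⌋₊ with hq
  set r : ℕ := ⌊(1 - 3 * eta / 4) * N⌋₊ with hr
  have hc1 : eta * N / 2 ≤ c := Nat.le_ceil _
  have hc2 : (c : ℝ) < eta * N / 2 + 1 := Nat.ceil_lt_add_one (by positivity)
  have hq1 : (q : ℝ) ≤ eta * N / 4 := Nat.floor_le (by positivity)
  have hq2 : eta * N / 4 < q + 1 := Nat.lt_floor_add_one _
  have hr0 : 0 ≤ (1 - 3 * eta / 4) * N := by
    apply mul_nonneg _ hNpos.le; linarith
  have hr1 : (r : ℝ) ≤ (1 - 3 * eta / 4) * N := Nat.floor_le hr0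
  have hr2 : (1 - 3 * eta / 4) * N < r + 1 := Nat.lt_floor_add_one _
  have hetaN2 : eta * N ≤ N / 2 := by nlinarith
  have hcr : c ≤ r + 1 := by
    have : (c : ℝ) < r + 2 := by nlinarith
    have : c < r + 2 := by exact_mod_cast this
    omega
  have hc0 : 0 < c := by
    have : (0 : ℝ) < c := by linarith
    exact_mod_cast this
  have hq0 : 0 < q := by
    have : (0 : ℝ) < q := by linarith
    exact_mod_cast this
  have hrN : r ≤ N := by
    have : (r : ℝ) ≤ N := by nlinarith
    exact_mod_cast this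
  set p : ℕ := r + 1 - c with hp
  have hcp : c + p = r + 1 := by omega
  have hpN : p ≤ N := by omega
  have hsupp : ∀ i < p, ∀ j < q, ((c + i + j : ℕ) : ℝ) ≤ (1 - eta / 2) * N - 1 := by
    intro i hi j hj
    have h1 : c + i + j + 1 ≤ r + q := by omega
    have h2 : ((c + i + j : ℕ) : ℝ) + 1 ≤ r + q := by exact_mod_cast h1
    nlinarith
  have hsuppN : ∀ i < p, ∀ j < q, c + i + j < N := by
    intro i hi j hj
    have h1 := hsupp i hi j hj
    have h2 : ((c + i + j : ℕ) : ℝ) < N := by nlinarith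
    exact_mod_cast h2
  refine ⟨Fou.chi c p q, fun k => ⟨Fou.chi_nonneg _ _ _ _, Fou.chi_le_one _ _ _ _⟩, ?_, ?_⟩
  · intro k hk
    obtain ⟨i, hi, j, hj, rfl⟩ := Fou.chi_supp hk
    refine ⟨by omega, hsuppN i hi j hj, ?_, ?_⟩
    · push_cast
      have : (0 : ℝ) ≤ i := Nat.cast_nonneg i
      have : (0 : ℝ) ≤ j := Nat.cast_nonneg j
      linarith
    · linarith [hsupp i hi j hj]
  · intro t ht hb hj z hz
    -- write z = ee (-th)
    set th : ℝ := -(z.arg / (2 * Real.pi)) with hth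
    have hz2 : z = ee (-th) := by
      rw [ee_eq, hth, neg_neg]
      have h1 := Complex.norm_mul_exp_arg_mul_I z
      rw [hz, Complex.ofReal_one, one_mul] at h1
      rw [show 2 * Real.pi * (z.arg / (2 * Real.pi)) = z.arg by field_simp]
      exact h1.symm
    rw [hz2, Fou.sum_chi hsuppN]
    have htt : eta ≤ Fou.tt t th ∧ Fou.tt t th ≤ 1 - eta := hb _ (Fou.cn_mem th)
    set k : ℤ := round (N * Fou.tt t th) with hk
    have hk1 : |(N : ℝ) * Fou.tt t th - k| ≤ 1 / 2 := abs_sub_round _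
    rw [abs_le] at hk1
    have h1 : (c : ℤ) + q ≤ k + 1 := by
      have : ((c : ℝ) + q) < k + 2 := by nlinarith [htt.1]
      have : ((c : ℤ) + q) < k + 2 := by exact_mod_cast this
      omega
    have h2 : k < (c : ℤ) + p := by
      have : (k : ℝ) < r + 1 := by nlinarith [htt.2]
      have : k < (r : ℤ) + 1 := by exact_mod_cast this
      omega
    have h := Fou.main_est hN1 ht hj hq0 hpN th h1 h2 hB0 hNB
    have hn : ‖(Real.sqrt N : ℂ) * Fou.Pf N t th‖ = Real.sqrt N := by
      rw [norm_mul, Fou.norm_Pf, mul_one, Complex.norm_real, Real.norm_eq_abs,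
        abs_of_nonneg (Real.sqrt_nonneg _)]
    have h3 : |‖Fou.Asum N t c p q th‖ - Real.sqrt N| ≤ ‖Fou.Asum N t c p q th - Real.sqrt N * Fou.Pf N t th‖ := by
      have := abs_norm_sub_norm_le (Fou.Asum N t c p q th) (Real.sqrt N * Fou.Pf N t th)
      rwa [hn] at this
    refine (h3.trans h).trans ?_
    rw [mul_comm]
    apply mul_le_mul_of_nonneg_right _ (Real.sqrt_nonneg _)
    have h4 : 4 * Real.pi * (Kl * B ^ 3 + B ^ 2) / N ≤ eps / 2 := by
      rw [div_le_iff₀ hNpos]
      rw [hM, div_le_iff₀ heps] at hNM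
      linarith
    have h5 : (N : ℝ) / (q * B) ≤ eps / 2 := by
      have hq8 : eta * N / 8 ≤ q := by linarith
      have hqpos : (0 : ℝ) < q := by linarith
      rw [div_le_iff₀ (by positivity)]
      have : eps / 2 * (q * B) = q * (8 / eta) := by
        rw [hB]; field_simp; norm_num
      rw [this]
      calc (N : ℝ) = (eta * N / 8) * (8 / eta) := by field_simp
        _ ≤ q * (8 / eta) := by gcongr
    linarith

end Crest.Agent.R075
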