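import Crest.Agent.R075.Basic

/-!
# Row 75: Fresnel integrals (helper201)

* `fresnel` : `‖∫_0^A ee (x²/2) - ee (1/8)/2‖ ≤ 1/(π A)`;
* `quad_bound` (V2 for quadratic phases): `‖∫_a^b ee (s/2 x² + μ x + ν)‖ ≤ 3/√|s|`.
-/

set_option autoImplicit false

open MeasureTheory Set Filter Topology Complex intervalIntegral

namespace Crest.Agent.R075

/-- tail of the complex Gaussian, by one integration by parts -/
lemma gauss_tail {b : ℂ} (hb0 : 0 ≤ b.re) (hb : Real.pi ≤ ‖b‖) {A B : ℝ} (hA : 0 < A)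
    (hAB : A ≤ B) :
    ‖∫ x in A..B, Complex.exp (-b * (x : ℂ) ^ 2)‖ ≤ 1 / (Real.pi * A) := by
  have hpi := Real.pi_pos
  have hbne : b ≠ 0 := by
    intro h; rw [h, norm_zero] at hb; linarith
  set f : ℝ → ℂ := fun x => Complex.exp (-b * (x : ℂ) ^ 2) with hf
  have hfn : ∀ x, ‖f x‖ ≤ 1 := by
    intro x
    rw [hf]
    simp only
    rw [Complex.norm_exp]
    have : (-b * (x : ℂ) ^ 2).re = -(b.re * x ^ 2) := by
      rw [← Complex.ofReal_pow, Complex.re_mul_ofReal, Complex.neg_re]; ring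
    rw [this]
    apply Real.exp_le_one_iff.2
    have := mul_nonneg hb0 (sq_nonneg x)
    linarith
  have hfc : Continuous f := by rw [hf]; fun_prop
  set v : ℝ → ℂ := fun x => -(f x) / (2 * b * x) with hv
  have hne : ∀ x ∈ Icc A B, (x : ℂ) ≠ 0 := by
    intro x hx
    have : x ≠ 0 := by linarith [hx.1] |> fun h : 0 < x => h.ne'
    exact_mod_cast this
  have hderiv : ∀ x ∈ uIcc A B, HasDerivAt v (f x + f x / (2 * b * (x : ℂ) ^ 2)) x := by
    intro x hx
    rw [uIcc_of_le hAB] at hx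
    have hx0 := hne x hx
    have h1 : HasDerivAt (fun y : ℝ => (y : ℂ)) 1 x := Complex.ofRealCLM.hasDerivAt
    have h2 : HasDerivAt f (f x * (-b * (2 * (x : ℂ)))) x := by
      have := ((h1.pow 2).const_mul (-b)).cexp
      convert! this using 1
      simp [hf]
    have h3 : HasDerivAt (fun y : ℝ => 2 * b * (y : ℂ)) (2 * b * 1) x := h1.const_mul _
    have h4 := h2.neg.div h3 (mul_ne_zero (mul_ne_zero two_ne_zero hbne) hx0)
    convert! h4 using 1
    simp only [Pi.neg_apply]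
    field_simp
    ring
  have hint1 : IntervalIntegrable f volume A B := hfc.intervalIntegrable _ _
  have hcont2 : ContinuousOn (fun x : ℝ => f x / (2 * b * (x : ℂ) ^ 2)) (uIcc A B) := by
    rw [uIcc_of_le hAB]
    apply ContinuousOn.div hfc.continuousOn
    · fun_prop
    · intro x hx
      exact mul_ne_zero (mul_ne_zero two_ne_zero hbne) (pow_ne_zero 2 (hne x hx))
  have hint2 : IntervalIntegrable (fun x : ℝ => f x / (2 * b * (x : ℂ) ^ 2)) volume A B :=
    hcont2.intervalIntegrable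
  have hFTC := integral_eq_sub_of_hasDerivAt hderiv (hint1.add hint2)
  rw [integral_add hint1 hint2] at hFTC
  have hmain : ∫ x in A..B, f x = v B - v A - ∫ x in A..B, f x / (2 * b * (x : ℂ) ^ 2) := by
    rw [← hFTC]; ring
  have hvn : ∀ x, 0 < x → ‖v x‖ ≤ 1 / (2 * Real.pi * x) := by
    intro x hx
    rw [hv]
    simp only
    rw [norm_div, norm_neg, norm_mul, norm_mul, Complex.norm_real, Real.norm_of_nonneg hx.le]
    have h2 : ‖(2 : ℂ)‖ = 2 := by simp
    rw [h2]
    apply div_le_div₀ zero_le_one (hfn x) (by positivity)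
    apply mul_le_mul_of_nonneg_right _ hx.le
    linarith
  have hI : ‖∫ x in A..B, f x / (2 * b * (x : ℂ) ^ 2)‖ ≤ 1 / (2 * Real.pi) * (1 / A - 1 / B) := by
    have hg : IntervalIntegrable (fun x : ℝ => 1 / (2 * Real.pi) * (x ^ 2)⁻¹) volume A B := by
      apply ContinuousOn.intervalIntegrable
      rw [uIcc_of_le hAB]
      apply ContinuousOn.mul continuousOn_const
      apply ContinuousOn.inv₀ (by fun_prop)
      intro x hx
      have : 0 < x := by linarith [hx.1]
      positivity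
    have h1 := norm_integral_le_of_norm_le (f := fun x : ℝ => f x / (2 * b * (x : ℂ) ^ 2))
      (g := fun x : ℝ => 1 / (2 * Real.pi) * (x ^ 2)⁻¹) hAB (by
        refine Eventually.of_forall (fun x hx => ?_)
        have hx0 : 0 < x := by linarith [hx.1]
        rw [norm_div, norm_mul, norm_mul, norm_pow, Complex.norm_real,
          Real.norm_of_nonneg hx0.le]
        have h2 : ‖(2 : ℂ)‖ = 2 := by simp
        rw [h2, div_mul_eq_mul_div, one_mul, inv_eq_one_div, div_div]
        rw [mul_comm (x ^ 2)]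
        apply div_le_div₀ zero_le_one (hfn x) (by positivity)
        apply mul_le_mul_of_nonneg_right _ (sq_nonneg x)
        linarith) hg
    refine h1.trans (le_of_eq ?_)
    rw [intervalIntegral.integral_const_mul]
    congr 1
    have hd : ∀ x ∈ uIcc A B, HasDerivAt (fun y : ℝ => -(y⁻¹)) ((x ^ 2)⁻¹) x := by
      intro x hx
      rw [uIcc_of_le hAB] at hx
      have hx0 : x ≠ 0 := by
        have : 0 < x := by linarith [hx.1]
        exact this.ne'
      have h := (hasDerivAt_inv hx0).neg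
      rw [neg_neg] at h
      exact h
    have hi2 : IntervalIntegrable (fun x : ℝ => (x ^ 2)⁻¹) volume A B := by
      apply ContinuousOn.intervalIntegrable
      rw [uIcc_of_le hAB]
      apply ContinuousOn.inv₀ (by fun_prop)
      intro x hx
      have : 0 < x := by linarith [hx.1]
      positivity
    rw [integral_eq_sub_of_hasDerivAt hd hi2]
    simp only [one_div]
    ring
  rw [hmain]
  have hB : 0 < B := lt_of_lt_of_le hA hAB
  calc ‖v B - v A - ∫ x in A..B, f x / (2 * b * (x : ℂ) ^ 2)‖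
      ≤ ‖v B‖ + ‖v A‖ + ‖∫ x in A..B, f x / (2 * b * (x : ℂ) ^ 2)‖ := by
        refine (norm_sub_le _ _).trans ?_
        gcongr
        exact norm_sub_le _ _
    _ ≤ 1 / (2 * Real.pi * B) + 1 / (2 * Real.pi * A) + 1 / (2 * Real.pi) * (1 / A - 1 / B) := by
        gcongr
        · exact hvn B hB
        · exact hvn A hA
    _ = 1 / (Real.pi * A) := by
        field_simp
        ring

/-- half line complex Gaussian, truncated -/
lemma gauss_half {b : ℂ} (hb0 : 0 < b.re) (hb : Real.pi ≤ ‖b‖) {A : ℝ} (hA : 0 < A) :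
    ‖(∫ x in (0:ℝ)..A, Complex.exp (-b * (x : ℂ) ^ 2)) - ((Real.pi : ℂ) / b) ^ (1 / 2 : ℂ) / 2‖
      ≤ 1 / (Real.pi * A) := by
  have h1 := integral_gaussian_complex_Ioi hb0
  have hint : IntegrableOn (fun x : ℝ => Complex.exp (-b * (x : ℂ) ^ 2)) (Ioi 0) :=
    (integrable_cexp_neg_mul_sq hb0).integrableOn
  have h2 : Tendsto (fun B : ℝ => ∫ x in (0:ℝ)..B, Complex.exp (-b * (x : ℂ) ^ 2)) atTop
      (𝓝 (∫ x in Ioi (0:ℝ), Complex.exp (-b * (x : ℂ) ^ 2))) :=
    intervalIntegral_tendsto_integral_Ioi 0 hint tendsto_id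
  rw [h1] at h2
  have h3 : Tendsto (fun B : ℝ => ‖(∫ x in (0:ℝ)..A, Complex.exp (-b * (x : ℂ) ^ 2))
      - ∫ x in (0:ℝ)..B, Complex.exp (-b * (x : ℂ) ^ 2)‖) atTop
      (𝓝 ‖(∫ x in (0:ℝ)..A, Complex.exp (-b * (x : ℂ) ^ 2))
        - ((Real.pi : ℂ) / b) ^ (1 / 2 : ℂ) / 2‖) := (h2.const_sub _).norm
  refine le_of_tendsto h3 ?_
  filter_upwards [eventually_ge_atTop A] with B hB
  have hc : Continuous (fun x : ℝ => Complex.exp (-b * (x : ℂ) ^ 2)) := by fun_prop
  have h4 : (∫ x in (0:ℝ)..A, Complex.exp (-b * (x : ℂ) ^ 2))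
      - ∫ x in (0:ℝ)..B, Complex.exp (-b * (x : ℂ) ^ 2)
      = -∫ x in A..B, Complex.exp (-b * (x : ℂ) ^ 2) := by
    rw [← integral_add_adjacent_intervals (hc.intervalIntegrable 0 A)
      (hc.intervalIntegrable A B)]
    ring
  rw [h4, norm_neg]
  exact gauss_tail hb0.le hb hA hB

lemma ee_sq_eq (x : ℝ) : ee (x ^ 2 / 2) = Complex.exp (-(-(Real.pi : ℂ) * Complex.I) * (x : ℂ) ^ 2) := by
  unfold ee; congr 1; push_cast; ring

/-- the Fresnel integral -/
theorem fresnel {A : ℝ} (hA : 0 < A) :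
    ‖(∫ x in (0:ℝ)..A, ee (x ^ 2 / 2)) - ee (1 / 8) / 2‖ ≤ 1 / (Real.pi * A) := by
  have hpi := Real.pi_pos
  -- b_ε = ε - π i
  set b : ℝ → ℂ := fun t => (t : ℂ) - Real.pi * Complex.I with hbdef
  have hre : ∀ t, (b t).re = t := by intro t; simp [hbdef]
  have him : ∀ t, (b t).im = -Real.pi := by intro t; simp [hbdef]
  have hnorm : ∀ t, Real.pi ≤ ‖b t‖ := by
    intro t
    have := Complex.abs_im_le_norm (b t)
    rw [him, abs_neg, abs_of_pos hpi] at this
    exact this
  have h1 : ∀ t, 0 < t → ‖(∫ x in (0:ℝ)..A, Complex.exp (-(b t) * (x : ℂ) ^ 2))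
      - ((Real.pi : ℂ) / b t) ^ (1 / 2 : ℂ) / 2‖ ≤ 1 / (Real.pi * A) := by
    intro t ht
    exact gauss_half (by rw [hre]; exact ht) (hnorm t) hA
  have hbc : Continuous b := by rw [hbdef]; fun_prop
  have hb0 : b 0 = -(Real.pi : ℂ) * Complex.I := by simp [hbdef]
  have hbne : b 0 ≠ 0 := by
    rw [hb0]
    simp [hpi.ne', Complex.I_ne_zero]
  have hq : (Real.pi : ℂ) / b 0 = Complex.I := by
    rw [hb0]
    have : (Real.pi : ℂ) ≠ 0 := by exact_mod_cast hpi.ne'
    field_simp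
    rw [Complex.I_sq]
  have hsq : (Complex.I) ^ (1 / 2 : ℂ) = ee (1 / 8) := by
    rw [Complex.cpow_def_of_ne_zero Complex.I_ne_zero, Complex.log_I]
    unfold ee
    congr 1
    push_cast
    ring
  have hlim1 : Tendsto (fun t : ℝ => ((Real.pi : ℂ) / b t) ^ (1 / 2 : ℂ) / 2) (𝓝[>] 0)
      (𝓝 (ee (1 / 8) / 2)) := by
    have hc1 : ContinuousAt (fun t : ℝ => (Real.pi : ℂ) / b t) 0 :=
      ContinuousAt.div continuousAt_const hbc.continuousAt hbne
    have hc2 : ContinuousAt (fun t : ℝ => ((Real.pi : ℂ) / b t) ^ (1 / 2 : ℂ) / 2) 0 := by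
      apply ContinuousAt.div_const
      apply ContinuousAt.cpow hc1 continuousAt_const
      rw [hq]
      exact Or.inr (by simp)
    have := hc2.tendsto
    simp only [hq, hsq] at this
    exact this.mono_left nhdsWithin_le_nhds
  have hlim2 : Tendsto (fun t : ℝ => ∫ x in (0:ℝ)..A, Complex.exp (-(b t) * (x : ℂ) ^ 2)) (𝓝[>] 0)
      (𝓝 (∫ x in (0:ℝ)..A, ee (x ^ 2 / 2))) := by
    have hcont : Continuous (fun t : ℝ => ∫ x in (0:ℝ)..A, Complex.exp (-(b t) * (x : ℂ) ^ 2)) := by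
      exact intervalIntegral.continuous_parametric_intervalIntegral_of_continuous'
        (by fun_prop) _ _
    have := hcont.continuousAt (x := 0) |>.tendsto
    have h0 : (∫ x in (0:ℝ)..A, Complex.exp (-(b 0) * (x : ℂ) ^ 2))
        = ∫ x in (0:ℝ)..A, ee (x ^ 2 / 2) := by
      refine integral_congr (fun x _ => ?_)
      rw [ee_sq_eq, hb0]
    rw [h0] at this
    exact this.mono_left nhdsWithin_le_nhds
  refine le_of_tendsto ((hlim2.sub hlim1).norm) ?_
  filter_upwards [self_mem_nhdsWithin] with t ht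
  exact h1 t ht

/-- tail of the Fresnel integral -/
theorem fresnel_tail {A B : ℝ} (hA : 0 < A) (hAB : A ≤ B) :
    ‖∫ x in A..B, ee (x ^ 2 / 2)‖ ≤ 1 / (Real.pi * A) := by
  have hpi := Real.pi_pos
  have h : (∫ x in A..B, ee (x ^ 2 / 2))
      = ∫ x in A..B, Complex.exp (-(-(Real.pi : ℂ) * Complex.I) * (x : ℂ) ^ 2) :=
    integral_congr (fun x _ => ee_sq_eq x)
  rw [h]
  have h0 : 0 ≤ (-(Real.pi : ℂ) * Complex.I).re := by rw [Complex.mul_re]; simp
  have h1 : Real.pi ≤ ‖-(Real.pi : ℂ) * Complex.I‖ := by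
    rw [norm_mul, norm_neg, Complex.norm_I, mul_one, Complex.norm_real,
      Real.norm_of_nonneg hpi.le]
  exact gauss_tail h0 h1 hA hAB

lemma fresnel_cont : Continuous (fun x : ℝ => ee (x ^ 2 / 2)) :=
  ee_continuous.comp (by fun_prop)

lemma fresnel_half_bound {a b : ℝ} (ha : 0 ≤ a) (hab : a ≤ b) :
    ‖∫ x in a..b, ee (x ^ 2 / 2)‖ ≤ 3 / 2 := by
  have hpi := Real.pi_gt_three
  have hc := fresnel_cont
  have triv : ∀ u v : ℝ, u ≤ v → ‖∫ x in u..v, ee (x ^ 2 / 2)‖ ≤ v - u := by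
    intro u v huv
    have := norm_integral_le_of_norm_le_const (a := u) (b := v) (C := 1)
      (f := fun x : ℝ => ee (x ^ 2 / 2)) (fun x _ => by simp)
    rwa [one_mul, abs_of_nonneg (by linarith)] at this
  rcases le_total 1 a with h1 | h1
  · refine (fresnel_tail (by linarith) hab).trans ?_
    rw [div_le_iff₀ (by positivity)]
    nlinarith
  · rcases le_total b 1 with h2 | h2
    · exact (triv a b hab).trans (by linarith)
    · rw [← integral_add_adjacent_intervals (hc.intervalIntegrable a 1)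
        (hc.intervalIntegrable 1 b)]
      have e1 := triv a 1 h1
      have e2 := fresnel_tail (A := 1) (B := b) one_pos h2
      have e3 : 1 / (Real.pi * 1) ≤ 1 / 2 := by
        rw [mul_one]
        apply one_div_le_one_div_of_le (by norm_num); linarith
      exact (norm_add_le _ _).trans (by linarith)

/-- the Fresnel integral over any interval is bounded by `3` -/
theorem fresnel_bound (a b : ℝ) : ‖∫ x in a..b, ee (x ^ 2 / 2)‖ ≤ 3 := by
  have hc := fresnel_cont
  have key : ∀ c : ℝ, ‖∫ x in (0:ℝ)..c, ee (x ^ 2 / 2)‖ ≤ 3 / 2 := by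
    intro c
    rcases le_total 0 c with h | h
    · exact fresnel_half_bound le_rfl h
    · have h1 : (∫ x in (0:ℝ)..c, ee (x ^ 2 / 2)) = -∫ x in (0:ℝ)..(-c), ee (x ^ 2 / 2) := by
        have := intervalIntegral.integral_comp_neg (a := 0) (b := c)
          (fun x : ℝ => ee (x ^ 2 / 2))
        simp only [neg_sq, neg_zero] at this
        rw [this, integral_symm]
      rw [h1, norm_neg]
      exact fresnel_half_bound le_rfl (by linarith)
  have h2 : (∫ x in a..b, ee (x ^ 2 / 2))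
      = (∫ x in (0:ℝ)..b, ee (x ^ 2 / 2)) - ∫ x in (0:ℝ)..a, ee (x ^ 2 / 2) := by
    rw [← integral_add_adjacent_intervals (hc.intervalIntegrable a 0)
      (hc.intervalIntegrable 0 b), integral_symm 0 a]
    ring
  rw [h2]
  exact (norm_sub_le _ _).trans (by linarith [key a, key b])

/-- V2 for quadratic phases, positive leading coefficient -/
lemma quad_bound_pos {s : ℝ} (hs : 0 < s) (μ ν a b : ℝ) :
    ‖∫ x in a..b, ee (s / 2 * x ^ 2 + μ * x + ν)‖ ≤ 3 / Real.sqrt s := by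
  have hr : 0 < Real.sqrt s := Real.sqrt_pos.2 hs
  have hrs : Real.sqrt s * Real.sqrt s = s := Real.mul_self_sqrt hs.le
  set F : ℝ → ℂ := fun v => ee (v ^ 2 / 2) with hF
  have h1 : (∫ x in a..b, ee (s / 2 * x ^ 2 + μ * x + ν))
      = ee (ν - μ ^ 2 / (2 * s)) * ∫ x in a..b, F (Real.sqrt s * x + μ / Real.sqrt s) := by
    rw [← intervalIntegral.integral_const_mul]
    refine integral_congr (fun x _ => ?_)
    simp only [hF]
    rw [← ee_add]
    congr 1
    have e1 : (Real.sqrt s * x + μ / Real.sqrt s) ^ 2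
        = s * x ^ 2 + 2 * μ * x + μ ^ 2 / s := by
      have : μ / Real.sqrt s * Real.sqrt s = μ := by field_simp
      have e2 : (μ / Real.sqrt s) ^ 2 = μ ^ 2 / s := by
        rw [div_pow, sq (Real.sqrt s), hrs]
      calc (Real.sqrt s * x + μ / Real.sqrt s) ^ 2
          = (Real.sqrt s * Real.sqrt s) * x ^ 2 + 2 * (μ / Real.sqrt s * Real.sqrt s) * x
            + (μ / Real.sqrt s) ^ 2 := by ring
        _ = _ := by rw [hrs, this, e2]
    rw [e1]
    field_simp
    ring
  rw [h1, norm_mul, norm_ee, one_mul,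
    intervalIntegral.integral_comp_mul_add (f := F) hr.ne', norm_smul, norm_inv,
    Real.norm_of_nonneg hr.le]
  have := fresnel_bound (Real.sqrt s * a + μ / Real.sqrt s) (Real.sqrt s * b + μ / Real.sqrt s)
  calc (Real.sqrt s)⁻¹ * ‖∫ x in (Real.sqrt s * a + μ / Real.sqrt s)..(Real.sqrt s * b
          + μ / Real.sqrt s), F x‖ ≤ (Real.sqrt s)⁻¹ * 3 :=
        mul_le_mul_of_nonneg_left this (inv_nonneg.2 hr.le)
    _ = 3 / Real.sqrt s := by rw [div_eq_inv_mul]

lemma intervalIntegral_conj (f : ℝ → ℂ) (a b : ℝ) :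
    (∫ x in a..b, (starRingEnd ℂ) (f x)) = (starRingEnd ℂ) (∫ x in a..b, f x) := by
  simp only [intervalIntegral, integral_conj, map_sub]

/-- V2 for quadratic phases -/
theorem quad_bound {s : ℝ} (hs : s ≠ 0) (μ ν a b : ℝ) :
    ‖∫ x in a..b, ee (s / 2 * x ^ 2 + μ * x + ν)‖ ≤ 3 / Real.sqrt |s| := by
  rcases lt_or_gt_of_ne hs with h | h
  · have h1 : (∫ x in a..b, ee (s / 2 * x ^ 2 + μ * x + ν))
        = (starRingEnd ℂ) (∫ x in a..b, ee ((-s) / 2 * x ^ 2 + (-μ) * x + (-ν))) := by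
      rw [← intervalIntegral_conj]
      refine integral_congr (fun x _ => ?_)
      rw [ee_conj]
      congr 1; ring
    rw [h1, Complex.norm_conj, abs_of_neg h]
    exact quad_bound_pos (by linarith) _ _ _ _
  · rw [abs_of_pos h]
    exact quad_bound_pos h μ ν a b

/-- symmetric Fresnel integral with the other sign -/
theorem fresnel_neg_symm {A : ℝ} (hA : 0 < A) :
    ‖(∫ x in (-A)..A, ee (-(x ^ 2 / 2))) - ee (-(1 / 8))‖ ≤ 2 / (Real.pi * A) := by
  have hc : Continuous (fun x : ℝ => ee (-(x ^ 2 / 2))) := ee_continuous.comp (by fun_prop)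
  have h1 : (∫ x in (-A)..A, ee (-(x ^ 2 / 2))) = 2 * ∫ x in (0:ℝ)..A, ee (-(x ^ 2 / 2)) := by
    rw [← integral_add_adjacent_intervals (hc.intervalIntegrable (-A) 0)
      (hc.intervalIntegrable 0 A)]
    have := intervalIntegral.integral_comp_neg (a := 0) (b := A)
      (fun x : ℝ => ee (-(x ^ 2 / 2)))
    simp only [neg_sq, neg_zero] at this
    rw [← this]; ring
  have h2 : (∫ x in (0:ℝ)..A, ee (-(x ^ 2 / 2)))
      = (starRingEnd ℂ) (∫ x in (0:ℝ)..A, ee (x ^ 2 / 2)) := by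
    rw [← intervalIntegral_conj]
    refine integral_congr (fun x _ => ?_)
    rw [ee_conj]
  have h3 : (∫ x in (-A)..A, ee (-(x ^ 2 / 2))) - ee (-(1 / 8))
      = 2 * (starRingEnd ℂ) ((∫ x in (0:ℝ)..A, ee (x ^ 2 / 2)) - ee (1 / 8) / 2) := by
    rw [h1, h2, map_sub, map_div₀, ee_conj]
    simp only [map_ofNat]
    ring
  rw [h3, norm_mul, Complex.norm_conj]
  have := fresnel hA
  have h4 : ‖(2 : ℂ)‖ = 2 := by simp
  rw [h4]
  calc 2 * ‖(∫ x in (0:ℝ)..A, ee (x ^ 2 / 2)) - ee (1 / 8) / 2‖ ≤ 2 * (1 / (Real.pi * A)) := by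
        linarith
    _ = 2 / (Real.pi * A) := by ring

end Crest.Agent.R075
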