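import Mathlib

/-!
# Row 75: output of THM D (design), input of THM A (analysis)

An exact tiling of `[0,1/2]` by `n` intervals `[x l, x (l+1)]`, each belonging to a piece `pc l : Fin m`,
with orientation `ori l` (`true` = +, `false` = -), phase `al l`; piece `i` has duration `De i`.
-/

set_option autoImplicit false

namespace Crest.Agent.R075

open Finset

structure Tiling (ε : ℝ) where
  n : ℕ
  m : ℕ
  x : ℕ → ℝ
  pc : ℕ → Fin m
  ori : ℕ → Bool
  al : ℕ → ℝ
  De : Fin m → ℝ
  x_zero : x 0 = 0
  x_last : x n = 1 / 2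
  x_lt : ∀ l < n, x l < x (l + 1)
  De_pos : ∀ i, 0 < De i
  De_sum : ∑ i, De i < 1
  amp : ∀ (i : Fin m) (k : ℤ) (G : ℝ),
    |2 * ∑ l ∈ (range n).filter (fun l => pc l = i),
      Real.sqrt ((x (l + 1) - x l) / De i) *
        Real.cos (2 * Real.pi * (al l + (if ori l then x l else -x (l + 1)) * k
          + (x (l + 1) - x l) * G))| ≤ 1 + ε

end Crest.Agent.R075
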