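import Crest.Agent.R075.AnaBand3
import Crest.Agent.R075.TilingDef
import Crest.Agent.R075.Fou
import Crest.Agent.R075.Osc

/-!
Row 75 (helper20), THM A: gluing the bands to one curve `t` on `[0,1/2]`.
-/

set_option autoImplicit false

namespace Crest.Agent.R075.Ana

open MeasureTheory Set Real

noncomputable section

theorem x_mono {m : ℕ} {x : ℕ → ℝ} (h : ∀ j < m, x j < x (j + 1)) {i j : ℕ} (hij : i ≤ j)
    (hj : j ≤ m) : x i ≤ x j := by
  induction j, hij using Nat.le_induction with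
  | base => exact le_rfl
  | succ n hn ih => exact (ih (by omega)).trans (h n (by omega)).le

/-- gluing of `n` functions with value `1/2` at the break points -/
theorem glue_all {K : NNReal} {lo hi : ℝ} (x : ℕ → ℝ) (f : ℕ → ℝ → ℝ) (n : ℕ)
    (hx : ∀ l < n, x l < x (l + 1))
    (hf : ∀ l < n, LipschitzWith K (f l) ∧ f l (x l) = 1 / 2 ∧ f l (x (l + 1)) = 1 / 2 ∧
      ∀ y ∈ Icc (x l) (x (l + 1)), lo ≤ f l y ∧ f l y ≤ hi)
    (hlo : lo ≤ 1 / 2) (hhi : 1 / 2 ≤ hi) :
    ∃ t : ℝ → ℝ, LipschitzWith K t ∧ t (x n) = 1 / 2 ∧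
      (∀ l < n, ∀ y ∈ Icc (x l) (x (l + 1)), t y = f l y) ∧
      ∀ y ∈ Icc (x 0) (x n), lo ≤ t y ∧ t y ≤ hi := by
  induction n with
  | zero =>
    refine ⟨fun _ => 1 / 2, ?_, rfl, fun l hl => absurd hl (Nat.not_lt_zero _),
      fun y _ => ⟨hlo, hhi⟩⟩
    exact (LipschitzWith.const (1 / 2 : ℝ)).weaken bot_le
  | succ n ih =>
    obtain ⟨t, ht1, ht2, ht3, ht4⟩ := ih (fun l hl => hx l (by omega))
      (fun l hl => hf l (by omega))
    obtain ⟨hf1, hf2, hf3, hf4⟩ := hf n (by omega)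
    have hfg : t (x n) = f n (x n) := by rw [ht2, hf2]
    have hxn := hx n (by omega)
    refine ⟨glue (x n) t (f n), glue_lip ht1 hf1 hfg, ?_, ?_, ?_⟩
    · rw [glue_ge hfg hxn.le, hf3]
    · intro l hl y hy
      rcases Nat.lt_succ_iff_lt_or_eq.1 hl with h | h
      · have h2 : x (l + 1) ≤ x n :=
          x_mono (fun j hj => hx j (by omega)) (by omega) le_rfl
        rw [glue_le (hy.2.trans h2)]
        exact ht3 l h y hy
      · subst h
        rw [glue_ge hfg hy.1]
    · intro y hy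
      rcases le_total y (x n) with h | h
      · rw [glue_le h]
        exact ht4 y ⟨hy.1, h⟩
      · rw [glue_ge hfg h]
        exact hf4 y ⟨h, hy.2⟩

/-- contribution of a band with orientation `+` -/
theorem contrib_pos {t tau : ℝ → ℝ} (htc : Continuous t) {a b k N : ℝ} {J : ℤ}
    (hab : a ≤ b) (ht : ∀ y ∈ Icc a b, t y = tau (y - a)) (hJ : N * ∫ y in (0:ℝ)..a, t y = J) :
    ∫ y in a..b, ee (k * y - N * ∫ s in (0:ℝ)..y, t s) =
      ee (a * k) * ∫ s in (0:ℝ)..(b - a), ee (k * s - N * ∫ r in (0:ℝ)..s, tau r) := by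
  have h1 : ∀ y ∈ uIcc a b, ee (k * y - N * ∫ s in (0:ℝ)..y, t s) =
      ee (a * k) * (fun s => ee (k * s - N * ∫ r in (0:ℝ)..s, tau r)) (y - a) := by
    intro y hy
    rw [uIcc_of_le hab] at hy
    have h2 : ∫ s in (0:ℝ)..y, t s = (∫ s in (0:ℝ)..a, t s) + ∫ s in a..y, t s :=
      (intervalIntegral.integral_add_adjacent_intervals (htc.intervalIntegrable _ _)
        (htc.intervalIntegrable _ _)).symm
    have h3 : ∫ s in a..y, t s = ∫ s in (0:ℝ)..(y - a), tau s := by
      rw [intervalIntegral.integral_congr (g := fun s => tau (s - a)),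
        intervalIntegral.integral_comp_sub_right, sub_self]
      intro s hs
      rw [uIcc_of_le hy.1] at hs
      exact ht s ⟨hs.1, hs.2.trans hy.2⟩
    have e1 : k * y - N * ∫ s in (0:ℝ)..y, t s =
        (a * k + (k * (y - a) - N * ∫ s in (0:ℝ)..(y - a), tau s)) + ((-J : ℤ) : ℝ) := by
      rw [h2, h3, mul_add, hJ]
      push_cast
      ring
    rw [e1, ee_add_int, ee_add]
  rw [intervalIntegral.integral_congr h1, intervalIntegral.integral_const_mul,
    intervalIntegral.integral_comp_sub_right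
      (fun s => ee (k * s - N * ∫ r in (0:ℝ)..s, tau r)), sub_self]

/-- contribution of a band with orientation `-` -/
theorem contrib_neg {t tau : ℝ → ℝ} (htc : Continuous t) (htau : Continuous tau)
    {a b k N : ℝ} {J j : ℤ}
    (hab : a ≤ b) (ht : ∀ y ∈ Icc a b, t y = tau (b - y)) (hJ : N * ∫ y in (0:ℝ)..a, t y = J)
    (hj : N * ∫ y in (0:ℝ)..(b - a), tau y = j) :
    ∫ y in a..b, ee (k * y - N * ∫ s in (0:ℝ)..y, t s) =
      (starRingEnd ℂ) (ee (-b * k) *
        ∫ s in (0:ℝ)..(b - a), ee (k * s - N * ∫ r in (0:ℝ)..s, tau r)) := by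
  have h1 : ∀ y ∈ uIcc a b, ee (k * y - N * ∫ s in (0:ℝ)..y, t s) =
      (fun s => (starRingEnd ℂ) (ee (-b * k) * ee (k * s - N * ∫ r in (0:ℝ)..s, tau r)))
        (b - y) := by
    intro y hy
    rw [uIcc_of_le hab] at hy
    have h2 : ∫ s in (0:ℝ)..y, t s = (∫ s in (0:ℝ)..a, t s) + ∫ s in a..y, t s :=
      (intervalIntegral.integral_add_adjacent_intervals (htc.intervalIntegrable _ _)
        (htc.intervalIntegrable _ _)).symm
    have h3 : ∫ s in a..y, t s = ∫ s in (b - y)..(b - a), tau s := by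
      rw [intervalIntegral.integral_congr (g := fun s => tau (b - s)),
        intervalIntegral.integral_comp_sub_left]
      intro s hs
      rw [uIcc_of_le hy.1] at hs
      exact ht s ⟨hs.1, hs.2.trans hy.2⟩
    have h4 : ∫ s in (b - y)..(b - a), tau s =
        (∫ s in (0:ℝ)..(b - a), tau s) - ∫ s in (0:ℝ)..(b - y), tau s :=
      (intervalIntegral.integral_interval_sub_left (htau.intervalIntegrable _ _)
        (htau.intervalIntegrable _ _)).symm
    have e1 : k * y - N * ∫ s in (0:ℝ)..y, t s =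
        -(-b * k + (k * (b - y) - N * ∫ s in (0:ℝ)..(b - y), tau s)) + ((-J - j : ℤ) : ℝ) := by
      rw [h2, h3, h4, mul_add, mul_sub, hJ, hj]
      push_cast
      ring
    simp only
    rw [e1, ee_add_int, ← ee_add, ee_conj]
  rw [intervalIntegral.integral_congr h1, intervalIntegral.integral_comp_sub_left
    (fun s => (starRingEnd ℂ) (ee (-b * k) * ee (k * s - N * ∫ r in (0:ℝ)..s, tau r))), sub_self,
    intervalIntegral_conj, intervalIntegral.integral_const_mul]

/-- at most one active window -/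
theorem one_window {m : ℕ} (A B : Fin m → ℝ) {P Q : ℝ} (hP : 0 ≤ P) (hQ : 0 ≤ Q)
    (hA : ∀ i, 0 ≤ A i ∧ A i ≤ P) (hB : ∀ i, |B i| ≤ Q)
    (h1 : ∀ i i', i ≠ i' → A i = 0 ∨ A i' = 0) : |∑ i, A i * B i| ≤ P * Q := by
  by_cases h : ∃ i, A i ≠ 0
  · obtain ⟨i, hi⟩ := h
    rw [Finset.sum_eq_single i]
    · rw [abs_mul, abs_of_nonneg (hA i).1]
      exact mul_le_mul (hA i).2 (hB i) (abs_nonneg _) hP
    · intro j _ hj
      rcases h1 j i hj with h | h
      · rw [h, zero_mul]
      · exact absurd h hi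
    · intro h; exact absurd (Finset.mem_univ i) h
  · push Not at h
    rw [Finset.sum_eq_zero]
    · rw [abs_zero]; positivity
    · intro i _; rw [h i, zero_mul]

end

end Crest.Agent.R075.Ana
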