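import Crest.Agent.R075.AnaGlue

/-!
Row 75 (helper20), THM A: windows, the coefficients, the theorem `analysis`.
-/

set_option autoImplicit false

namespace Crest.Agent.R075.Ana

open MeasureTheory Set Real

noncomputable section

/-- disjoint windows with gaps -/
theorem windows {m : ℕ} (De : Fin m → ℝ) (hpos : ∀ i, 0 < De i) (hsum : ∑ i, De i < 1) :
    ∃ (g : ℝ) (T : Fin m → ℝ), 0 < g ∧ (∀ i, g ≤ T i ∧ T i + De i ≤ 1 - g) ∧
      ∀ i i', i < i' → T i + De i < T i' := by
  classical
  set g : ℝ := (1 - ∑ i, De i) / (m + 1) with hg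
  have hm : (0:ℝ) < m + 1 := by positivity
  have hg0 : 0 < g := div_pos (by linarith) hm
  have hgm : g * (m + 1) = 1 - ∑ i, De i := by rw [hg]; field_simp
  set S : Fin m → ℝ := fun i => ∑ j ∈ Finset.univ.filter (fun j => j < i), De j with hS
  have hSi : ∀ i, S i + De i = ∑ j ∈ Finset.univ.filter (fun j => j ≤ i), De j := by
    intro i
    have : Finset.univ.filter (fun j => j ≤ i) =
        insert i (Finset.univ.filter (fun j => j < i)) := by
      ext j
      simp only [Finset.mem_filter, Finset.mem_univ, true_and, Finset.mem_insert]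
      exact le_iff_eq_or_lt
    rw [this, Finset.sum_insert (by simp)]
    simp only [hS]
    ring
  refine ⟨g, fun i => g * ((i : ℕ) + 1) + S i, hg0, fun i => ⟨?_, ?_⟩, ?_⟩
  · have h1 : 0 ≤ S i := Finset.sum_nonneg fun j _ => (hpos j).le
    have h2 : (0:ℝ) ≤ (i : ℕ) := Nat.cast_nonneg _
    simp only
    nlinarith
  · have h1 : S i + De i ≤ ∑ j, De j := by
      rw [hSi]
      exact Finset.sum_le_sum_of_subset_of_nonneg (Finset.filter_subset _ _)
        fun j _ _ => (hpos j).le
    have h2 : ((i : ℕ) : ℝ) + 1 ≤ m := by exact_mod_cast i.2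
    simp only
    nlinarith
  · intro i i' hii
    have h1 : S i + De i ≤ S i' := by
      rw [hSi]
      refine Finset.sum_le_sum_of_subset_of_nonneg ?_ fun j _ _ => (hpos j).le
      intro j
      simp only [Finset.mem_filter, Finset.mem_univ, true_and]
      exact fun h => lt_of_le_of_lt h hii
    have h2 : ((i : ℕ) : ℝ) + 1 ≤ (i' : ℕ) := by exact_mod_cast hii
    simp only
    nlinarith

/-- the coefficient as a sum over the bands -/
theorem ck_eq_sum {n : ℕ} {x : ℕ → ℝ} {ori : ℕ → Bool} {tau : ℕ → ℝ → ℝ} {t : ℝ → ℝ} {N : ℕ}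
    (hx0 : x 0 = 0) (hxn : x n = 1 / 2) (hx : ∀ l < n, x l < x (l + 1))
    (htc : Continuous t) (hc : ∀ l < n, Continuous (tau l))
    (ht : ∀ l < n, ∀ y ∈ Icc (x l) (x (l + 1)),
      t y = if ori l then tau l (y - x l) else tau l (x (l + 1) - y))
    (hj : ∀ l < n, ∃ j : ℤ, (N : ℝ) * ∫ y in (0:ℝ)..(x (l + 1) - x l), tau l y = j) :
    (∃ J : ℤ, (N : ℝ) * ∫ y in (0:ℝ)..(1 / 2), t y = J) ∧
    ∀ k : ℤ, ck N t k = ∑ l ∈ Finset.range n,
      2 * (ee ((if ori l then x l else -x (l + 1)) * k) * (((Real.sqrt N : ℝ) : ℂ) *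
        ∫ s in (0:ℝ)..(x (l + 1) - x l), ee (k * s - N * ∫ r in (0:ℝ)..s, tau l r))).re := by
  have hint : ∀ l < n, ∫ y in (x l)..(x (l + 1)), t y =
      ∫ y in (0:ℝ)..(x (l + 1) - x l), tau l y := by
    intro l hl
    have hxl := (hx l hl).le
    cases h : ori l with
    | true =>
      rw [intervalIntegral.integral_congr (g := fun y => tau l (y - x l)),
        intervalIntegral.integral_comp_sub_right (fun y => tau l y), sub_self]
      intro y hy
      rw [uIcc_of_le hxl] at hy
      have := ht l hl y hy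
      rwa [if_pos h] at this
    | false =>
      rw [intervalIntegral.integral_congr (g := fun y => tau l (x (l + 1) - y)),
        intervalIntegral.integral_comp_sub_left (fun y => tau l y), sub_self]
      intro y hy
      rw [uIcc_of_le hxl] at hy
      have := ht l hl y hy
      rwa [if_neg (by rw [h]; simp)] at this
  have hJ : ∀ l ≤ n, ∃ J : ℤ, (N : ℝ) * ∫ y in (0:ℝ)..(x l), t y = J := by
    intro l
    induction l with
    | zero => intro _; exact ⟨0, by rw [hx0]; simp⟩
    | succ l ih =>
      intro hl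
      obtain ⟨J, hJ⟩ := ih (by omega)
      obtain ⟨j, hj⟩ := hj l (by omega)
      refine ⟨J + j, ?_⟩
      rw [← intervalIntegral.integral_add_adjacent_intervals (b := x l)
        (htc.intervalIntegrable _ _) (htc.intervalIntegrable _ _), mul_add, hJ,
        hint l (by omega), hj]
      push_cast
      ring
  refine ⟨by rw [← hxn]; exact hJ n le_rfl, fun k => ?_⟩
  have hcont : Continuous fun y : ℝ => ee ((k:ℝ) * y - N * ∫ s in (0:ℝ)..y, t s) := by
    refine ee_continuous.comp ?_
    refine (continuous_const.mul continuous_id).sub (continuous_const.mul ?_)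
    exact intervalIntegral.continuous_primitive (fun a b => htc.intervalIntegrable a b) 0
  have hsplit : ∫ y in (0:ℝ)..(1 / 2), ee ((k:ℝ) * y - N * ∫ s in (0:ℝ)..y, t s) =
      ∑ l ∈ Finset.range n, ∫ y in (x l)..(x (l + 1)),
        ee ((k:ℝ) * y - N * ∫ s in (0:ℝ)..y, t s) := by
    rw [intervalIntegral.sum_integral_adjacent_intervals
      (fun l _ => hcont.intervalIntegrable _ _), hx0, hxn]
  unfold ck
  rw [hsplit, Complex.re_sum, Finset.mul_sum]
  refine Finset.sum_congr rfl fun l hl => ?_
  have hl' := Finset.mem_range.1 hl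
  obtain ⟨J, hJ⟩ := hJ l hl'.le
  obtain ⟨j, hj⟩ := hj l hl'
  cases h : ori l with
  | true =>
    rw [contrib_pos (tau := tau l) htc (hx l hl').le (fun y hy => by
      have := ht l hl' y hy
      rwa [if_pos h] at this) hJ, if_pos rfl]
    rw [mul_left_comm (ee _), Complex.re_ofReal_mul]
    ring
  | false =>
    rw [contrib_neg (tau := tau l) htc (hc l hl') (hx l hl').le (fun y hy => by
      have := ht l hl' y hy
      rwa [if_neg (by rw [h]; simp)] at this) hJ hj, if_neg (by simp), Complex.conj_re]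
    rw [mul_left_comm (ee _), Complex.re_ofReal_mul]
    ring

end

end Crest.Agent.R075.Ana
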