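import Crest.Agent.R075.AnaGlue2

/-!
Row 75 (helper20), THM A: the theorem `analysis`.
-/

set_option autoImplicit false

namespace Crest.Agent.R075.Ana

open MeasureTheory Set Real

noncomputable section

/-- the bound for one coefficient -/
theorem coef_bound {ε : ℝ} (hε : 0 ≤ ε) (Ti : Tiling ε) {P ze : ℝ} (hP : 0 ≤ P)
    {A G : Fin Ti.m → ℝ} (hA : ∀ i, 0 ≤ A i ∧ A i ≤ P) (h1 : ∀ i i', i ≠ i' → A i = 0 ∨ A i' = 0)
    (k : ℤ) (X : ℕ → ℂ) (err : ℕ → ℝ)
    (hX : ∀ l < Ti.n, ‖X l - ((A (Ti.pc l) *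
      Real.sqrt ((Ti.x (l + 1) - Ti.x l) / Ti.De (Ti.pc l)) : ℝ) : ℂ) *
        ee (Ti.al l + (Ti.x (l + 1) - Ti.x l) * G (Ti.pc l))‖ ≤ err l) :
    |∑ l ∈ Finset.range Ti.n,
      2 * (ee ((if Ti.ori l then Ti.x l else -Ti.x (l + 1)) * k) * X l).re| ≤
      P * (1 + ε) + ∑ l ∈ Finset.range Ti.n, 2 * err l := by
  classical
  set sg : ℕ → ℝ := fun l => if Ti.ori l then Ti.x l else -Ti.x (l + 1) with hsg
  set M : ℕ → ℂ := fun l => ((A (Ti.pc l) *
      Real.sqrt ((Ti.x (l + 1) - Ti.x l) / Ti.De (Ti.pc l)) : ℝ) : ℂ) *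
        ee (Ti.al l + (Ti.x (l + 1) - Ti.x l) * G (Ti.pc l)) with hM
  have e1 : ∑ l ∈ Finset.range Ti.n, 2 * (ee (sg l * k) * X l).re =
      (∑ l ∈ Finset.range Ti.n, 2 * (ee (sg l * k) * M l).re) +
        ∑ l ∈ Finset.range Ti.n, 2 * (ee (sg l * k) * (X l - M l)).re := by
    rw [← Finset.sum_add_distrib]
    refine Finset.sum_congr rfl fun l _ => ?_
    rw [← mul_add, ← Complex.add_re, ← mul_add, add_sub_cancel]
  have e2 : |∑ l ∈ Finset.range Ti.n, 2 * (ee (sg l * k) * (X l - M l)).re| ≤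
      ∑ l ∈ Finset.range Ti.n, 2 * err l := by
    refine (Finset.abs_sum_le_sum_abs _ _).trans (Finset.sum_le_sum fun l hl => ?_)
    rw [abs_mul, abs_two]
    refine mul_le_mul_of_nonneg_left ?_ zero_le_two
    refine (Complex.abs_re_le_norm _).trans ?_
    rw [norm_mul, norm_ee, one_mul]
    exact hX l (Finset.mem_range.1 hl)
  have e3 : ∑ l ∈ Finset.range Ti.n, 2 * (ee (sg l * k) * M l).re =
      ∑ i, A i * (2 * ∑ l ∈ (Finset.range Ti.n).filter (fun l => Ti.pc l = i),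
        Real.sqrt ((Ti.x (l + 1) - Ti.x l) / Ti.De i) *
          Real.cos (2 * Real.pi * (Ti.al l + (if Ti.ori l then Ti.x l else -Ti.x (l + 1)) * k
            + (Ti.x (l + 1) - Ti.x l) * G i))) := by
    rw [← Finset.sum_fiberwise (Finset.range Ti.n) Ti.pc]
    refine Finset.sum_congr rfl fun i _ => ?_
    rw [Finset.mul_sum, Finset.mul_sum]
    refine Finset.sum_congr rfl fun l hl => ?_
    have hli : Ti.pc l = i := (Finset.mem_filter.1 hl).2
    rw [hM]
    simp only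
    rw [hli, mul_left_comm (ee _), Complex.re_ofReal_mul, ← ee_add, ee_re]
    have : sg l * k + (Ti.al l + (Ti.x (l + 1) - Ti.x l) * G i) =
        Ti.al l + (if Ti.ori l then Ti.x l else -Ti.x (l + 1)) * k
            + (Ti.x (l + 1) - Ti.x l) * G i := by
      rw [hsg]
      ring
    rw [this]
    ring
  have e4 : |∑ l ∈ Finset.range Ti.n, 2 * (ee (sg l * k) * M l).re| ≤ P * (1 + ε) := by
    rw [e3]
    exact one_window A _ hP (by linarith) hA (fun i => Ti.amp i k (G i)) h1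
  rw [e1]
  exact (abs_add_le _ _).trans (add_le_add e4 e2)

/-- THM A -/
theorem analysis (hP : ∀ e : ℝ, 0 < e → Nonempty (Profile e)) (hV : V2)
    (hTil : ∀ e : ℝ, 0 < e → Nonempty (Tiling e)) {eps : ℝ} (heps : 0 < eps) :
    ∃ N0 : ℕ, ∀ N : ℕ, N0 ≤ N → ∃ c : ℕ → ℝ, (∀ k, |c k| ≤ 1 + eps) ∧
      ∀ z : ℂ, ‖z‖ = 1 →
        |‖∑ k ∈ Finset.range N, ((c k : ℝ) : ℂ) * z ^ k‖ - Real.sqrt N| ≤
          eps * Real.sqrt N := by
  classical
  obtain ⟨Ti⟩ := hTil (eps / 3) (by positivity)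
  set lam : ℕ → ℝ := fun l => Ti.x (l + 1) - Ti.x l with hlamdef
  have hlam : ∀ l < Ti.n, 0 < lam l := fun l hl => by
    have := Ti.x_lt l hl
    simp only [hlamdef]
    linarith
  set C1 : ℝ := ∑ l ∈ Finset.range Ti.n, 2 * Real.sqrt (lam l / Ti.De (Ti.pc l)) with hC1
  set C2 : ℝ := ∑ l ∈ Finset.range Ti.n, 24 * Real.sqrt (8 * lam l) with hC2
  have hC10 : 0 ≤ C1 := Finset.sum_nonneg fun l _ => by positivity
  have hC20 : 0 ≤ C2 := Finset.sum_nonneg fun l _ => by positivity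
  set e : ℝ := eps / 3 / (1 + eps / 3 + C1) with he
  have he0 : 0 < e := by positivity
  have he1 : e * (1 + eps / 3 + C1) = eps / 3 := by
    rw [he]
    field_simp
  obtain ⟨Pf⟩ := hP e he0
  set ze : ℝ := min (1 / 4) ((eps / (3 * (C2 + 1))) ^ 2) with hze
  have hze0 : 0 < ze := lt_min (by norm_num) (by positivity)
  have hze4 : ze ≤ 1 / 4 := min_le_left _ _
  have hze2 : C2 * Real.sqrt ze ≤ eps / 3 := by
    have h1 : Real.sqrt ze ≤ eps / (3 * (C2 + 1)) := by
      rw [Real.sqrt_le_left (by positivity)]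
      exact min_le_right _ _
    calc C2 * Real.sqrt ze ≤ (C2 + 1) * (eps / (3 * (C2 + 1))) :=
          mul_le_mul (by linarith) h1 (Real.sqrt_nonneg _) (by linarith)
      _ = eps / 3 := by field_simp
  obtain ⟨g, T, hg, hT1, hT2⟩ := windows Ti.De Ti.De_pos Ti.De_sum
  set eta : ℝ := min g (1 / 8) with heta
  have heta0 : 0 < eta := lt_min hg (by norm_num)
  have heta8 : eta ≤ 1 / 8 := min_le_right _ _
  have hetag : eta ≤ g := min_le_left _ _
  have hband := fun (l : ℕ) (hl : l < Ti.n) =>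
    band Pf hV (al := Ti.al l) (hlam l hl) hze0 hze4 (Ti.De_pos (Ti.pc l)) heta0 heta8
      (hetag.trans (hT1 (Ti.pc l)).1)
      ((hT1 (Ti.pc l)).2.trans (by linarith : 1 - g ≤ 1 - eta))
  choose! K N0 hKN using hband
  set Km : NNReal := ∑ l ∈ Finset.range Ti.n, K l with hKm
  have hKle : ∀ l < Ti.n, K l ≤ Km := fun l hl =>
    Finset.single_le_sum (f := K) (fun _ _ => bot_le) (Finset.mem_range.2 hl)
  obtain ⟨N1, hN1⟩ := fourier Km eta eps heta0 heps
  refine ⟨max 1 (max N1 (∑ l ∈ Finset.range Ti.n, N0 l)), fun N hN => ?_⟩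
  have hNpos : 1 ≤ N := (le_max_left _ _).trans hN
  have hNN1 : N1 ≤ N := ((le_max_left _ _).trans (le_max_right _ _)).trans hN
  have hNN0 : ∀ l < Ti.n, N0 l ≤ N := fun l hl =>
    ((Finset.single_le_sum (f := N0) (fun _ _ => Nat.zero_le _) (Finset.mem_range.2 hl)).trans
      ((le_max_right _ _).trans (le_max_right _ _))).trans hN
  have hNr : (0:ℝ) < N := by exact_mod_cast hNpos
  have htau := fun (l : ℕ) (hl : l < Ti.n) => hKN l hl N (hNN0 l hl)
  choose! tau ta1 ta2 ta3 ta4 ta5 ta6 using htau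
  obtain ⟨chi, hchi1, _, hchi3⟩ := hN1 N hNN1
  set f : ℕ → ℝ → ℝ := fun l y => if Ti.ori l then tau l (y - Ti.x l)
    else tau l (Ti.x (l + 1) - y) with hf
  have hf1 : ∀ l < Ti.n, LipschitzWith Km (f l) := by
    intro l hl
    refine LipschitzWith.of_dist_le_mul fun u v => ?_
    have hL := (ta1 l hl).weaken (hKle l hl)
    simp only [hf]
    split_ifs
    · refine (hL.dist_le_mul _ _).trans (le_of_eq ?_)
      rw [Real.dist_eq, Real.dist_eq]
      congr 2
      ring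
    · refine (hL.dist_le_mul _ _).trans (le_of_eq ?_)
      rw [Real.dist_eq, Real.dist_eq, ← abs_neg]
      congr 2
      ring
  have hf2 : ∀ l < Ti.n, f l (Ti.x l) = 1 / 2 := by
    intro l hl
    simp only [hf]
    split_ifs
    · rw [sub_self]; exact ta2 l hl
    · exact ta3 l hl
  have hf3 : ∀ l < Ti.n, f l (Ti.x (l + 1)) = 1 / 2 := by
    intro l hl
    simp only [hf]
    split_ifs
    · exact ta3 l hl
    · rw [sub_self]; exact ta2 l hl
  have hf4 : ∀ l < Ti.n, ∀ y ∈ Icc (Ti.x l) (Ti.x (l + 1)), eta ≤ f l y ∧ f l y ≤ 1 - eta := by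
    intro l hl y hy
    simp only [hf]
    split_ifs
    · exact ta4 l hl _ ⟨by linarith [hy.1], by simp only [hlamdef]; linarith [hy.2]⟩
    · exact ta4 l hl _ ⟨by linarith [hy.2], by simp only [hlamdef]; linarith [hy.1]⟩
  obtain ⟨t, ht1, _, ht3, ht4⟩ := glue_all (K := Km) (lo := eta) (hi := 1 - eta) Ti.x f Ti.n
    Ti.x_lt (fun l hl => ⟨hf1 l hl, hf2 l hl, hf3 l hl, hf4 l hl⟩) (by linarith) (by linarith)
  obtain ⟨⟨J, hJ⟩, hck⟩ := ck_eq_sum (N := N) Ti.x_zero Ti.x_last Ti.x_lt ht1.continuous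
    (fun l hl => (ta1 l hl).continuous) ht3 (fun l hl => ta5 l hl)
  have hbd : ∀ k : ℤ, |ck N t k| ≤ 1 + eps := by
    intro k
    rw [hck k]
    set A : Fin Ti.m → ℝ := fun i => Real.sqrt (1 - 2 * ze) * Real.sqrt Pf.kap *
      Pf.w (((k:ℝ) / N - T i) / Ti.De i) with hA
    set G : Fin Ti.m → ℝ := fun i => ze * k + (1 - 2 * ze) *
      (N * Ti.De i * Pf.g (((k:ℝ) / N - T i) / Ti.De i)) with hG
    have hs1 : Real.sqrt (1 - 2 * ze) ≤ 1 := by
      rw [Real.sqrt_le_one]; linarith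
    have hk0 : 0 ≤ Real.sqrt Pf.kap := Real.sqrt_nonneg _
    have hA1 : ∀ i, 0 ≤ A i ∧ A i ≤ Real.sqrt Pf.kap := by
      intro i
      have hw0 := Pf.w_nonneg (((k:ℝ) / N - T i) / Ti.De i)
      have hw1 := Pf.w_le (((k:ℝ) / N - T i) / Ti.De i)
      refine ⟨by positivity, ?_⟩
      calc A i ≤ 1 * Real.sqrt Pf.kap * 1 :=
            mul_le_mul (mul_le_mul_of_nonneg_right hs1 hk0) hw1 hw0 (by linarith)
        _ = Real.sqrt Pf.kap := by ring
    have hA0 : ∀ i, A i ≠ 0 → T i ≤ (k:ℝ) / N ∧ (k:ℝ) / N ≤ T i + Ti.De i := by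
      intro i hi
      by_contra hcon
      have hD := Ti.De_pos i
      apply hi
      have : Pf.w (((k:ℝ) / N - T i) / Ti.De i) = 0 := by
        apply Pf.w_off
        rw [not_and_or] at hcon
        rcases hcon with h | h
        · left
          exact div_neg_of_neg_of_pos (by linarith) hD
        · right
          rw [lt_div_iff₀ hD]
          linarith
      simp only [hA]
      rw [this, mul_zero]
    have hA2 : ∀ i i', i ≠ i' → A i = 0 ∨ A i' = 0 := by
      intro i i' hne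
      by_contra hcon
      rw [not_or] at hcon
      have h1 := hA0 i hcon.1
      have h2 := hA0 i' hcon.2
      rcases lt_or_gt_of_ne hne with h | h
      · have := hT2 i i' h
        linarith
      · have := hT2 i' i h
        linarith
    have hcb := coef_bound (ze := ze) (by positivity : (0:ℝ) ≤ eps / 3) Ti hk0 hA1 hA2 (G := G) k
      (fun l => ((Real.sqrt N : ℝ) : ℂ) *
        ∫ s in (0:ℝ)..(Ti.x (l + 1) - Ti.x l), ee (k * s - N * ∫ r in (0:ℝ)..s, tau l r))
      (fun l => Real.sqrt (lam l / Ti.De (Ti.pc l)) * e + 12 * Real.sqrt (8 * (ze * lam l)))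
      (fun l hl => ta6 l hl k)
    refine hcb.trans ?_
    have hsum : ∑ l ∈ Finset.range Ti.n, 2 * (Real.sqrt (lam l / Ti.De (Ti.pc l)) * e +
        12 * Real.sqrt (8 * (ze * lam l))) = e * C1 + C2 * Real.sqrt ze := by
      rw [hC1, hC2, Finset.mul_sum, Finset.sum_mul, ← Finset.sum_add_distrib]
      refine Finset.sum_congr rfl fun l hl => ?_
      have h8 : (0:ℝ) ≤ 8 * lam l := by
        have := hlam l (Finset.mem_range.1 hl)
        positivity
      have : Real.sqrt (8 * (ze * lam l)) = Real.sqrt (8 * lam l) * Real.sqrt ze := by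
        rw [← Real.sqrt_mul h8]
        congr 1
        ring
      rw [this]
      ring
    rw [hsum]
    have hkap : Real.sqrt Pf.kap ≤ 1 + e := by
      rw [Real.sqrt_le_left (by linarith)]
      nlinarith [Pf.le]
    have h3 : Real.sqrt Pf.kap * (1 + eps / 3) ≤ (1 + e) * (1 + eps / 3) :=
      mul_le_mul_of_nonneg_right hkap (by positivity)
    nlinarith
  refine ⟨fun k => chi k * ck N t k, fun k => ?_, fun z hz => ?_⟩
  · rw [abs_mul, abs_of_nonneg (hchi1 k).1]
    calc chi k * |ck N t k| ≤ 1 * (1 + eps) :=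
          mul_le_mul (hchi1 k).2 (hbd k) (abs_nonneg _) zero_le_one
      _ = 1 + eps := one_mul _
  · refine hchi3 t (ht1.lipschitzOnWith) (fun x hx => ht4 x ?_) ⟨2 * J, ?_⟩ z hz
    · rw [Ti.x_zero, Ti.x_last]; exact hx
    · rw [mul_assoc, hJ]
      push_cast
      ring

end

end Crest.Agent.R075.Ana
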