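import Crest.Agent.R075.Profile

/-!
# Row 75: PROFILE LEMMA, final form (helper201)
-/

set_option autoImplicit false

open MeasureTheory Set Filter Topology intervalIntegral

namespace Crest.Agent.R075

/-- explicit nodes -/
noncomputable def ynode (n : ℕ) (τ : ℝ) (j : ℕ) : ℝ :=
  if j ≤ n then j * (τ / n) else 1 - τ + ((j : ℝ) - n - 1) * (τ / n)

/-- explicit amplitudes -/
noncomputable def wnode (n : ℕ) (j : ℕ) : ℝ :=
  if j < n then ((j : ℝ) + 1) / n else if j = n then 1 else (2 * (n : ℝ) + 1 - j) / n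

lemma nodes_explicit {n : ℕ} (hn : 1 ≤ n) {τ : ℝ} (hτ : 0 < τ) (hτ4 : τ ≤ 1 / 4) :
    Nodes (2 * n + 1) (ynode n τ) (wnode n) (τ / n) n := by
  have hn0 : (0 : ℝ) < n := by exact_mod_cast hn
  have hn1 : (1 : ℝ) ≤ n := by exact_mod_cast hn
  have hr : 0 < τ / n := by positivity
  have hrle : τ / n ≤ 1 / 4 := by
    rw [div_le_iff₀ hn0]; nlinarith
  have hτn : (n : ℝ) * (τ / n) = τ := by field_simp
  refine ⟨by omega, hr, hn1, ?_, ?_, ?_, ?_, ?_, ?_, ?_, ?_⟩
  · unfold ynode; simp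
  · unfold ynode
    rw [if_neg (by omega)]
    push_cast
    have : ((2 * (n : ℝ) + 1) - n - 1) * (τ / n) = n * (τ / n) := by ring
    rw [this, hτn]; ring
  · intro j hj
    unfold ynode
    rcases lt_trichotomy j n with h | h | h
    · rw [if_pos (by omega), if_pos (by omega)]
      push_cast; linarith
    · rw [if_neg (by omega), if_pos (by omega), h]
      push_cast
      have : ((n : ℝ) + 1 - n - 1) * (τ / n) = 0 := by ring
      rw [this, hτn]; linarith
    · rw [if_neg (by omega), if_neg (by omega)]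
      push_cast; linarith
  · intro j hj
    unfold wnode
    split_ifs with h1 h2
    · rw [div_le_div_iff_of_pos_right hn0]
      have : (0 : ℝ) ≤ j := Nat.cast_nonneg j
      linarith
    · rw [div_le_one hn0]; exact hn1
    · rw [div_le_div_iff_of_pos_right hn0]
      have : (j : ℝ) ≤ 2 * n := by
        have : j ≤ 2 * n := by omega
        exact_mod_cast this
      linarith
  · intro j hj
    unfold wnode
    split_ifs with h1 h2
    · rw [div_le_one hn0]
      have : j + 1 ≤ n := by omega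
      exact_mod_cast this
    · exact le_rfl
    · rw [div_le_one hn0]
      have : (n : ℝ) + 1 ≤ j := by
        have : n + 1 ≤ j := by omega
        exact_mod_cast this
      linarith
  · intro j hj
    have hinv : 0 < 1 / (n : ℝ) := by positivity
    unfold wnode
    rcases lt_trichotomy (j + 1) n with h | h | h
    · rw [if_pos h, if_pos (by omega)]
      have : ((j + 1 : ℕ) : ℝ) + 1 = (j : ℝ) + 1 + 1 := by push_cast; ring
      rw [this, ← sub_div, add_sub_cancel_left, abs_of_pos hinv]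
    · rw [if_neg (by omega), if_pos h, if_pos (by omega)]
      have : (j : ℝ) + 1 = n := by rw [← h]; push_cast; ring
      rw [this, div_self hn0.ne', sub_self, abs_zero]
      exact hinv.le
    · rw [if_neg (by omega), if_neg (by omega)]
      rcases Nat.lt_or_ge n j with h3 | h3
      · rw [if_neg (by omega), if_neg (by omega)]
        have : (2 * (n : ℝ) + 1 - ((j + 1 : ℕ) : ℝ)) / n - (2 * (n : ℝ) + 1 - j) / n = -(1 / n) := by
          push_cast; ring
        rw [this, abs_neg, abs_of_pos hinv]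
      · have hj' : j = n := by omega
        rw [if_neg (by omega), if_pos hj', hj']
        have : (2 * (n : ℝ) + 1 - ((n + 1 : ℕ) : ℝ)) / n = 1 := by
          push_cast
          rw [div_eq_one_iff_eq hn0.ne']; ring
        rw [this, sub_self, abs_zero]
        exact hinv.le
  · unfold wnode
    rw [if_pos (by omega)]
    simp
  · unfold wnode
    rw [if_neg (by omega), if_neg (by omega)]
    have : 2 * n + 1 - 1 = 2 * n := by omega
    rw [this]
    push_cast
    rw [div_le_div_iff_of_pos_right hn0]; linarith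

section
variable {m : ℕ} {y w : ℕ → ℝ} {r n : ℝ} (hN : Nodes m y w r n)
include hN

/-- `X` on a piece -/
lemma Nodes.Xpos_piece (κ : ℝ) {j : ℕ} (hj : j < m) {u : ℝ} (h1 : y j ≤ u) (h2 : u ≤ y (j + 1)) :
    Xpos κ (stepW m y w) u = Xpos κ (stepW m y w) (y j) + κ * w j ^ 2 * (u - y j) := by
  unfold Xpos
  rw [← integral_add_adjacent_intervals (hN.prf.int_sq 0 (y j)) (hN.prf.int_sq (y j) u)]
  have : ∫ r in (y j)..u, stepW m y w r ^ 2 = ∫ r in (y j)..u, w j ^ 2 := by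
    apply intervalIntegral.integral_congr_ae
    have hne : ∀ᵐ v : ℝ ∂volume, v ≠ u := by rw [ae_iff]; simp
    filter_upwards [hne] with v hv hmem
    rw [uIoc_of_le h1] at hmem
    rw [hN.stepW_piece hj hmem.1.le ((lt_of_le_of_ne hmem.2 hv).trans_le h2)]
  rw [this, intervalIntegral.integral_const, smul_eq_mul]
  ring

lemma Nodes.exists_piece_closed {u : ℝ} (h0 : 0 ≤ u) (h1 : u ≤ 1) :
    ∃ j, j < m ∧ y j ≤ u ∧ u ≤ y (j + 1) := by
  rcases lt_or_eq_of_le h1 with h | h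
  · obtain ⟨j, hj, h2, h3⟩ := hN.exists_piece h0 h
    exact ⟨j, hj, h2, h3.le⟩
  · refine ⟨m - 1, by have := hN.hm; omega, ?_, ?_⟩
    · rw [h, ← hN.ym]; exact hN.mono (by omega) le_rfl
    · rw [Nat.sub_add_cancel hN.hm, hN.ym, h]

end

/-- the energy of the explicit profile is between `1 - 2τ` and `1` -/
lemma energy_explicit {n : ℕ} (hn : 1 ≤ n) {τ : ℝ} (hτ : 0 < τ) (hτ4 : τ ≤ 1 / 4) :
    1 - 2 * τ ≤ ∫ u in (0:ℝ)..1, stepW (2 * n + 1) (ynode n τ) (wnode n) u ^ 2 ∧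
      ∫ u in (0:ℝ)..1, stepW (2 * n + 1) (ynode n τ) (wnode n) u ^ 2 ≤ 1 := by
  have hN := nodes_explicit hn hτ hτ4
  have hP := hN.prf
  set W := stepW (2 * n + 1) (ynode n τ) (wnode n) with hWd
  have hn0 : (0 : ℝ) < n := by exact_mod_cast hn
  have hτn : (n : ℝ) * (τ / n) = τ := by field_simp
  have hyn : ynode n τ n = τ := by unfold ynode; rw [if_pos le_rfl, hτn]
  have hyn1 : ynode n τ (n + 1) = 1 - τ := by
    unfold ynode; rw [if_neg (by omega)]; push_cast; ring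
  constructor
  · have h1 : ∫ u in (0:ℝ)..1, W u ^ 2 = (∫ u in (0:ℝ)..τ, W u ^ 2) + (∫ u in τ..(1 - τ), W u ^ 2)
        + ∫ u in (1 - τ)..1, W u ^ 2 := by
      rw [integral_add_adjacent_intervals (hP.int_sq _ _) (hP.int_sq _ _),
        integral_add_adjacent_intervals (hP.int_sq _ _) (hP.int_sq _ _)]
    have h2 : 0 ≤ ∫ u in (0:ℝ)..τ, W u ^ 2 :=
      intervalIntegral.integral_nonneg hτ.le (fun r _ => sq_nonneg _)
    have h3 : 0 ≤ ∫ u in (1 - τ)..1, W u ^ 2 :=
      intervalIntegral.integral_nonneg (by linarith) (fun r _ => sq_nonneg _)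
    have h4 : ∫ u in τ..(1 - τ), W u ^ 2 = ∫ u in τ..(1 - τ), (1 : ℝ) := by
      apply intervalIntegral.integral_congr_ae
      have hne : ∀ᵐ v : ℝ ∂volume, v ≠ 1 - τ := by rw [ae_iff]; simp
      filter_upwards [hne] with v hv hmem
      rw [uIoc_of_le (by linarith)] at hmem
      have hw : wnode n n = 1 := by unfold wnode; rw [if_neg (by omega), if_pos rfl]
      have h5 := hN.stepW_piece (j := n) (u := v) (by omega) (by rw [hyn]; exact hmem.1.le)
        (by rw [hyn1]; exact lt_of_le_of_ne hmem.2 hv)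
      rw [hWd, h5, hw, one_pow]
    rw [intervalIntegral.integral_const, smul_eq_mul, mul_one] at h4
    rw [h1, h4]; linarith
  · have h1 : ∫ u in (0:ℝ)..1, W u ^ 2 ≤ ∫ u in (0:ℝ)..1, (1 : ℝ) := by
      apply intervalIntegral.integral_mono_on zero_le_one (hP.int_sq _ _)
        (continuous_const.intervalIntegrable _ _)
      intro u _
      exact hP.sq_le u
    simpa using h1

/-- **PROFILE LEMMA** -/
theorem profile (ε : ℝ) (hε : 0 < ε) :
    ∃ (m : ℕ) (x y : ℕ → ℝ) (κ : ℝ) (W g : ℝ → ℝ) (Λ₀ : ℝ),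
      1 ≤ m ∧ x 0 = 0 ∧ x m = 1 ∧ y 0 = 0 ∧ y m = 1 ∧
      (∀ j, j < m → x j < x (j + 1) ∧ y j < y (j + 1)) ∧
      1 ≤ κ ∧ κ ≤ 1 + ε ∧ (∀ u, 0 ≤ W u ∧ W u ≤ 1) ∧ (∀ u, u ∉ Icc (0:ℝ) 1 → W u = 0) ∧
      0 < Λ₀ ∧
      ∀ γ : ℝ → ℝ, ContinuousOn γ (Icc 0 1) →
        (∀ j, j < m → ∀ z ∈ Icc (x j) (x (j + 1)),
          γ z = y j + (y (j + 1) - y j) / (x (j + 1) - x j) * (z - x j)) →
        ∀ Λ, Λ₀ ≤ Λ → ∀ u : ℝ,
          ‖((Real.sqrt Λ : ℝ) : ℂ) * (∫ z in (0:ℝ)..1, ee (Λ * (z * u - ∫ s in (0:ℝ)..z, γ s)))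
            - ((Real.sqrt κ * W u : ℝ) : ℂ) * ee (Λ * g u - 1 / 8)‖ ≤ ε := by
  have hpi3 := Real.pi_gt_three
  -- parameters
  obtain ⟨A, hA0, hA⟩ : ∃ A : ℝ, 0 < A ∧ 2 * (4 / (Real.pi * A)) ≤ ε / 2 := by
    refine ⟨16 / ε, by positivity, ?_⟩
    have : 2 * (4 / (Real.pi * (16 / ε))) = (1 / Real.pi) * (ε / 2) := by
      field_simp
      ring
    rw [this]
    have h1 : 1 / Real.pi ≤ 1 := by rw [div_le_one (by linarith)]; linarith
    calc 1 / Real.pi * (ε / 2) ≤ 1 * (ε / 2) := by gcongr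
      _ = ε / 2 := one_mul _
  set B : ℝ := 6 * A * (1 + 2 * Real.pi * A ^ 2) with hB
  have hB0 : 0 < B := by rw [hB]; positivity
  obtain ⟨n, hn⟩ := exists_nat_ge (max 1 (4 * B / ε))
  have hn1 : (1 : ℝ) ≤ n := (le_max_left _ _).trans hn
  have hn1' : 1 ≤ n := by exact_mod_cast hn1
  have hn0 : (0 : ℝ) < n := by linarith
  have hnB : 2 * (B / n) ≤ ε / 2 := by
    have h1 : 4 * B / ε ≤ n := (le_max_right _ _).trans hn
    rw [div_le_iff₀ hε] at h1
    rw [← mul_div_assoc, div_le_iff₀ hn0]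
    linarith
  set τ : ℝ := min (1 / 4) (ε / 4) with hτ
  have hτ0 : 0 < τ := by rw [hτ]; positivity
  have hτ4 : τ ≤ 1 / 4 := min_le_left _ _
  have hτε : τ ≤ ε / 4 := min_le_right _ _
  have hN := nodes_explicit hn1' hτ0 hτ4
  have hP := hN.prf
  set y := ynode n τ with hy
  set w := wnode n with hw
  set W := stepW (2 * n + 1) y w with hWd
  obtain ⟨hE1, hE2⟩ := energy_explicit hn1' hτ0 hτ4
  rw [← hy, ← hw, ← hWd] at hE1 hE2
  set I : ℝ := ∫ u in (0:ℝ)..1, W u ^ 2 with hI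
  have hI0 : 1 / 2 ≤ I := by linarith
  set κ : ℝ := 1 / I with hκ
  have hκ1 : 1 ≤ κ := by rw [hκ, le_div_iff₀ (by linarith)]; linarith
  have hκ2 : κ ≤ 1 + ε := by
    rw [hκ, div_le_iff₀ (by linarith)]
    have : (1 + ε) * (1 - 2 * τ) ≤ (1 + ε) * I := by gcongr
    nlinarith
  have hκ4 : κ ≤ 2 := by
    rw [hκ, div_le_iff₀ (by linarith)]; linarith
  have hκ0 : 0 < κ := by linarith
  have hX0 : Xpos κ W 0 = 0 := by unfold Xpos; simp
  have hX1 : Xpos κ W 1 = 1 := by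
    unfold Xpos
    rw [← hI, hκ]
    have : I ≠ 0 := by linarith |> fun h : 0 < I => h.ne'
    field_simp
  have hsκ2 : Real.sqrt κ ≤ 2 := by
    rw [show (2:ℝ) = Real.sqrt 4 by
      rw [show (4:ℝ) = 2 ^ 2 by norm_num, Real.sqrt_sq (by norm_num)]]
    exact Real.sqrt_le_sqrt (by linarith)
  set Λ₀ : ℝ := max 1 ((A * n / (τ / n)) ^ 2) with hΛ₀
  have hΛ₀0 : 0 < Λ₀ := lt_of_lt_of_le one_pos (le_max_left _ _)
  have hwpos : ∀ j, j < 2 * n + 1 → 0 < w j := fun j hj => hN.inv_pos.trans_le (hN.w_ge j hj)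
  have hxlt : ∀ j, j < 2 * n + 1 → Xpos κ W (y j) < Xpos κ W (y (j + 1)) := by
    intro j hj
    have h1 := hN.Xpos_piece κ hj (hN.mono_succ hj).le le_rfl
    have h2 : 0 < κ * w j ^ 2 * (y (j + 1) - y j) := by
      have := hwpos j hj
      have := hN.mono_succ hj
      have : 0 < y (j + 1) - y j := by linarith
      positivity
    rw [← hWd] at h1
    linarith
  refine ⟨2 * n + 1, fun j => Xpos κ W (y j), y, κ, W, Gleg κ W, Λ₀, by omega, ?_, ?_, hN.y0,
    hN.ym, ?_, hκ1, hκ2, ?_, ?_, hΛ₀0, ?_⟩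
  · simp only [hN.y0, hX0]
  · simp only [hN.ym, hX1]
  · intro j hj
    exact ⟨hxlt j hj, hN.mono_succ hj⟩
  · exact fun u => ⟨hP.nonneg u, hP.le_one u⟩
  · intro u hu
    apply hN.stepW_out
    rw [Set.mem_Icc, not_and_or, not_le, not_le] at hu
    rcases hu with h | h
    · exact Or.inl h
    · exact Or.inr h.le
  · intro γ hγc hγ Λ hΛ u
    have hΛ1 : 1 ≤ Λ := (le_max_left _ _).trans hΛ
    have hΛpos : 0 < Λ := by linarith
    -- inverse
    have hinv : ∀ v ∈ Icc (0:ℝ) 1, γ (Xpos κ W v) = v := by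
      intro v hv
      obtain ⟨j, hj, h1, h2⟩ := hN.exists_piece_closed hv.1 hv.2
      have hp := hN.Xpos_piece κ hj h1 h2
      have hp2 := hN.Xpos_piece κ hj (hN.mono_succ hj).le le_rfl
      rw [← hWd] at hp hp2
      have hmono := hP.Xpos_mono (κ := κ) hκ0.le
      have := hγ j hj (Xpos κ W v) ⟨hmono h1, hmono h2⟩
      rw [this]
      simp only
      rw [hp2, hp]
      have hw0 := hwpos j hj
      have hlen : 0 < y (j + 1) - y j := by linarith [hN.mono_succ hj]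
      have e1 : Xpos κ W (y j) + κ * w j ^ 2 * (y (j + 1) - y j) - Xpos κ W (y j)
          = κ * w j ^ 2 * (y (j + 1) - y j) := by ring
      have e2 : Xpos κ W (y j) + κ * w j ^ 2 * (v - y j) - Xpos κ W (y j)
          = κ * w j ^ 2 * (v - y j) := by ring
      rw [e1, e2]
      field_simp
      ring
    rw [hP.change_var hκ0 hX1 hγc hinv Λ u]
    have hcore := hP.core (κ := κ) (Λ := Λ) (A := A) (n := n) (r := τ / n) (a := 0) (b := 1)
      hκ0 hΛpos hA0 hn1 (fun a b h => hN.modulus a b h) (fun a => hN.stepW_01 a)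
      (by
        have hr0 : 0 < τ / n := hN.hr
        have h1 : A * n / (τ / n) ≤ Real.sqrt Λ := by
          rw [← Real.sqrt_sq (show 0 ≤ A * n / (τ / n) by positivity)]
          exact Real.sqrt_le_sqrt ((le_max_right _ _).trans hΛ)
        have h2 : Real.sqrt Λ ≤ Real.sqrt (Λ * κ) :=
          Real.sqrt_le_sqrt (by nlinarith)
        have h3 := h1.trans h2
        rw [div_le_iff₀ hr0] at h3
        linarith)
      zero_le_one (fun a h => hN.stepW_out h) u
    have e1 : ((Real.sqrt Λ : ℝ) : ℂ) * (ee (Λ * Gleg κ W u) *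
        ∫ u_1 in (0:ℝ)..1, ((κ * W u_1 ^ 2 : ℝ) : ℂ) * ee (-(Λ * Edef κ W u u_1)))
        - ((Real.sqrt κ * W u : ℝ) : ℂ) * ee (Λ * Gleg κ W u - 1 / 8)
        = ee (Λ * Gleg κ W u) * (((Real.sqrt Λ : ℝ) : ℂ) *
          (∫ u_1 in (0:ℝ)..1, ((κ * W u_1 ^ 2 : ℝ) : ℂ) * ee (-(Λ * Edef κ W u u_1)))
          - ((Real.sqrt κ * W u : ℝ) : ℂ) * ee (-(1 / 8))) := by
      rw [sub_eq_add_neg (Λ * Gleg κ W u), ee_add]; ring
    rw [e1, norm_mul, norm_ee, one_mul]
    refine hcore.trans ?_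
    have h5 : 0 ≤ 4 / (Real.pi * A) + B / n := by positivity
    calc Real.sqrt κ * (4 / (Real.pi * A) + 6 * A * (1 + 2 * Real.pi * A ^ 2) / n)
        = Real.sqrt κ * (4 / (Real.pi * A) + B / n) := by rw [hB]
      _ ≤ 2 * (4 / (Real.pi * A) + B / n) := by gcongr
      _ = 2 * (4 / (Real.pi * A)) + 2 * (B / n) := by ring
      _ ≤ ε / 2 + ε / 2 := add_le_add hA hnB
      _ = ε := by ring

end Crest.Agent.R075
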