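import Crest.Agent.R075.AnaDef
import Crest.Agent.R075.ProfileLemma

/-!
Row 75 (helper20), THM A: from the profile theorem (piecewise linear data) to the structure
`Profile`.
-/

set_option autoImplicit false

namespace Crest.Agent.R075.Ana

open MeasureTheory Set Real

noncomputable section

/-- clamp to `[0,1]` -/
def clamp (r : ℝ) : ℝ := max 0 (min 1 r)

theorem clamp_nonneg (r : ℝ) : 0 ≤ clamp r := le_max_left _ _

theorem clamp_le_one (r : ℝ) : clamp r ≤ 1 := max_le zero_le_one (min_le_left _ _)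

theorem clamp_of_le {r : ℝ} (h : r ≤ 0) : clamp r = 0 := by
  unfold clamp
  rw [min_eq_right (by linarith), max_eq_left h]

theorem clamp_of_ge {r : ℝ} (h : 1 ≤ r) : clamp r = 1 := by
  unfold clamp
  rw [min_eq_left h, max_eq_right zero_le_one]

theorem clamp_of_mem {r : ℝ} (h0 : 0 ≤ r) (h : r ≤ 1) : clamp r = r := by
  unfold clamp
  rw [min_eq_right h, max_eq_right h0]

theorem clamp_lip (r s : ℝ) : |clamp r - clamp s| ≤ |r - s| := by
  unfold clamp
  calc |max 0 (min 1 r) - max 0 (min 1 s)| ≤ |min 1 r - min 1 s| := by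
        have := abs_max_sub_max_le_max 0 (min 1 r) 0 (min 1 s)
        simpa using this
    _ ≤ |r - s| := by
        have := abs_min_sub_min_le_max 1 r 1 s
        simpa using this

/-- the piecewise linear function through `(x j, y j)` -/
def pl (m : ℕ) (x y : ℕ → ℝ) (z : ℝ) : ℝ :=
  ∑ j ∈ Finset.range m, (y (j + 1) - y j) * clamp ((z - x j) / (x (j + 1) - x j))

theorem pl_mono_x {m : ℕ} {x : ℕ → ℝ} (h : ∀ j < m, x j < x (j + 1)) {i j : ℕ} (hij : i ≤ j)
    (hj : j ≤ m) : x i ≤ x j := by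
  induction j, hij using Nat.le_induction with
  | base => exact le_rfl
  | succ n hn ih => exact (ih (by omega)).trans (h n (by omega)).le

theorem pl_eq {m : ℕ} {x y : ℕ → ℝ} (h : ∀ j < m, x j < x (j + 1)) {j : ℕ} (hj : j < m) {z : ℝ}
    (hz : z ∈ Icc (x j) (x (j + 1))) :
    pl m x y z = y j - y 0 + (y (j + 1) - y j) / (x (j + 1) - x j) * (z - x j) := by
  unfold pl
  obtain ⟨z1, z2⟩ := hz
  have h1 : ∀ i ∈ Finset.range m, (y (i + 1) - y i) * clamp ((z - x i) / (x (i + 1) - x i)) =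
      (if i < j then (y (i + 1) - y i) else 0) +
        (if i = j then (y (j + 1) - y j) / (x (j + 1) - x j) * (z - x j) else 0) := by
    intro i hi
    rw [Finset.mem_range] at hi
    have hxi := h i hi
    have hd : 0 < x (i + 1) - x i := by linarith
    rcases lt_trichotomy i j with hlt | heq | hgt
    · have h2 : x (i + 1) ≤ x j := pl_mono_x h (by omega) hj.le
      rw [if_pos hlt, if_neg hlt.ne, clamp_of_ge]
      · ring
      · rw [le_div_iff₀ hd]; linarith
    · subst heq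
      rw [if_neg (lt_irrefl _), if_pos rfl, clamp_of_mem]
      · field_simp
        ring
      · exact div_nonneg (by linarith) hd.le
      · rw [div_le_one hd]; linarith
    · have h2 : x (j + 1) ≤ x i := pl_mono_x h (by omega) hi.le
      rw [if_neg (by omega), if_neg (by omega), clamp_of_le]
      · ring
      · exact div_nonpos_of_nonpos_of_nonneg (by linarith) hd.le
  rw [Finset.sum_congr rfl h1, Finset.sum_add_distrib, Finset.sum_ite_eq' (Finset.range m) j,
    if_pos (Finset.mem_range.2 hj), ← Finset.sum_filter]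
  have h3 : (Finset.range m).filter (fun i => i < j) = Finset.range j := by
    ext i
    simp only [Finset.mem_filter, Finset.mem_range]
    constructor
    · exact fun h => h.2
    · exact fun h => ⟨by omega, h⟩
  rw [h3, Finset.sum_range_sub]

theorem pl_lip {m : ℕ} {x y : ℕ → ℝ} (h : ∀ j < m, x j < x (j + 1) ∧ y j < y (j + 1)) :
    ∃ C : NNReal, LipschitzWith C (pl m x y) := by
  have hC : 0 ≤ ∑ j ∈ Finset.range m, (y (j + 1) - y j) / (x (j + 1) - x j) := by
    refine Finset.sum_nonneg fun j hj => ?_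
    have := h j (Finset.mem_range.1 hj)
    exact div_nonneg (by linarith [this.2]) (by linarith [this.1])
  refine ⟨Real.toNNReal (∑ j ∈ Finset.range m, (y (j + 1) - y j) / (x (j + 1) - x j)),
    LipschitzWith.of_dist_le_mul fun u v => ?_⟩
  rw [Real.dist_eq, Real.dist_eq]
  unfold pl
  rw [← Finset.sum_sub_distrib]
  refine (Finset.abs_sum_le_sum_abs _ _).trans ?_
  rw [Real.coe_toNNReal _ hC, Finset.sum_mul]
  refine Finset.sum_le_sum fun j hj => ?_
  have hj' := h j (Finset.mem_range.1 hj)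
  have hdx : 0 < x (j + 1) - x j := by linarith [hj'.1]
  have hdy : 0 < y (j + 1) - y j := by linarith [hj'.2]
  rw [← mul_sub, abs_mul, abs_of_pos hdy]
  calc (y (j + 1) - y j) * |clamp ((u - x j) / (x (j + 1) - x j)) -
        clamp ((v - x j) / (x (j + 1) - x j))|
      ≤ (y (j + 1) - y j) * |(u - x j) / (x (j + 1) - x j) - (v - x j) / (x (j + 1) - x j)| :=
        mul_le_mul_of_nonneg_left (clamp_lip _ _) hdy.le
    _ = (y (j + 1) - y j) / (x (j + 1) - x j) * |u - v| := by
        rw [← sub_div, abs_div, abs_of_pos hdx]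
        have : u - x j - (v - x j) = u - v := by ring
        rw [this]
        ring

theorem pl_nonneg {m : ℕ} {x y : ℕ → ℝ} (h : ∀ j < m, x j < x (j + 1) ∧ y j < y (j + 1))
    (z : ℝ) : 0 ≤ pl m x y z := by
  refine Finset.sum_nonneg fun j hj => ?_
  have hj' := h j (Finset.mem_range.1 hj)
  exact mul_nonneg (by linarith [hj'.2]) (clamp_nonneg _)

theorem pl_le {m : ℕ} {x y : ℕ → ℝ} (h : ∀ j < m, x j < x (j + 1) ∧ y j < y (j + 1))
    (z : ℝ) : pl m x y z ≤ y m - y 0 := by
  rw [← Finset.sum_range_sub]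
  refine Finset.sum_le_sum fun j hj => ?_
  have hj' := h j (Finset.mem_range.1 hj)
  have := clamp_le_one ((z - x j) / (x (j + 1) - x j))
  nlinarith [hj'.2]

/-- the structure from the theorem -/
theorem profile_of {e : ℝ} (m : ℕ) (x y : ℕ → ℝ) (kap : ℝ) (W g : ℝ → ℝ) (Lam0 : ℝ)
    (hm : 1 ≤ m) (hx0 : x 0 = 0) (hxm : x m = 1) (hy0 : y 0 = 0) (hym : y m = 1)
    (hinc : ∀ j < m, x j < x (j + 1) ∧ y j < y (j + 1)) (hk : 1 ≤ kap) (hk2 : kap ≤ 1 + e)
    (hW0 : ∀ u, 0 ≤ W u) (hW1 : ∀ u, W u ≤ 1) (hWoff : ∀ u, u ∉ Icc (0:ℝ) 1 → W u = 0)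
    (has : ∀ gamma : ℝ → ℝ, ContinuousOn gamma (Icc 0 1) →
      (∀ j < m, ∀ z ∈ Icc (x j) (x (j + 1)),
      gamma z = y j + (y (j + 1) - y j) / (x (j + 1) - x j) * (z - x j)) →
      ∀ Lam : ℝ, Lam0 ≤ Lam → ∀ u : ℝ,
        ‖((Real.sqrt Lam : ℝ) : ℂ) *
          (∫ z in (0:ℝ)..1, ee (Lam * (z * u - ∫ s in (0:ℝ)..z, gamma s))) -
        ((Real.sqrt kap * W u : ℝ) : ℂ) * ee (Lam * g u - 1 / 8)‖ ≤ e) :
    Nonempty (Profile e) := by
  have hinc1 : ∀ j < m, x j < x (j + 1) := fun j hj => (hinc j hj).1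
  have hpl : ∀ j < m, ∀ z ∈ Icc (x j) (x (j + 1)),
      pl m x y z = y j + (y (j + 1) - y j) / (x (j + 1) - x j) * (z - x j) := by
    intro j hj z hz
    rw [pl_eq hinc1 hj hz, hy0, sub_zero]
  obtain ⟨C, hC⟩ := pl_lip hinc
  refine ⟨⟨kap, hk, hk2, pl m x y, C, hC, ?_, ?_, ?_, W, hW0, hW1, ?_, g, Lam0,
    fun L hL u => has _ hC.continuous.continuousOn hpl L hL u⟩⟩
  · intro z
    refine ⟨pl_nonneg hinc z, ?_⟩
    have := pl_le hinc z
    rwa [hym, hy0, sub_zero] at this
  · have h0 := hpl 0 (by omega) 0 ⟨by rw [hx0], by rw [← hx0]; exact (hinc1 0 (by omega)).le⟩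
    rw [h0, hx0, hy0]
    ring
  · have hm1 : m - 1 < m := by omega
    have hm2 : m - 1 + 1 = m := by omega
    have h1 := hpl (m - 1) hm1 1 (by
      rw [hm2]
      refine ⟨?_, hxm.ge⟩
      have := hinc1 (m - 1) hm1
      rw [hm2] at this
      linarith)
    rw [h1, hm2, hxm, hym]
    have h2 := hinc1 (m - 1) hm1
    rw [hm2, hxm] at h2
    have h3 : (1:ℝ) - x (m - 1) ≠ 0 := by linarith
    rw [div_mul_cancel₀ _ h3]
    ring
  · intro u hu
    refine hWoff u ?_
    rw [mem_Icc]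
    rintro ⟨h1, h2⟩
    rcases hu with h | h <;> linarith

/-- profiles exist -/
theorem profile_exists (e : ℝ) (he : 0 < e) : Nonempty (Profile e) := by
  obtain ⟨m, x, y, kap, W, g, Lam0, h1, h2, h3, h4, h5, h6, h7, h8, h9, h10, _, h12⟩ :=
    profile e he
  exact profile_of m x y kap W g Lam0 h1 h2 h3 h4 h5 h6 h7 h8 (fun u => (h9 u).1)
    (fun u => (h9 u).2) h10 h12

end

end Crest.Agent.R075.Ana
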