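import Mathlib

/-!
# Row 75: the character `ee x = exp (2 π i x)` (helper201)
-/

set_option autoImplicit false

open Complex

namespace Crest.Agent.R075

/-- `ee x = exp (2 π i x)` -/
noncomputable def ee (x : ℝ) : ℂ := Complex.exp (2 * Real.pi * Complex.I * x)

lemma ee_eq (x : ℝ) : ee x = Complex.exp (((2 * Real.pi * x : ℝ) : ℂ) * Complex.I) := by
  unfold ee; congr 1; push_cast; ring

@[simp] lemma ee_zero : ee 0 = 1 := by unfold ee; simp

lemma ee_add (x y : ℝ) : ee (x + y) = ee x * ee y := by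
  unfold ee; rw [← Complex.exp_add]; congr 1; push_cast; ring

lemma ee_neg (x : ℝ) : ee (-x) = (ee x)⁻¹ := by
  unfold ee; rw [← Complex.exp_neg]; congr 1; push_cast; ring

lemma ee_sub (x y : ℝ) : ee (x - y) = ee x * (ee y)⁻¹ := by
  rw [sub_eq_add_neg, ee_add, ee_neg]

@[simp] lemma norm_ee (x : ℝ) : ‖ee x‖ = 1 := by
  rw [ee_eq]; exact Complex.norm_exp_ofReal_mul_I _

lemma ee_ne_zero (x : ℝ) : ee x ≠ 0 := Complex.exp_ne_zero _

lemma ee_conj (x : ℝ) : (starRingEnd ℂ) (ee x) = ee (-x) := by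
  rw [ee_eq, ee_eq, ← Complex.exp_conj]
  congr 1
  rw [map_mul, Complex.conj_ofReal, Complex.conj_I]
  push_cast; ring

@[simp] lemma ee_int (n : ℤ) : ee n = 1 := by
  unfold ee
  rw [Complex.exp_eq_one_iff]
  exact ⟨n, by push_cast; ring⟩

lemma ee_add_int (x : ℝ) (n : ℤ) : ee (x + n) = ee x := by
  rw [ee_add, ee_int, mul_one]

lemma ee_half : ee (1 / 2) = -1 := by
  rw [ee_eq]
  have : (((2 * Real.pi * (1 / 2) : ℝ)) : ℂ) * Complex.I = Real.pi * Complex.I := by
    push_cast; ring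
  rw [this, Complex.exp_pi_mul_I]

lemma ee_mul_nat (x : ℝ) (n : ℕ) : ee (n * x) = ee x ^ n := by
  unfold ee
  rw [← Complex.exp_nat_mul]
  congr 1; push_cast; ring

lemma ee_mul_int (x : ℝ) (n : ℤ) : ee (n * x) = ee x ^ n := by
  unfold ee
  rw [← Complex.exp_int_mul]
  congr 1; push_cast; ring

lemma ee_re (x : ℝ) : (ee x).re = Real.cos (2 * Real.pi * x) := by
  rw [ee_eq, Complex.exp_ofReal_mul_I_re]

lemma ee_im (x : ℝ) : (ee x).im = Real.sin (2 * Real.pi * x) := by
  rw [ee_eq, Complex.exp_ofReal_mul_I_im]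

lemma ee_continuous : Continuous ee := by
  unfold ee; fun_prop

lemma ee_hasDerivAt (x : ℝ) : HasDerivAt ee (2 * Real.pi * Complex.I * ee x) x := by
  have h1 : HasDerivAt (fun y : ℝ => 2 * (Real.pi : ℂ) * Complex.I * (y : ℂ))
      (2 * (Real.pi : ℂ) * Complex.I * 1) x :=
    (Complex.ofRealCLM.hasDerivAt (x := x)).const_mul _
  have h2 := h1.cexp
  unfold ee
  convert! h2 using 1
  ring

/-- `|ee x - ee y| ≤ 2 π |x - y|` -/
lemma norm_ee_sub_le (x y : ℝ) : ‖ee x - ee y‖ ≤ 2 * Real.pi * |x - y| := by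
  have h := Convex.norm_image_sub_le_of_norm_hasDerivWithin_le (s := Set.univ) (x := y) (y := x)
    (f := ee) (f' := fun z => 2 * Real.pi * Complex.I * ee z) (C := 2 * Real.pi)
    (fun z _ => (ee_hasDerivAt z).hasDerivWithinAt)
    (fun z _ => by
      rw [norm_mul, norm_ee, mul_one, norm_mul, Complex.norm_I, mul_one, norm_mul]
      simp [abs_of_pos Real.pi_pos])
    convex_univ (Set.mem_univ _) (Set.mem_univ _)
  rwa [Real.norm_eq_abs] at h

end Crest.Agent.R075
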