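import Crest.Agent.R075.Fold
import Crest.Agent.R075.Cells

/-!
# Row 75, THM D: from `CellData` and the amplitude bound to the `Tiling` (helper332)
-/

set_option autoImplicit false

namespace Crest.Agent.R075

open Finset

lemma sum_len_eq {I : Type} [Fintype I] (M : ℕ) (st len : I → ℕ) (hle : ∀ i, st i + len i ≤ M)
    (hcov : ∀ c < M, ∃! i, st i ≤ c ∧ c < st i + len i) : ∑ i, len i = M := by
  classical
  have h1 : ∀ i, len i = ∑ c ∈ range M, if (st i ≤ c ∧ c < st i + len i) then 1 else 0 := by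
    intro i
    rw [Finset.sum_boole]
    have : (range M).filter (fun c => st i ≤ c ∧ c < st i + len i) = Finset.Ico (st i) (st i + len i) := by
      ext c
      simp only [mem_filter, mem_range, mem_Ico]
      have := hle i
      omega
    rw [this]; simp
  have h2 : ∑ i, len i = ∑ i, ∑ c ∈ range M, if (st i ≤ c ∧ c < st i + len i) then 1 else 0 :=
    Finset.sum_congr rfl (fun i _ => h1 i)
  rw [h2, Finset.sum_comm]
  have h3 : ∀ c ∈ range M, (∑ i : I, if (st i ≤ c ∧ c < st i + len i) then 1 else 0) = 1 := by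
    intro c hc
    obtain ⟨i0, hi0, hu⟩ := hcov c (mem_range.mp hc)
    rw [Finset.sum_boole]
    have : (univ.filter fun i => st i ≤ c ∧ c < st i + len i) = {i0} := by
      ext i
      simp only [mem_filter, mem_univ, true_and, mem_singleton]
      exact ⟨fun h => hu i h, fun h => by rw [h]; exact hi0⟩
    rw [this]; simp
  rw [Finset.sum_congr rfl h3]
  simp

namespace CellData

variable {ι Pc : Type} [Fintype ι] [DecidableEq ι] (C : CellData ι Pc)

/-- arcs -/
abbrev Arc : Type := Pc × (Σ t : ι, Fin (C.D t))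

def aSt (a : C.Arc) : ℕ := 2 * C.F a.1 a.2.1 a.2.2
def aLen (a : C.Arc) : ℕ := 2 * C.t1 a.2.1

/-- uncovered half cells -/
abbrev Unc : Type := {c : Fin C.M // ∀ a : C.Arc, ¬ (C.aSt a ≤ c ∧ (c : ℕ) < C.aSt a + C.aLen a)}

def tSt : C.Arc ⊕ C.Unc → ℕ := Sum.elim C.aSt (fun u => u.1)
def tLen : C.Arc ⊕ C.Unc → ℕ := Sum.elim C.aLen (fun _ => 1)

lemma tLen_pos (i : C.Arc ⊕ C.Unc) : 1 ≤ C.tLen i := by
  rcases i with a | u
  · have := C.t1_pos a.2.1
    simp only [tLen, Sum.elim_inl, aLen]; omega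
  · simp [tLen]

lemma t_le (i : C.Arc ⊕ C.Unc) : C.tSt i + C.tLen i ≤ C.M := by
  rcases i with a | u
  · have := C.F_add_le a.1 a.2.1 a.2.2
    have := C.M_eq
    simp only [tLen, tSt, Sum.elim_inl, aLen, aSt]; omega
  · have := u.1.2
    simp only [tLen, tSt, Sum.elim_inr]; omega

lemma arc_ext {a b : C.Arc} {c : ℕ} (h1 : C.aSt a ≤ c ∧ c < C.aSt a + C.aLen a)
    (h2 : C.aSt b ≤ c ∧ c < C.aSt b + C.aLen b) : a = b := by
  obtain ⟨i, ⟨t, j⟩⟩ := a
  obtain ⟨i', ⟨t', j'⟩⟩ := b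
  simp only [aSt, aLen] at h1 h2
  have := C.F_unique (c := c / 2) j.2 j'.2 (by omega) (by omega) (by omega) (by omega)
    (i := i) (i' := i')
  obtain ⟨e1, e2, e3⟩ := this
  subst e1; subst e2
  have : j = j' := Fin.ext e3
  subst this
  rfl

lemma t_cov (c : ℕ) (hc : c < C.M) : ∃! i : C.Arc ⊕ C.Unc, C.tSt i ≤ c ∧ c < C.tSt i + C.tLen i := by
  by_cases h : ∃ a : C.Arc, C.aSt a ≤ c ∧ c < C.aSt a + C.aLen a
  · obtain ⟨a, ha⟩ := h
    refine ⟨Sum.inl a, ha, ?_⟩
    rintro (b | u) hb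
    · have := C.arc_ext ha hb
      rw [this]
    · exfalso
      simp only [tSt, tLen, Sum.elim_inr] at hb
      have hcu : c = (u.1 : ℕ) := by omega
      exact u.2 a (by rw [← hcu]; exact ha)
  · push Not at h
    refine ⟨Sum.inr ⟨⟨c, hc⟩, fun a ha => ?_⟩, ?_, ?_⟩
    · have := h a ha.1
      have := ha.2
      simp only at this
      omega
    · simp [tSt, tLen]
    · rintro (b | u) hb
      · have h1 := h b hb.1
        have h2 : c < C.aSt b + C.aLen b := hb.2
        omega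
      · simp only [tSt, tLen, Sum.elim_inr] at hb
        have hcu : c = (u.1 : ℕ) := by omega
        congr 1
        apply Subtype.ext
        apply Fin.ext
        exact hcu.symm

def tOri : C.Arc ⊕ C.Unc → Bool :=
  Sum.elim (fun a => decide (C.X a.1 a.2.1 a.2.2 + C.t1 a.2.1 ≤ C.m)) (fun _ => true)

lemma theta_eq (i : Pc) (t : ι) (j : Fin (C.D t)) :
    ∃ z : ℤ, (if C.tOri (Sum.inl (i, ⟨t, j⟩)) then (C.tSt (Sum.inl (i, ⟨t, j⟩)) : ℝ) / (2 * C.M)
            else -(((C.tSt (Sum.inl (i, ⟨t, j⟩)) : ℝ) + C.tLen (Sum.inl (i, ⟨t, j⟩))) / (2 * C.M)))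
      = ((C.s i t : ℝ) + C.h * C.v i t + C.h * C.q t * (j : ℕ)) / C.M + z := by
  have hM : (0:ℝ) < C.M := by exact_mod_cast C.M_pos
  have hX : (C.X i t j : ℝ) / C.M = ((C.s i t : ℝ) + C.h * C.v i t + C.h * C.q t * (j : ℕ)) / C.M
      - (((C.v i t + (j : ℕ) * C.q t) / (C.Q : ℤ) : ℤ) : ℝ) := by
    have e1 := C.hi_cast i t j
    have e2 := Int.emod_add_mul_ediv (C.v i t + (j : ℕ) * C.q t) (C.Q : ℤ)
    rw [← e1] at e2
    have e3 : (C.hi i t j : ℝ) + C.Q * (((C.v i t + (j : ℕ) * C.q t) / (C.Q : ℤ) : ℤ) : ℝ)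
        = C.v i t + (j : ℕ) * C.q t := by exact_mod_cast e2
    have e4 : (C.X i t j : ℝ) = C.s i t + C.h * C.hi i t j := by
      unfold X; push_cast; ring
    have e5 : (C.M : ℝ) = C.h * C.Q := by unfold M; push_cast; ring
    rw [eq_sub_iff_add_eq, div_add' _ _ _ hM.ne', e4]
    congr 1
    have e6 : (C.hi i t j : ℝ) = C.v i t + (j : ℕ) * C.q t
      - C.Q * (((C.v i t + (j : ℕ) * C.q t) / (C.Q : ℤ) : ℤ) : ℝ) := by linarith
    rw [e6, e5]; ring
  rcases C.F_cases i t j with ⟨h1, h2⟩ | ⟨h1, h2⟩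
  · refine ⟨-((C.v i t + (j : ℕ) * C.q t) / (C.Q : ℤ)), ?_⟩
    have : C.tOri (Sum.inl (i, ⟨t, j⟩)) = true := by simp [tOri, h1]
    rw [this, if_pos rfl]
    have e : (C.tSt (Sum.inl (i, ⟨t, j⟩)) : ℝ) = 2 * C.X i t j := by
      simp only [tSt, Sum.elim_inl, aSt, h2]; push_cast; ring
    rw [e, mul_div_mul_left _ _ (by norm_num : (2:ℝ) ≠ 0), hX]
    push_cast; ring
  · refine ⟨-((C.v i t + (j : ℕ) * C.q t) / (C.Q : ℤ)) - 1, ?_⟩
    have : C.tOri (Sum.inl (i, ⟨t, j⟩)) = false := by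
      simp [tOri]; omega
    rw [this, if_neg (by simp)]
    have hle := C.X_add_le i t j
    have e : (C.tSt (Sum.inl (i, ⟨t, j⟩)) : ℝ) + C.tLen (Sum.inl (i, ⟨t, j⟩)) = 2 * (C.M - C.X i t j) := by
      have : C.tSt (Sum.inl (i, ⟨t, j⟩)) + C.tLen (Sum.inl (i, ⟨t, j⟩)) + 2 * C.X i t j = 2 * C.M := by
        simp only [tSt, tLen, Sum.elim_inl, aSt, aLen, h2]; omega
      have h3 : ((C.tSt (Sum.inl (i, ⟨t, j⟩)) + C.tLen (Sum.inl (i, ⟨t, j⟩)) + 2 * C.X i t j : ℕ) : ℝ)
        = ((2 * C.M : ℕ) : ℝ) := by rw [this]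
      push_cast at h3
      linarith
    rw [e, mul_div_mul_left _ _ (by norm_num : (2:ℝ) ≠ 0)]
    have : -(((C.M : ℝ) - C.X i t j) / C.M) = C.X i t j / C.M - 1 := by
      field_simp; ring
    rw [this, hX]
    push_cast; ring

end CellData

theorem tiling_of_cells (henum : EnumTiles) {ι Pc : Type} [Fintype ι] [DecidableEq ι] [Fintype Pc]
    [DecidableEq Pc] (C : CellData ι Pc) (ε : ℝ) (hε : 0 ≤ ε) (De : ℝ) (hDe : 0 < De)
    (htime : Fintype.card Pc * De
      + 2 * (1 - 2 * Fintype.card Pc * ∑ t, (C.t1 t : ℝ) / (C.h * C.q t)) < 1)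
    (al : ι → ℕ → ℝ)
    (amp : ∀ (i : Pc) (k : ℤ) (G : ℝ),
      |2 * ∑ t, ∑ j ∈ range (C.D t), Real.sqrt (((C.t1 t : ℝ) / C.M) / De) *
        Real.cos (2 * Real.pi * (al t j
          + (((C.s i t : ℝ) + C.h * C.v i t + C.h * C.q t * j) / C.M) * k
          + ((C.t1 t : ℝ) / C.M) * G))| ≤ 1 + ε) :
    Nonempty (Tiling ε) := by
  classical
  have hM : (0:ℝ) < C.M := by exact_mod_cast C.M_pos
  refine tiling_of_index henum (I := C.Arc ⊕ C.Unc) (K := Pc ⊕ C.Unc) C.M C.M_pos C.tSt C.tLen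
    C.tLen_pos C.t_le C.t_cov (Sum.map (fun a => a.1) id) C.tOri
    (Sum.elim (fun a => al a.2.1 a.2.2) (fun _ => 0))
    (Sum.elim (fun _ => De) (fun _ => 4 / (2 * C.M))) ?_ ?_ ε ?_
  · rintro (i | u)
    · simpa using hDe
    · simp only [Sum.elim_inr]; positivity
  · -- total time
    rw [Fintype.sum_sum_type]
    simp only [Sum.elim_inl, Sum.elim_inr, Finset.sum_const, Finset.card_univ, nsmul_eq_mul]
    have hlen := sum_len_eq C.M C.tSt C.tLen C.t_le C.t_cov
    rw [Fintype.sum_sum_type] at hlen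
    simp only [CellData.tLen, Sum.elim_inl, Sum.elim_inr, Finset.sum_const, Finset.card_univ,
      smul_eq_mul, mul_one] at hlen
    have h1 : ∑ a : C.Arc, C.aLen a = Fintype.card Pc * ∑ t, C.D t * (2 * C.t1 t) := by
      rw [Fintype.sum_prod_type]
      simp only [CellData.aLen]
      rw [Finset.sum_const, Finset.card_univ, smul_eq_mul]
      congr 1
      rw [Fintype.sum_sigma]
      apply Finset.sum_congr rfl
      intro t _
      simp
    rw [h1] at hlen
    have h2 : (Fintype.card Pc : ℝ) * ∑ t, (C.D t : ℝ) * (2 * C.t1 t) + Fintype.card C.Unc = C.M := by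
      exact_mod_cast hlen
    have h3 : ∀ t, (C.t1 t : ℝ) / (C.h * C.q t) = (C.D t : ℝ) * C.t1 t / C.M := by
      intro t
      have e1 : (C.M : ℝ) = C.h * (C.q t * C.D t) := by
        have : C.M = C.h * (C.q t * C.D t) := by unfold CellData.M; rw [← C.Q_eq t]
        rw [this]; push_cast; ring
      have e2 : (0:ℝ) < C.h := by exact_mod_cast C.h_pos
      have e3 : (0:ℝ) < C.q t := by exact_mod_cast C.q_pos t
      have e4 : (0:ℝ) < C.D t := by exact_mod_cast C.D_pos t
      rw [e1]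
      field_simp
    have h4 : ∑ t, (C.t1 t : ℝ) / (C.h * C.q t) = (∑ t, (C.D t : ℝ) * C.t1 t) / C.M := by
      rw [Finset.sum_div]
      exact Finset.sum_congr rfl (fun t _ => h3 t)
    have h5 : ∑ t, (C.D t : ℝ) * (2 * C.t1 t) = 2 * ∑ t, (C.D t : ℝ) * C.t1 t := by
      rw [Finset.mul_sum]
      apply Finset.sum_congr rfl; intro t _; ring
    rw [h5] at h2
    rw [h4] at htime
    have h6 : (Fintype.card C.Unc : ℝ) * (4 / (2 * C.M))
        = 2 * (1 - 2 * Fintype.card Pc * ((∑ t, (C.D t : ℝ) * C.t1 t) / C.M)) := by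
      have : (Fintype.card C.Unc : ℝ) = C.M - (Fintype.card Pc : ℝ) * (2 * ∑ t, (C.D t : ℝ) * C.t1 t) := by
        linarith
      rw [this]
      field_simp
      ring
    rw [h6]
    exact htime
  · rintro (i | u) k G
    · -- a piece of the design
      have key := amp i k G
      convert key using 3
      rw [Finset.sum_filter, Fintype.sum_sum_type]
      simp only [Sum.map_inl, Sum.map_inr, Sum.inl.injEq, reduceCtorEq, if_false,
        Finset.sum_const_zero, add_zero, Sum.elim_inl]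
      rw [Fintype.sum_prod_type]
      rw [Finset.sum_eq_single i]
      · simp only [↓reduceIte]
        rw [Fintype.sum_sigma]
        apply Finset.sum_congr rfl
        intro t _
        rw [Finset.sum_range]
        apply Finset.sum_congr rfl
        intro j _
        obtain ⟨z, hz⟩ := C.theta_eq i t j
        rw [hz]
        have e1 : (C.tLen (Sum.inl (i, ⟨t, j⟩)) : ℝ) / (2 * C.M) = (C.t1 t : ℝ) / C.M := by
          simp only [CellData.tLen, Sum.elim_inl, CellData.aLen]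
          push_cast
          rw [mul_div_mul_left _ _ (by norm_num : (2:ℝ) ≠ 0)]
        rw [e1]
        congr 1
        have : 2 * Real.pi * (al t j + (((C.s i t : ℝ) + C.h * C.v i t + C.h * C.q t * (j : ℕ)) / C.M + z) * k
            + (C.t1 t : ℝ) / C.M * G)
          = 2 * Real.pi * (al t j + (((C.s i t : ℝ) + C.h * C.v i t + C.h * C.q t * (j : ℕ)) / C.M) * k
            + (C.t1 t : ℝ) / C.M * G) + ((z * k : ℤ) : ℝ) * (2 * Real.pi) := by
          push_cast; ring
        rw [this, Real.cos_add_int_mul_two_pi]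
      · intro b _ hb
        simp [hb]
      · intro h; exact absurd (mem_univ i) h
    · -- a single half cell
      have hf : (univ.filter fun a : C.Arc ⊕ C.Unc => Sum.map (fun a => a.1) id a = (Sum.inr u : Pc ⊕ C.Unc))
          = {Sum.inr u} := by
        ext a
        rcases a with a | a <;> simp
      rw [hf, Finset.sum_singleton]
      simp only [CellData.tLen, Sum.elim_inr]
      have e1 : (((1:ℕ) : ℝ) / (2 * C.M)) / (4 / (2 * C.M)) = (1/2) ^ 2 := by
        push_cast; field_simp; norm_num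
      rw [e1, Real.sqrt_sq (by norm_num), abs_mul, abs_mul]
      have := Real.abs_cos_le_one (2 * Real.pi * (0 + (if C.tOri (Sum.inr u) = true then (C.tSt (Sum.inr u) : ℝ) / (2 * C.M)
            else -(((C.tSt (Sum.inr u) : ℝ) + ((1:ℕ) : ℝ)) / (2 * C.M))) * k + (((1:ℕ) : ℝ) / (2 * C.M)) * G))
      rw [abs_of_pos (by norm_num : (0:ℝ) < 2), abs_of_pos (by norm_num : (0:ℝ) < 1/2)]
      linarith

end Crest.Agent.R075
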