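import Mathlib

/-! Row 75, THM F, part 1: the square wave and its Fejer means. -/

set_option autoImplicit false

namespace Crest.Agent.R075.ThmF

open Finset Real MeasureTheory

/-- square wave `sgn cos (2 pi y)` -/
noncomputable def sq (y : ℝ) : ℝ := if Int.fract (y + 1/4) < 1/2 then 1 else -1

lemma sq_periodic : Function.Periodic sq 1 := by
  intro y
  unfold sq
  have : y + 1 + 1/4 = (y + 1/4) + 1 := by ring
  rw [this, Int.fract_add_one]

lemma abs_sq (y : ℝ) : |sq y| = 1 := by
  unfold sq
  split_ifs <;> simp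

lemma sq_measurable : Measurable sq := by
  unfold sq
  refine Measurable.ite ?_ measurable_const measurable_const
  exact measurableSet_lt (measurable_fract.comp (measurable_id.add_const _)) measurable_const

/-- Fejer kernel -/
noncomputable def fej (K : ℕ) (x : ℝ) : ℝ :=
  ∑ m ∈ Ioo (-(K : ℤ)) K, (1 - |(m : ℝ)| / K) * cos (2 * π * m * x)

lemma sum_diff (g : ℤ → ℝ) (K : ℕ) :
    ∑ p ∈ range K, ∑ q ∈ range K, g ((p : ℤ) - q)
      = ∑ m ∈ Ioo (-(K : ℤ)) K, ((K : ℝ) - |(m : ℝ)|) * g m := by
  induction K with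
  | zero => simp
  | succ K ih =>
    have h1 : ∑ p ∈ range (K+1), ∑ q ∈ range (K+1), g ((p : ℤ) - q)
        = ∑ p ∈ range K, ∑ q ∈ range K, g ((p : ℤ) - q)
          + (∑ p ∈ range K, g ((p : ℤ) - K)) + (∑ q ∈ range (K+1), g ((K : ℤ) - q)) := by
      rw [Finset.sum_range_succ]
      congr 1
      rw [← Finset.sum_add_distrib]
      refine Finset.sum_congr rfl fun p _ => ?_
      rw [Finset.sum_range_succ]
    rw [h1, ih]
    have h2 : ∑ m ∈ Ioo (-((K+1 : ℕ) : ℤ)) ((K+1 : ℕ) : ℤ), (((K+1 : ℕ) : ℝ) - |(m : ℝ)|) * g m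
        = ∑ m ∈ Ioo (-(K : ℤ)) K, ((K : ℝ) - |(m : ℝ)|) * g m
          + ∑ m ∈ Ioo (-((K+1 : ℕ) : ℤ)) ((K+1 : ℕ) : ℤ), g m := by
      have h3 : ∑ m ∈ Ioo (-(K : ℤ)) K, ((K : ℝ) - |(m : ℝ)|) * g m
          = ∑ m ∈ Ioo (-((K+1 : ℕ) : ℤ)) ((K+1 : ℕ) : ℤ), ((K : ℝ) - |(m : ℝ)|) * g m := by
        apply Finset.sum_subset
        · intro m hm
          simp only [Finset.mem_Ioo] at hm ⊢
          push_cast
          constructor <;> omega
        · intro m hm hm'
          simp only [Finset.mem_Ioo] at hm hm'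
          push_cast at hm
          have : |m| = K := by
            rcases abs_cases m with h | h <;> omega
          have h4 : |(m : ℝ)| = K := by
            rw [← Int.cast_abs, this]; simp
          rw [h4]; simp
      rw [h3, ← Finset.sum_add_distrib]
      refine Finset.sum_congr rfl fun m _ => ?_
      push_cast; ring
    rw [h2]
    rw [add_assoc]
    congr 1
    -- the new terms
    have h5 : Ioo (-((K+1 : ℕ) : ℤ)) ((K+1 : ℕ) : ℤ)
        = (Finset.Ico (-(K : ℤ)) 0) ∪ (Finset.Icc (0 : ℤ) K) := by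
      ext m
      simp only [Finset.mem_Ioo, Finset.mem_union, Finset.mem_Ico, Finset.mem_Icc]
      push_cast
      omega
    rw [h5, Finset.sum_union]
    · congr 1
      · refine Finset.sum_nbij' (fun p => (p : ℤ) - K) (fun m => (m + K).toNat) ?_ ?_ ?_ ?_ ?_
        · intro p hp; simp only [Finset.mem_range] at hp
          simp only [Finset.mem_Ico]; omega
        · intro m hm; simp only [Finset.mem_Ico] at hm
          simp only [Finset.mem_range]; omega
        · intro p hp; simp
        · intro m hm; simp only [Finset.mem_Ico] at hm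
          omega
        · intro p hp; rfl
      · refine Finset.sum_nbij' (fun q => (K : ℤ) - q) (fun m => (K - m).toNat) ?_ ?_ ?_ ?_ ?_
        · intro p hp; simp only [Finset.mem_range] at hp
          simp only [Finset.mem_Icc]; omega
        · intro m hm; simp only [Finset.mem_Icc] at hm
          simp only [Finset.mem_range]; omega
        · intro p hp; simp
        · intro m hm; simp only [Finset.mem_Icc] at hm
          omega
        · intro p hp; rfl
    · rw [Finset.disjoint_left]
      intro m hm hm'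
      simp only [Finset.mem_Ico, Finset.mem_Icc] at hm hm'
      omega

lemma fej_nonneg (K : ℕ) (x : ℝ) : 0 ≤ fej K x := by
  rcases Nat.eq_zero_or_pos K with rfl | hK
  · simp [fej]
  have hK' : (0 : ℝ) < K := by exact_mod_cast hK
  have h1 : fej K x = (1 / K) * ∑ p ∈ range K, ∑ q ∈ range K,
      cos (2 * π * ((((p : ℤ) - q : ℤ)) : ℝ) * x) := by
    rw [sum_diff (fun m => cos (2 * π * (m : ℝ) * x)) K, Finset.mul_sum]
    unfold fej
    refine Finset.sum_congr rfl fun m _ => ?_
    field_simp
  have h2 : ∑ p ∈ range K, ∑ q ∈ range K, cos (2 * π * ((((p : ℤ) - q : ℤ)) : ℝ) * x)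
      = (∑ p ∈ range K, cos (2 * π * p * x)) ^ 2 + (∑ p ∈ range K, sin (2 * π * p * x)) ^ 2 := by
    rw [pow_two, pow_two]
    rw [Finset.sum_mul_sum, Finset.sum_mul_sum, ← Finset.sum_add_distrib]
    refine Finset.sum_congr rfl fun p _ => ?_
    rw [← Finset.sum_add_distrib]
    refine Finset.sum_congr rfl fun q _ => ?_
    rw [← cos_sub]
    congr 1
    push_cast; ring
  rw [h1, h2]
  positivity

lemma fej_continuous (K : ℕ) : Continuous (fej K) := by
  unfold fej
  fun_prop

lemma fej_periodic (K : ℕ) : Function.Periodic (fej K) 1 := by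
  intro x
  unfold fej
  refine Finset.sum_congr rfl fun m _ => ?_
  congr 1
  have : 2 * π * m * (x + 1) = 2 * π * m * x + m * (2 * π) := by ring
  rw [this, cos_add_int_mul_two_pi]

/-- square wave coefficient -/
noncomputable def sh (m : ℤ) : ℝ := if m % 2 = 0 then 0 else 2 / (π * m) * sin (π * m / 2)


lemma intervalIntegrable_sq (a b : ℝ) : IntervalIntegrable sq volume a b := by
  have h : IntervalIntegrable (fun _ : ℝ => (1 : ℝ)) volume a b := intervalIntegrable_const
  refine h.mono_fun sq_measurable.aestronglyMeasurable ?_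
  refine Filter.Eventually.of_forall fun y => ?_
  simp [abs_sq]

lemma sq_eq_one_of {y : ℝ} (h0 : -(1/4) ≤ y) (h1 : y < 1/4) : sq y = 1 := by
  unfold sq
  have : Int.fract (y + 1/4) = y + 1/4 := Int.fract_eq_self.2 ⟨by linarith, by linarith⟩
  rw [this, if_pos (by linarith)]

lemma sq_eq_neg_one_of {y : ℝ} (h0 : 1/4 ≤ y) (h1 : y < 3/4) : sq y = -1 := by
  unfold sq
  have : Int.fract (y + 1/4) = y + 1/4 := Int.fract_eq_self.2 ⟨by linarith, by linarith⟩
  rw [this, if_neg (by linarith)]

lemma sq_eq_one_of' {y : ℝ} (h0 : 3/4 ≤ y) (h1 : y < 1) : sq y = 1 := by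
  have := sq_periodic (y - 1)
  rw [sub_add_cancel] at this
  rw [this]
  exact sq_eq_one_of (by linarith) (by linarith)

/-- integral of `sq * g` over a period -/
lemma integral_sq_mul (g : ℝ → ℝ) (hg : Continuous g) :
    ∫ y in (0:ℝ)..1, sq y * g y
      = (∫ y in (0:ℝ)..(1/4), g y) - (∫ y in (1/4:ℝ)..(3/4), g y) + ∫ y in (3/4:ℝ)..1, g y := by
  have hi : ∀ a b : ℝ, IntervalIntegrable (fun y => sq y * g y) volume a b := fun a b =>
    (intervalIntegrable_sq a b).mul_continuousOn hg.continuousOn
  rw [← intervalIntegral.integral_add_adjacent_intervals (hi 0 (1/4)) (hi (1/4) 1),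
    ← intervalIntegral.integral_add_adjacent_intervals (hi (1/4) (3/4)) (hi (3/4) 1)]
  have e1 : ∫ y in (0:ℝ)..(1/4), sq y * g y = ∫ y in (0:ℝ)..(1/4), g y := by
    apply intervalIntegral.integral_congr_ae
    have : ∀ᵐ y ∂(volume : Measure ℝ), y ≠ 1/4 := by
      simp [ae_iff, measure_singleton]
    filter_upwards [this] with y hy hy'
    rw [Set.uIoc_of_le (by norm_num)] at hy'
    rw [sq_eq_one_of (by linarith [hy'.1]) (lt_of_le_of_ne hy'.2 hy), one_mul]
  have e2 : ∫ y in (1/4:ℝ)..(3/4), sq y * g y = - ∫ y in (1/4:ℝ)..(3/4), g y := by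
    rw [← intervalIntegral.integral_neg]
    apply intervalIntegral.integral_congr_ae
    have : ∀ᵐ y ∂(volume : Measure ℝ), y ≠ 3/4 := by
      simp [ae_iff, measure_singleton]
    filter_upwards [this] with y hy hy'
    rw [Set.uIoc_of_le (by norm_num)] at hy'
    rw [sq_eq_neg_one_of (by linarith [hy'.1]) (lt_of_le_of_ne hy'.2 hy)]
    ring
  have e3 : ∫ y in (3/4:ℝ)..1, sq y * g y = ∫ y in (3/4:ℝ)..1, g y := by
    apply intervalIntegral.integral_congr_ae
    have : ∀ᵐ y ∂(volume : Measure ℝ), y ≠ 1 := by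
      simp [ae_iff, measure_singleton]
    filter_upwards [this] with y hy hy'
    rw [Set.uIoc_of_le (by norm_num)] at hy'
    rw [sq_eq_one_of' (by linarith [hy'.1]) (lt_of_le_of_ne hy'.2 hy), one_mul]
  rw [e1, e2, e3]
  ring

lemma sin_int_pi (m : ℤ) : sin (2 * π * m) = 0 := by
  have := sin_int_mul_pi (2 * m)
  push_cast at this
  rw [← this]; congr 1; ring

lemma cos_int_pi (m : ℤ) : cos (2 * π * m) = 1 := by
  have := cos_int_mul_two_pi m
  rw [← this]; congr 1; ring

lemma integral_cos_lin (m : ℤ) (hm : m ≠ 0) (a b : ℝ) :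
    ∫ y in a..b, cos (2 * π * m * y)
      = (sin (2 * π * m * b) - sin (2 * π * m * a)) / (2 * π * m) := by
  have hc : (2 * π * m : ℝ) ≠ 0 := by
    have : (m : ℝ) ≠ 0 := by exact_mod_cast hm
    have := pi_ne_zero
    positivity
  rw [intervalIntegral.integral_comp_mul_left (fun y => cos y) hc]
  rw [integral_cos, smul_eq_mul]
  field_simp

lemma integral_sin_lin (m : ℤ) (hm : m ≠ 0) (a b : ℝ) :
    ∫ y in a..b, sin (2 * π * m * y)
      = (cos (2 * π * m * a) - cos (2 * π * m * b)) / (2 * π * m) := by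
  have hc : (2 * π * m : ℝ) ≠ 0 := by
    have : (m : ℝ) ≠ 0 := by exact_mod_cast hm
    have := pi_ne_zero
    positivity
  rw [intervalIntegral.integral_comp_mul_left (fun y => sin y) hc]
  rw [integral_sin, smul_eq_mul]
  field_simp

lemma sin_three_quarter (m : ℤ) :
    sin (2 * π * m * (3/4)) = - sin (2 * π * m * (1/4)) := by
  have h : 2 * π * m * (3/4) = m * (2 * π) - 2 * π * m * (1/4) := by ring
  rw [h, sin_sub, sin_int_mul_pi' m, cos_int_mul_two_pi]
  ring
where
  sin_int_mul_pi' (m : ℤ) : sin ((m : ℝ) * (2 * π)) = 0 := by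
    have := sin_int_mul_pi (2 * m)
    push_cast at this
    rw [← this]; congr 1; ring

lemma cos_three_quarter (m : ℤ) :
    cos (2 * π * m * (3/4)) = cos (2 * π * m * (1/4)) := by
  have h : 2 * π * m * (3/4) = m * (2 * π) - 2 * π * m * (1/4) := by ring
  rw [h, cos_int_mul_two_pi_sub]

lemma integral_sq_cos (m : ℤ) :
    ∫ y in (0:ℝ)..1, sq y * cos (2 * π * m * y) = sh m := by
  rw [integral_sq_mul _ (by fun_prop)]
  rcases eq_or_ne m 0 with rfl | hm
  · simp [sh]; norm_num
  rw [integral_cos_lin m hm, integral_cos_lin m hm, integral_cos_lin m hm, sin_three_quarter]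
  have hmR : (m : ℝ) ≠ 0 := by exact_mod_cast hm
  have hpi := pi_ne_zero
  have e1 : sin (2 * π * m * 1) = 0 := by rw [mul_one]; exact sin_int_pi m
  rw [e1]
  unfold sh
  split_ifs with h
  · obtain ⟨k, rfl⟩ : ∃ k, m = 2 * k := ⟨m / 2, by omega⟩
    have : sin (2 * π * ((2 * k : ℤ) : ℝ) * (1/4)) = 0 := by
      rw [← sin_int_mul_pi k]; congr 1; push_cast; ring
    rw [this]; simp
  · have : 2 * π * m * (1/4) = π * m / 2 := by ring
    rw [this]
    simp only [mul_zero, sin_zero]
    field_simp
    ring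

lemma integral_sq_sin (m : ℤ) :
    ∫ y in (0:ℝ)..1, sq y * sin (2 * π * m * y) = 0 := by
  rw [integral_sq_mul _ (by fun_prop)]
  rcases eq_or_ne m 0 with rfl | hm
  · simp
  rw [integral_sin_lin m hm, integral_sin_lin m hm, integral_sin_lin m hm, cos_three_quarter]
  have e1 : cos (2 * π * m * 1) = 1 := by rw [mul_one]; exact cos_int_pi m
  rw [e1]
  simp only [mul_zero, cos_zero]
  ring

/-- `int_0^1 fej = 1` -/
lemma integral_fej (K : ℕ) (hK : 1 ≤ K) (x : ℝ) :
    ∫ y in (0:ℝ)..1, fej K (x - y) = 1 := by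
  have h1 : (fun y => fej K (x - y)) = fun y => ∑ m ∈ Ioo (-(K : ℤ)) K,
      ((1 - |(m : ℝ)| / K) * cos (2 * π * m * x) * cos (2 * π * m * y)
        + (1 - |(m : ℝ)| / K) * sin (2 * π * m * x) * sin (2 * π * m * y)) := by
    funext y
    unfold fej
    refine Finset.sum_congr rfl fun m _ => ?_
    have : 2 * π * m * (x - y) = 2 * π * m * x - 2 * π * m * y := by ring
    rw [this, cos_sub]; ring
  rw [h1, intervalIntegral.integral_finsetSum]
  · rw [Finset.sum_eq_single (0 : ℤ)]
    · simp
    · intro m _ hm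
      rw [intervalIntegral.integral_add, intervalIntegral.integral_const_mul,
        intervalIntegral.integral_const_mul, integral_cos_lin m hm, integral_sin_lin m hm]
      · have e1 : cos (2 * π * m * 1) = 1 := by rw [mul_one]; exact cos_int_pi m
        have e2 : sin (2 * π * m * 1) = 0 := by rw [mul_one]; exact sin_int_pi m
        rw [e1, e2]; simp
      · exact Continuous.intervalIntegrable (by fun_prop) _ _
      · exact Continuous.intervalIntegrable (by fun_prop) _ _
    · intro h
      exfalso; apply h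
      simp only [Finset.mem_Ioo]
      omega
  · intro m _
    exact Continuous.intervalIntegrable (by fun_prop) _ _

/-- The Fejer mean of the square wave. -/
noncomputable def sK (K : ℕ) (x : ℝ) : ℝ := ∑ m ∈ Ioo (-(K : ℤ)) K,
  (1 - |(m : ℝ)| / K) * sh m * cos (2 * π * m * x)

lemma sK_eq_integral (K : ℕ) (x : ℝ) :
    sK K x = ∫ y in (0:ℝ)..1, sq y * fej K (x - y) := by
  have h1 : (fun y => sq y * fej K (x - y)) = fun y => ∑ m ∈ Ioo (-(K : ℤ)) K,
      (((1 - |(m : ℝ)| / K) * cos (2 * π * m * x)) * (sq y * cos (2 * π * m * y))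
        + ((1 - |(m : ℝ)| / K) * sin (2 * π * m * x)) * (sq y * sin (2 * π * m * y))) := by
    funext y
    unfold fej
    rw [Finset.mul_sum]
    refine Finset.sum_congr rfl fun m _ => ?_
    have : 2 * π * m * (x - y) = 2 * π * m * x - 2 * π * m * y := by ring
    rw [this, cos_sub]; ring
  have hc : ∀ m : ℤ, IntervalIntegrable (fun y => sq y * cos (2 * π * m * y)) volume 0 1 :=
    fun m => (intervalIntegrable_sq 0 1).mul_continuousOn (by fun_prop)
  have hs : ∀ m : ℤ, IntervalIntegrable (fun y => sq y * sin (2 * π * m * y)) volume 0 1 :=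
    fun m => (intervalIntegrable_sq 0 1).mul_continuousOn (by fun_prop)
  rw [h1, intervalIntegral.integral_finsetSum]
  · unfold sK
    refine Finset.sum_congr rfl fun m _ => ?_
    rw [intervalIntegral.integral_add ((hc m).const_mul _) ((hs m).const_mul _),
      intervalIntegral.integral_const_mul,
      intervalIntegral.integral_const_mul, integral_sq_cos, integral_sq_sin]
    ring
  · intro m _
    exact ((hc m).const_mul _).add ((hs m).const_mul _)

/-! ### averages over shifts -/

lemma sum_sq_shift (c : ℕ) (hc : Odd c) (y : ℝ) :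
    |∑ l ∈ range c, sq (y + l / c)| ≤ 1 := by
  obtain ⟨k, hk⟩ := hc
  have hc0 : (0 : ℝ) < c := by rw [hk]; positivity
  -- the sum is `1/c` periodic
  set H : ℝ → ℝ := fun y => ∑ l ∈ range c, sq (y + l / c) with hH
  have hper : Function.Periodic H (1 / c) := by
    intro y
    simp only [hH]
    have h1 : ∀ l : ℕ, y + 1 / c + l / c = y + ((l + 1 : ℕ) : ℝ) / c := by
      intro l; push_cast; ring
    simp only [h1]
    have h2 := Finset.sum_range_succ' (fun l : ℕ => sq (y + (l : ℝ) / c)) c
    have h3 := Finset.sum_range_succ (fun l : ℕ => sq (y + (l : ℝ) / c)) c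
    have h4 : sq (y + (c : ℝ) / c) = sq (y + ((0 : ℕ) : ℝ) / c) := by
      rw [div_self hc0.ne']; simp [sq_periodic y]
    linarith
  set n : ℤ := ⌊(c : ℝ) * (y + 1/4)⌋ with hn
  set u : ℝ := Int.fract ((c : ℝ) * (y + 1/4)) with hu
  have hy : y - n * (1 / c) = -(1/4) + u / c := by
    have : (c : ℝ) * (y + 1/4) = n + u := (Int.floor_add_fract _).symm
    field_simp
    linarith
  have hHy : H y = H (-(1/4) + u / c) := by
    rw [← hy, hper.sub_int_mul_eq n]
  have hu0 : 0 ≤ u := Int.fract_nonneg _
  have hu1 : u < 1 := Int.fract_lt_one _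
  change |H y| ≤ 1
  rw [hHy]
  have hval : ∀ l ∈ range c, sq (-(1/4) + u / c + l / c) = if u + l < c / 2 then 1 else -1 := by
    intro l hl
    rw [Finset.mem_range] at hl
    have hl' : (l : ℝ) + 1 ≤ c := by exact_mod_cast hl
    unfold sq
    have e1 : -(1/4) + u / c + l / c + 1/4 = (u + l) / c := by ring
    rw [e1]
    have e2 : Int.fract ((u + l) / c) = (u + l) / c := by
      apply Int.fract_eq_self.2
      constructor
      · positivity
      · rw [div_lt_one hc0]; linarith
    rw [e2]
    have e3 : (u + l) / c < 1/2 ↔ u + l < c / 2 := by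
      rw [div_lt_iff₀ hc0]
      constructor <;> intro h <;> linarith
    simp only [e3]
  simp only [hH]
  rw [Finset.sum_congr rfl hval]
  have hsplit : c = k + (k + 1) := by omega
  rw [hsplit, Finset.sum_range_add]
  have s1 : ∑ x ∈ range k, (if u + (x : ℝ) < ((k + (k + 1) : ℕ) : ℝ) / 2 then (1 : ℝ) else -1) = k := by
    rw [Finset.sum_congr rfl (g := fun _ => (1 : ℝ))]
    · simp
    · intro x hx
      rw [Finset.mem_range] at hx
      have : (x : ℝ) + 1 ≤ k := by exact_mod_cast hx
      rw [if_pos]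
      push_cast
      linarith
  rw [s1, Finset.sum_range_succ']
  have s2 : ∑ x ∈ range k, (if u + ((k + (x + 1) : ℕ) : ℝ) < ((k + (k + 1) : ℕ) : ℝ) / 2 then (1 : ℝ) else -1) = -k := by
    rw [Finset.sum_congr rfl (g := fun _ => (-1 : ℝ))]
    · simp
    · intro x hx
      rw [if_neg]
      push_cast
      have : (0 : ℝ) ≤ x := by positivity
      linarith
  rw [s2]
  split_ifs <;> simp

lemma integral_shift (g : ℝ → ℝ) (hg : Function.Periodic g 1) (a : ℝ) :
    ∫ y in (0:ℝ)..1, g (y + a) = ∫ y in (0:ℝ)..1, g y := by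
  rw [intervalIntegral.integral_comp_add_right]
  have := hg.intervalIntegral_add_eq a 0
  simpa [add_comm] using this

lemma abs_avg_sK_le (K : ℕ) (hK : 1 ≤ K) (c : ℕ) (hc : Odd c) (x : ℝ) :
    |∑ l ∈ range c, sK K (x + l / c)| ≤ 1 := by
  have h1 : ∑ l ∈ range c, sK K (x + l / c)
      = ∫ y in (0:ℝ)..1, (∑ l ∈ range c, sq (y + l / c)) * fej K (x - y) := by
    have h2 : ∀ l ∈ range c, sK K (x + l / c) = ∫ y in (0:ℝ)..1, sq (y + l / c) * fej K (x - y) := by
      intro l _
      rw [sK_eq_integral]
      have := integral_shift (fun y => sq y * fej K (x + l / c - y)) ?_ (l / c)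
      · rw [← this]
        apply intervalIntegral.integral_congr
        intro y _
        simp only
        congr 2; ring
      · intro y
        simp only
        rw [sq_periodic y]
        have : x + l / c - (y + 1) = (x + l / c - y) - 1 := by ring
        rw [this, (fej_periodic K).sub_eq]
    rw [Finset.sum_congr rfl h2, ← intervalIntegral.integral_finsetSum]
    · apply intervalIntegral.integral_congr
      intro y _
      simp only
      rw [Finset.sum_mul]
    · intro l _
      have : IntervalIntegrable (fun y => sq (y + l / c)) volume 0 1 := by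
        have := (intervalIntegrable_sq (0 + l / c) (1 + l / c)).comp_add_right (l / c)
        simpa using this
      exact this.mul_continuousOn ((fej_continuous K).comp (by fun_prop)).continuousOn
  rw [h1]
  calc |∫ y in (0:ℝ)..1, (∑ l ∈ range c, sq (y + l / c)) * fej K (x - y)|
      ≤ ∫ y in (0:ℝ)..1, fej K (x - y) := by
        rw [← Real.norm_eq_abs]
        apply intervalIntegral.norm_integral_le_of_norm_le (by norm_num)
        · refine Filter.Eventually.of_forall fun y _ => ?_
          rw [norm_mul, Real.norm_eq_abs, Real.norm_eq_abs, abs_of_nonneg (fej_nonneg K _)]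
          calc _ ≤ 1 * fej K (x - y) :=
                mul_le_mul_of_nonneg_right (sum_sq_shift c hc y) (fej_nonneg K _)
            _ = _ := one_mul _
        · exact ((fej_continuous K).comp (by fun_prop)).intervalIntegrable _ _
    _ = 1 := integral_fej K hK x

end Crest.Agent.R075.ThmF
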