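import Mathlib
import Crest.Agent.R075.ThmF1

/-! Row 75, THM F, part 2: primitive part of a product of square waves. -/

set_option autoImplicit false

namespace Crest.Agent.R075.ThmF

open Finset Real

/-- `exp (2 pi i x)` -/
noncomputable def ee (x : ℝ) : ℂ := Complex.exp ((2 * π * x : ℝ) * Complex.I)

lemma ee_add (x y : ℝ) : ee (x + y) = ee x * ee y := by
  unfold ee; rw [← Complex.exp_add]; congr 1; push_cast; ring

lemma ee_zero : ee 0 = 1 := by simp [ee]

lemma ee_re (x : ℝ) : (ee x).re = cos (2 * π * x) := by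
  unfold ee; rw [Complex.exp_ofReal_mul_I_re]

lemma ee_im (x : ℝ) : (ee x).im = sin (2 * π * x) := by
  unfold ee; rw [Complex.exp_ofReal_mul_I_im]

lemma ee_sum {ι : Type*} (s : Finset ι) (f : ι → ℝ) : ee (∑ i ∈ s, f i) = ∏ i ∈ s, ee (f i) := by
  classical
  induction s using Finset.induction_on with
  | empty => simp [ee_zero]
  | insert a s ha ih => rw [Finset.sum_insert ha, Finset.prod_insert ha, ee_add, ih]

lemma ee_int (n : ℤ) : ee n = 1 := by
  apply Complex.ext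
  · rw [ee_re]; simpa using cos_int_pi n
  · rw [ee_im]; simpa using sin_int_pi n

lemma ee_nat_mul (x : ℝ) (l : ℕ) : ee (l * x) = ee x ^ l := by
  induction l with
  | zero => simp [ee_zero]
  | succ l ih => rw [pow_succ, ← ih, ← ee_add]; congr 1; push_cast; ring

/-- coefficient of the Fejer mean -/
noncomputable def aK (K : ℕ) (m : ℤ) : ℝ := (1 - |(m : ℝ)| / K) * sh m

lemma sh_neg (m : ℤ) : sh (-m) = sh m := by
  unfold sh
  by_cases h : m % 2 = 0
  · rw [if_pos h, if_pos (by omega)]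
  · rw [if_neg h, if_neg (by omega)]
    push_cast
    have : π * (-(m : ℝ)) / 2 = - (π * m / 2) := by ring
    rw [this, sin_neg]
    have : π * (-(m : ℝ)) = - (π * m) := by ring
    rw [this, div_neg]; ring

lemma aK_neg (K : ℕ) (m : ℤ) : aK K (-m) = aK K m := by
  unfold aK; rw [sh_neg]; push_cast; rw [abs_neg]

lemma sh_even (m : ℤ) (h : ¬ Odd m) : sh m = 0 := by
  unfold sh
  rw [if_pos]
  rw [Int.not_odd_iff_even] at h
  obtain ⟨k, hk⟩ := h; omega

lemma sin_odd_sq (m : ℤ) (h : Odd m) : sin (π * m / 2) ^ 2 = 1 := by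
  obtain ⟨k, rfl⟩ := h
  have h1 : π * ((2 * k + 1 : ℤ) : ℝ) / 2 = k * π + π / 2 := by push_cast; ring
  rw [h1, sin_add_pi_div_two]
  rcases Int.even_or_odd k with hk | hk
  · obtain ⟨j, rfl⟩ := hk
    have : ((j + j : ℤ) : ℝ) * π = j * (2 * π) := by push_cast; ring
    rw [this, cos_int_mul_two_pi]; norm_num
  · obtain ⟨j, rfl⟩ := hk
    have : ((2 * j + 1 : ℤ) : ℝ) * π = j * (2 * π) + π := by push_cast; ring
    rw [this, cos_add_pi, cos_int_mul_two_pi]; norm_num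

lemma sh_sq (m : ℤ) (h : Odd m) : sh m ^ 2 = 4 / (π ^ 2 * (m : ℝ) ^ 2) := by
  unfold sh
  rw [if_neg]
  · rw [mul_pow, sin_odd_sq m h]
    rw [div_pow]; ring_nf
  · obtain ⟨k, hk⟩ := h; omega

/-- the odd integers in `(-K, K)` -/
noncomputable def B (K : ℕ) : Finset ℤ := (Ioo (-(K : ℤ)) K).filter Odd

lemma mem_B {K : ℕ} {m : ℤ} : m ∈ B K ↔ (-(K : ℤ) < m ∧ m < K) ∧ Odd m := by
  simp [B]

lemma neg_mem_B {K : ℕ} {m : ℤ} (h : m ∈ B K) : -m ∈ B K := by
  rw [mem_B] at h ⊢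
  exact ⟨by omega, h.2.neg⟩

/-- part of the Fejer mean on harmonics divisible by `c` -/
noncomputable def Sc (K c : ℕ) (x : ℝ) : ℂ := ∑ m ∈ (B K).filter (fun m => (c : ℤ) ∣ m), (aK K m : ℂ) * ee (m * x)

lemma sK_eq (K : ℕ) (x : ℝ) : (sK K x : ℂ) = ∑ m ∈ B K, (aK K m : ℂ) * ee (m * x) := by
  have h0 : ∀ m ∈ Ioo (-(K : ℤ)) K, m ∉ B K → aK K m = 0 := by
    intro m hm hm'
    have : ¬ Odd m := by
      intro ho; apply hm'; rw [mem_B]; simp only [Finset.mem_Ioo] at hm; exact ⟨hm, ho⟩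
    unfold aK; rw [sh_even m this, mul_zero]
  apply Complex.ext
  · rw [Complex.ofReal_re, Complex.re_sum]
    unfold sK
    rw [← Finset.sum_subset (Finset.filter_subset Odd _)]
    · refine Finset.sum_congr rfl fun m _ => ?_
      rw [Complex.re_ofReal_mul, ee_re]; unfold aK; congr 2; ring
    · intro m hm hm'
      have := h0 m hm hm'
      unfold aK at this
      rw [this, zero_mul]
  · rw [Complex.ofReal_im, Complex.im_sum]
    symm
    have h1 : ∑ m ∈ B K, ((aK K m : ℂ) * ee (m * x)).im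
        = - ∑ m ∈ B K, ((aK K m : ℂ) * ee (m * x)).im := by
      rw [← Finset.sum_neg_distrib]
      refine Finset.sum_nbij' (fun m => -m) (fun m => -m) ?_ ?_ ?_ ?_ ?_
      · intro m hm; exact neg_mem_B hm
      · intro m hm; exact neg_mem_B hm
      · intro m _; simp
      · intro m _; simp
      · intro m _
        rw [Complex.im_ofReal_mul, Complex.im_ofReal_mul, ee_im, ee_im, aK_neg]
        have : 2 * π * (((-m : ℤ) : ℝ) * x) = - (2 * π * ((m : ℝ) * x)) := by push_cast; ring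
        rw [this, sin_neg]; ring
    linarith

lemma sum_ee_root (c : ℕ) (hc : 0 < c) (m : ℤ) :
    ∑ l ∈ range c, ee (m * (l / c)) = if (c : ℤ) ∣ m then (c : ℂ) else 0 := by
  have hc' : (c : ℝ) ≠ 0 := by exact_mod_cast hc.ne'
  have h1 : ∀ l ∈ range c, ee (m * (l / c)) = ee (m / c) ^ l := by
    intro l _
    rw [← ee_nat_mul]; congr 1; ring
  rw [Finset.sum_congr rfl h1]
  split_ifs with h
  · obtain ⟨k, rfl⟩ := h
    have : ee (((c : ℤ) * k : ℤ) / c) = 1 := by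
      rw [← ee_int k]; congr 1; push_cast; field_simp
    rw [this]; simp
  · have hne : ee (m / c) ≠ 1 := by
      intro he
      unfold ee at he
      rw [Complex.exp_eq_one_iff] at he
      obtain ⟨n, hn⟩ := he
      apply h
      have h2 : ((m : ℂ) / c) = n := by
        have h3 : (2 * (π : ℂ) * Complex.I) ≠ 0 := by
          simp [pi_ne_zero, Complex.I_ne_zero]
        have h4 : (2 * (π : ℂ) * Complex.I) * ((m : ℂ) / c) = (2 * (π : ℂ) * Complex.I) * n := by
          push_cast at hn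
          linear_combination hn
        exact mul_left_cancel₀ h3 h4
      have hcc : (c : ℂ) ≠ 0 := by exact_mod_cast hc.ne'
      rw [div_eq_iff hcc] at h2
      have h5 : m = n * c := by exact_mod_cast h2
      exact ⟨n, by rw [h5]; ring⟩
    have hpow : ee (m / c) ^ c = 1 := by
      rw [← ee_nat_mul, ← ee_int m]; congr 1; field_simp
    rw [geom_sum_eq hne, hpow]; simp

lemma Sc_eq (K c : ℕ) (hc : 0 < c) (x : ℝ) :
    (c : ℂ) * Sc K c x = ((∑ l ∈ range c, sK K (x + l / c) : ℝ) : ℂ) := by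
  push_cast
  simp only [sK_eq]
  rw [Finset.sum_comm]
  unfold Sc
  rw [Finset.sum_filter, Finset.mul_sum]
  refine Finset.sum_congr rfl fun m _ => ?_
  have h1 : ∀ l ∈ range c, (aK K m : ℂ) * ee (m * (x + l / c))
      = ((aK K m : ℂ) * ee (m * x)) * ee (m * (l / c)) := by
    intro l _
    rw [mul_add, ee_add]; ring
  rw [Finset.sum_congr rfl h1, ← Finset.mul_sum, sum_ee_root c hc]
  split_ifs
  · ring
  · simp

lemma norm_Sc_le (K : ℕ) (hK : 1 ≤ K) (c : ℕ) (hc : Odd c) (x : ℝ) : ‖Sc K c x‖ ≤ 1 / c := by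
  have hc0 : 0 < c := hc.pos
  have hc' : (0 : ℝ) < c := by exact_mod_cast hc0
  have h1 := Sc_eq K c hc0 x
  have h2 : (c : ℝ) * ‖Sc K c x‖ ≤ 1 := by
    have h3 : ‖(c : ℂ) * Sc K c x‖ = (c : ℝ) * ‖Sc K c x‖ := by simp
    rw [← h3, h1, Complex.norm_real, Real.norm_eq_abs]
    exact abs_avg_sK_le K hK c hc x
  rw [le_div_iff₀ hc']; linarith

variable {R : ℕ}

/-- box of odd vectors -/
noncomputable def box (R K : ℕ) : Finset (Fin R → ℤ) := Fintype.piFinset (fun _ => B K)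

lemma mem_box {K : ℕ} {t : Fin R → ℤ} : t ∈ box R K ↔ ∀ i, t i ∈ B K := by
  simp [box]

noncomputable def Am (K : ℕ) (t : Fin R → ℤ) : ℝ := ∏ i, aK K (t i)

/-- `t . phi` -/
noncomputable def dot (t : Fin R → ℤ) (φ : Fin R → ℝ) : ℝ := ∑ i, (t i : ℝ) * φ i

lemma prod_Sc (K c : ℕ) (φ : Fin R → ℝ) :
    ∏ i, Sc K c (φ i) = ∑ t ∈ (box R K).filter (fun t => ∀ i, (c : ℤ) ∣ t i),
      (Am K t : ℂ) * ee (dot t φ) := by
  have hset : (box R K).filter (fun t => ∀ i, (c : ℤ) ∣ t i)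
      = Fintype.piFinset (fun _ : Fin R => (B K).filter (fun m => (c : ℤ) ∣ m)) := by
    ext t
    simp only [Finset.mem_filter, mem_box, Fintype.mem_piFinset]
    constructor
    · rintro ⟨h1, h2⟩ i; exact ⟨h1 i, h2 i⟩
    · intro h; exact ⟨fun i => (h i).1, fun i => (h i).2⟩
  rw [hset]
  unfold Sc
  rw [Finset.prod_univ_sum]
  refine Finset.sum_congr rfl fun t _ => ?_
  rw [Finset.prod_mul_distrib]
  unfold Am dot
  rw [ee_sum]; push_cast; rfl

/-- gcd of the entries -/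
def gg (t : Fin R → ℤ) : ℕ := Finset.univ.gcd (fun i => (t i).natAbs)

lemma dvd_gg (t : Fin R → ℤ) (c : ℕ) : c ∣ gg t ↔ ∀ i, (c : ℤ) ∣ t i := by
  unfold gg
  rw [Finset.dvd_gcd_iff]
  simp [Int.natCast_dvd]

/-- primitive vectors of the box -/
noncomputable def pbox (R K : ℕ) : Finset (Fin R → ℤ) := (box R K).filter (fun t => gg t = 1)

lemma sum_mu (n : ℕ) (_hn : n ≠ 0) :
    ∑ c ∈ n.divisors, (ArithmeticFunction.moebius c : ℤ) = if n = 1 then 1 else 0 := by
  have h := ArithmeticFunction.moebius_mul_coe_zeta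
  have h2 := congrArg (fun f => f n) h
  rw [ArithmeticFunction.coe_mul_zeta_apply] at h2
  rw [h2]
  simp [ArithmeticFunction.one_apply]

lemma gg_pos_lt {K : ℕ} (t : Fin (R+1) → ℤ) (ht : t ∈ box (R+1) K) :
    gg t ≠ 0 ∧ Odd (gg t) ∧ gg t < K := by
  rw [mem_box] at ht
  have h0 := mem_B.1 (ht 0)
  have hd : ((gg t : ℕ) : ℤ) ∣ t 0 := (dvd_gg t (gg t)).1 dvd_rfl 0
  have hne : t 0 ≠ 0 := by
    intro h; rw [h] at h0; exact absurd h0.2 (by decide)
  refine ⟨?_, ?_, ?_⟩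
  · intro h; rw [h] at hd; simp at hd; exact hne hd
  · rw [← Int.odd_coe_nat]
    obtain ⟨k, hk⟩ := hd
    have h1 := h0.2
    rw [hk] at h1
    exact (Int.odd_mul.1 h1).1
  · have h1 : ((gg t : ℕ) : ℤ) ≤ |t 0| := Int.le_of_dvd (abs_pos.2 hne) ((dvd_abs _ _).2 hd)
    have h2 : |t 0| < K := abs_lt.2 ⟨h0.1.1, h0.1.2⟩
    omega

/-- Möbius formula -/
lemma prim_sum {K : ℕ} (F : (Fin (R+1) → ℤ) → ℂ) :
    ∑ t ∈ pbox (R+1) K, F t = ∑ c ∈ (range K).filter Odd,
      (ArithmeticFunction.moebius c : ℂ) * ∑ t ∈ (box (R+1) K).filter (fun t => ∀ i, (c : ℤ) ∣ t i), F t := by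
  have h1 : ∀ c ∈ (range K).filter Odd, (ArithmeticFunction.moebius c : ℂ) *
      ∑ t ∈ (box (R+1) K).filter (fun t => ∀ i, (c : ℤ) ∣ t i), F t
      = ∑ t ∈ box (R+1) K, if c ∣ gg t then (ArithmeticFunction.moebius c : ℂ) * F t else 0 := by
    intro c _
    rw [Finset.mul_sum, Finset.sum_filter]
    refine Finset.sum_congr rfl fun t _ => ?_
    simp only [dvd_gg]
  rw [Finset.sum_congr rfl h1, Finset.sum_comm]
  unfold pbox
  rw [Finset.sum_filter]
  refine Finset.sum_congr rfl fun t ht => ?_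
  obtain ⟨hne, hodd, hlt⟩ := gg_pos_lt t ht
  rw [← Finset.sum_filter]
  have h2 : ((range K).filter Odd).filter (fun c => c ∣ gg t) = (gg t).divisors := by
    ext c
    simp only [Finset.mem_filter, Finset.mem_range, Nat.mem_divisors]
    constructor
    · rintro ⟨_, h⟩; exact ⟨h, hne⟩
    · rintro ⟨h, _⟩
      refine ⟨⟨lt_of_le_of_lt (Nat.le_of_dvd (Nat.pos_of_ne_zero hne) h) hlt, ?_⟩, h⟩
      exact Odd.of_dvd_nat hodd h
  rw [h2, ← Finset.sum_mul]
  have h3 := sum_mu (gg t) hne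
  have h4 : (∑ c ∈ (gg t).divisors, (ArithmeticFunction.moebius c : ℂ)) = if gg t = 1 then 1 else 0 := by
    have := congrArg (fun z : ℤ => (z : ℂ)) h3
    push_cast at this
    rw [this]
  rw [h4]
  split_ifs <;> simp

lemma norm_prim_le {K : ℕ} (hK : 1 ≤ K) (φ : Fin (R+1) → ℝ) :
    ‖∑ t ∈ pbox (R+1) K, (Am K t : ℂ) * ee (dot t φ)‖ ≤ ∑ c ∈ (range K).filter Odd, (1 / (c : ℝ)) ^ (R+1) := by
  rw [prim_sum]
  refine (norm_sum_le _ _).trans (Finset.sum_le_sum fun c hc => ?_)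
  rw [← prod_Sc, norm_mul, norm_prod]
  have h1 : ‖(ArithmeticFunction.moebius c : ℂ)‖ ≤ 1 := by
    have := ArithmeticFunction.abs_moebius_le_one (n := c)
    rw [Complex.norm_intCast]
    exact_mod_cast this
  have hodd : Odd c := (Finset.mem_filter.1 hc).2
  have h2 : ∏ i, ‖Sc K c (φ i)‖ ≤ ∏ _i : Fin (R+1), (1 / (c : ℝ)) :=
    Finset.prod_le_prod (fun _ _ => norm_nonneg _) (fun i _ => norm_Sc_le K hK c hodd (φ i))
  calc _ ≤ 1 * ∏ _i : Fin (R+1), (1 / (c : ℝ)) :=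
        mul_le_mul h1 h2 (Finset.prod_nonneg fun _ _ => norm_nonneg _) zero_le_one
    _ = _ := by simp

end Crest.Agent.R075.ThmF
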