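import Mathlib

set_option autoImplicit false

namespace Crest.Agent.R075

open Finset Polynomial

/-- a vector orthogonal to `t` and to no other element of a pairwise non parallel set -/
lemma exists_orth {r : ℕ} (T : Finset (Fin (r+1) → ℤ)) (hT1 : ∀ t ∈ T, 1 ≤ t 0)
    (hT : ∀ t ∈ T, ∀ t' ∈ T, t ≠ t' → ∃ i j, t i * t' j ≠ t j * t' i)
    (t : Fin (r+1) → ℤ) (ht : t ∈ T) :
    ∃ a : Fin (r+1) → ℤ, ∑ i, t i * a i = 0 ∧ ∀ t' ∈ T, t' ≠ t → ∑ i, t' i * a i ≠ 0 := by
  classical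
  let p : (Fin (r+1) → ℤ) → ℤ[X] := fun t' =>
    ∑ i : Fin r, C (t 0 * t' i.succ - t' 0 * t i.succ) * X ^ (i.1+1)
  have hcoef : ∀ t' (i : Fin r), (p t').coeff (i.1+1) = t 0 * t' i.succ - t' 0 * t i.succ := by
    intro t' i
    simp only [p, finsetSum_coeff, coeff_C_mul, coeff_X_pow]
    rw [Finset.sum_eq_single i]
    · simp
    · intro b _ hb
      have : i.1 ≠ b.1 := by
        intro h; apply hb; ext; omega
      simp [this]
    · intro h; exact absurd (Finset.mem_univ i) h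
  have hp : ∀ t' ∈ T.erase t, p t' ≠ 0 := by
    intro t' ht' h0
    have hne := Finset.ne_of_mem_erase ht'
    have hmem := Finset.mem_of_mem_erase ht'
    obtain ⟨i, j, hij⟩ := hT t ht t' hmem (Ne.symm hne)
    have hall : ∀ i : Fin (r+1), t 0 * t' i = t' 0 * t i := by
      intro i
      refine Fin.cases ?_ (fun i => ?_) i
      · ring
      · have := hcoef t' i
        rw [h0] at this
        simp at this
        linarith
    apply hij
    have h1 := hall i
    have h2 := hall j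
    have h3 : t' 0 * (t i * t' j - t j * t' i) = 0 := by
      have : t' 0 * (t i * t' j - t j * t' i) = (t' 0 * t i) * t' j - (t' 0 * t j) * t' i := by ring
      rw [this, ← h1, ← h2]; ring
    have h4 : t' 0 ≠ 0 := by have := hT1 t' hmem; omega
    have := (mul_eq_zero.mp h3).resolve_left h4
    linarith
  have hprod : (∏ t' ∈ T.erase t, p t') ≠ 0 := Finset.prod_ne_zero_iff.mpr hp
  obtain ⟨x, hx⟩ : ∃ x : ℤ, (∏ t' ∈ T.erase t, p t').eval x ≠ 0 := by
    by_contra hcon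
    push Not at hcon
    apply hprod
    apply Polynomial.funext
    intro y
    rw [hcon y]; simp
  refine ⟨Fin.cons (-∑ i : Fin r, t i.succ * x ^ (i.1+1)) (fun i => t 0 * x ^ (i.1+1)), ?_, ?_⟩
  · rw [Fin.sum_univ_succ]
    simp only [Fin.cons_zero, Fin.cons_succ]
    rw [mul_neg, Finset.mul_sum, neg_add_eq_zero]
    apply Finset.sum_congr rfl
    intro i _; ring
  · intro t' ht' hne
    rw [Polynomial.eval_prod] at hx
    have := Finset.prod_ne_zero_iff.mp hx t' (Finset.mem_erase.mpr ⟨hne, ht'⟩)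
    rw [Fin.sum_univ_succ]
    simp only [Fin.cons_zero, Fin.cons_succ]
    intro h0
    apply this
    simp only [p, eval_finsetSum, eval_mul, eval_C, eval_pow, eval_X]
    rw [← h0, mul_neg, Finset.mul_sum, ← sub_eq_neg_add, ← Finset.sum_sub_distrib]
    apply Finset.sum_congr rfl
    intro i _; ring

/-- if `p` is prime, divides `1 + M * y` and is at most `B` with `B! ∣ M`: contradiction. -/
lemma no_small_prime {M y B p : ℕ} (hp : p.Prime) (hpB : p ≤ B) (hB : B.factorial ∣ M)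
    (hd : p ∣ 1 + M * y) : False := by
  have h1 : p ∣ M := (Nat.dvd_factorial hp.pos hpB).trans hB
  have h2 : p ∣ 1 := (Nat.dvd_add_left (h1.mul_right y)).mp hd
  exact hp.one_lt.ne' (Nat.dvd_one.mp h2)

theorem thmQ {r : ℕ} (T : Finset (Fin (r+1) → ℤ)) (hT1 : ∀ t ∈ T, 1 ≤ t 0)
    (hT : ∀ t ∈ T, ∀ t' ∈ T, t ≠ t' → ∃ i j, t i * t' j ≠ t j * t' i)
    (H : (Fin (r+1) → ℤ) → ℝ) (hH : ∀ t ∈ T, 0 < H t) (eps : ℝ) (he : 0 < eps) (B0 : ℕ) :
    ∃ (kap : ℕ) (q : (Fin (r+1) → ℤ) → ℕ) (A : Fin (r+1) → ℤ), 1 ≤ kap ∧ B0 ≤ kap ∧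
      (∀ t ∈ T, Odd (q t) ∧ 1 < q t ∧ kap * H t ≤ q t ∧ (q t : ℝ) ≤ (1+eps) * (kap * H t)) ∧
      (∀ t ∈ T, ∀ n : ℕ, 1 ≤ n → n ≤ B0 → Nat.Coprime (q t) n) ∧
      (∀ t ∈ T, ∀ t' ∈ T, t ≠ t' → Nat.Coprime (q t) (q t')) ∧
      (∀ t ∈ T, (q t : ℤ) ∣ ∑ i, t i * A i) ∧
      (∀ t ∈ T, ∀ t' ∈ T, t ≠ t' → IsCoprime (∑ i, t i * A i) (q t' : ℤ)) := by
  classical
  rcases T.eq_empty_or_nonempty with hTe | hTne
  · subst hTe
    refine ⟨B0 + 1, fun _ => 1, fun _ => 0, by omega, by omega, ?_, ?_, ?_, ?_, ?_⟩ <;> simp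
  choose! a ha ha' using exists_orth T hT1 hT
  set c : ℕ := T.card with hc
  have hcpos : 0 < c := Finset.card_pos.mpr hTne
  -- the scale Lam
  obtain ⟨Lam, hLam⟩ : ∃ Lam : ℕ, 1 ≤ Lam ∧ B0 ≤ Lam ∧ ∀ t ∈ T, (2 * c + 1 : ℝ) ≤ eps * (Lam * H t) := by
    have : ∀ t ∈ T, ∃ L : ℕ, (2 * c + 1 : ℝ) ≤ eps * (L * H t) := by
      intro t ht
      obtain ⟨L, hL⟩ := exists_nat_ge ((2 * c + 1 : ℝ) / (eps * H t))
      refine ⟨L, ?_⟩
      have hpos : 0 < eps * H t := mul_pos he (hH t ht)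
      rw [div_le_iff₀ hpos] at hL
      linarith [hL, mul_comm (L : ℝ) (eps * H t), mul_assoc eps (H t) (L : ℝ), mul_comm (H t) (L : ℝ)]
    choose! L hL using this
    refine ⟨T.sup L + 1 + B0, by omega, by omega, ?_⟩
    intro t ht
    refine (hL t ht).trans ?_
    have h1 : (L t : ℝ) ≤ ((T.sup L + 1 + B0 : ℕ) : ℝ) := by
      have : L t ≤ T.sup L := Finset.le_sup ht
      exact_mod_cast this.trans (by omega)
    have h2 := hH t ht
    have h3 : (L t : ℝ) * H t ≤ ((T.sup L + 1 + B0 : ℕ) : ℝ) * H t := mul_le_mul_of_nonneg_right h1 h2.le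
    exact mul_le_mul_of_nonneg_left h3 he.le
  obtain ⟨hLam1, hLamB, hLam2⟩ := hLam
  -- indices
  let e := T.equivFin
  let j : (Fin (r+1) → ℤ) → ℕ := fun t => if h : t ∈ T then (e ⟨t, h⟩ : ℕ) else 0
  have hj : ∀ t ∈ T, j t < c := by
    intro t ht
    simp only [j, ht, dif_pos]
    exact (e ⟨t, ht⟩).2
  have hjinj : ∀ t ∈ T, ∀ t' ∈ T, j t = j t' → t = t' := by
    intro t ht t' ht' h
    simp only [j, ht, ht', dif_pos] at h
    have := e.injective (Fin.ext h)
    exact congrArg Subtype.val this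
  let m : (Fin (r+1) → ℤ) → ℕ := fun t => ⌈Lam * H t / c⌉₊
  let y : (Fin (r+1) → ℤ) → ℕ := fun t => c * m t + j t
  have hy_inj : ∀ t ∈ T, ∀ t' ∈ T, y t = y t' → t = t' := by
    intro t ht t' ht' h
    apply hjinj t ht t' ht'
    have h1 : (c * m t + j t) % c = (c * m t' + j t') % c := congrArg (· % c) h
    rw [Nat.mul_add_mod, Nat.mul_add_mod, Nat.mod_eq_of_lt (hj t ht), Nat.mod_eq_of_lt (hj t' ht')] at h1
    exact h1
  have hcR : (0 : ℝ) < c := by exact_mod_cast hcpos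
  have hy_lo : ∀ t ∈ T, (Lam * H t : ℝ) ≤ y t := by
    intro t ht
    have h1 : (Lam * H t / c : ℝ) ≤ m t := Nat.le_ceil _
    rw [div_le_iff₀ hcR] at h1
    have h2 : (y t : ℝ) = c * m t + j t := by simp [y]
    rw [h2]
    have : (0 : ℝ) ≤ j t := Nat.cast_nonneg _
    linarith [mul_comm (m t : ℝ) (c : ℝ)]
  have hy_hi : ∀ t ∈ T, (y t : ℝ) ≤ Lam * H t + 2 * c := by
    intro t ht
    have h0 : (0 : ℝ) ≤ Lam * H t / c := by
      have := hH t ht
      positivity
    have h1 : (m t : ℝ) < Lam * H t / c + 1 := Nat.ceil_lt_add_one h0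
    have h2 : (y t : ℝ) = c * m t + j t := by simp [y]
    rw [h2]
    have h3 : (j t : ℝ) ≤ c := by exact_mod_cast (hj t ht).le
    have h4 : (c : ℝ) * m t ≤ c * (Lam * H t / c + 1) := mul_le_mul_of_nonneg_left h1.le hcR.le
    have h5 : (c : ℝ) * (Lam * H t / c + 1) = Lam * H t + c := by field_simp
    linarith
  have hy_pos : ∀ t ∈ T, 1 ≤ y t := by
    intro t ht
    have h1 := hy_lo t ht
    have h2 : (0 : ℝ) < Lam * H t := by
      have := hH t ht
      have : (0:ℝ) < Lam := by exact_mod_cast hLam1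
      positivity
    have h3 : (0 : ℝ) < y t := by linarith
    exact_mod_cast h3
  -- bounds
  let Y : ℕ := T.sup y
  let B : ℕ := B0 + ∑ t ∈ T, ∑ t' ∈ T, (∑ i, t' i * a t i).natAbs
  let M : ℕ := 2 * (Y.factorial * B.factorial)
  have hM2 : 2 ∣ M := ⟨_, rfl⟩
  have hMY : Y.factorial ∣ M := ⟨2 * B.factorial, by simp only [M]; ring⟩
  have hMB : B.factorial ∣ M := ⟨2 * Y.factorial, by simp only [M]; ring⟩
  have hMpos : 1 ≤ M := by
    have h1 := Nat.factorial_pos Y
    have h2 := Nat.factorial_pos B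
    have : 0 < M := by positivity
    omega
  let q : (Fin (r+1) → ℤ) → ℕ := fun t => 1 + M * y t
  have hqcop : ∀ t ∈ T, ∀ t' ∈ T, t ≠ t' → Nat.Coprime (q t) (q t') := by
    intro t ht t' ht' hne
    rw [Nat.coprime_iff_gcd_eq_one]
    by_contra hg
    obtain ⟨p, hp, hpd⟩ := Nat.exists_prime_and_dvd hg
    have h1 : p ∣ 1 + M * y t := hpd.trans (Nat.gcd_dvd_left _ _)
    have h2 : p ∣ 1 + M * y t' := hpd.trans (Nat.gcd_dvd_right _ _)
    have hyne : y t ≠ y t' := fun h => hne (hy_inj t ht t' ht' h)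
    have h3 : (p : ℤ) ∣ (M : ℤ) * ((y t : ℤ) - y t') := by
      have h1' : (p : ℤ) ∣ 1 + (M : ℤ) * y t := by exact_mod_cast h1
      have h2' : (p : ℤ) ∣ 1 + (M : ℤ) * y t' := by exact_mod_cast h2
      have := dvd_sub h1' h2'
      have heq : (1 + (M : ℤ) * y t) - (1 + (M : ℤ) * y t') = (M : ℤ) * ((y t : ℤ) - y t') := by ring
      rwa [heq] at this
    have hpZ : Prime (p : ℤ) := Nat.prime_iff_prime_int.mp hp
    rcases hpZ.dvd_or_dvd h3 with h4 | h4
    · have h5 : p ∣ M := by exact_mod_cast h4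
      have h6 : p ∣ 1 := (Nat.dvd_add_left (h5.mul_right _)).mp h1
      exact hp.one_lt.ne' (Nat.dvd_one.mp h6)
    · have h5 : ((y t : ℤ) - y t') ≠ 0 := by
        intro h; apply hyne; omega
      have h6 : p ≤ ((y t : ℤ) - y t').natAbs := by
        have := Int.natAbs_dvd_natAbs.mpr h4
        simp only [Int.natAbs_natCast] at this
        exact Nat.le_of_dvd (Int.natAbs_pos.mpr h5) this
      have h7 : y t ≤ Y := Finset.le_sup ht
      have h8 : y t' ≤ Y := Finset.le_sup ht'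
      have h9 : p ≤ Y := by omega
      exact no_small_prime hp h9 hMY h1
  -- CRT
  have hcrt : ∀ i : Fin (r+1), ∃ A : ℤ, ∀ t ∈ T, (q t : ℤ) ∣ A - a t i := by
    intro i
    let res : (Fin (r+1) → ℤ) → ℕ := fun t => (a t i % (q t : ℤ)).toNat
    have hq0 : ∀ t ∈ T, q t ≠ 0 := by intro t _; simp [q]
    have hpp : Set.Pairwise (↑T) (Function.onFun Nat.Coprime q) := by
      intro t ht t' ht' hne
      exact hqcop t ht t' ht' hne
    obtain ⟨k, hk⟩ := Nat.chineseRemainderOfFinset res q T hq0 hpp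
    refine ⟨k, fun t ht => ?_⟩
    have h1 := hk t ht
    have h2 : (k : ℤ) ≡ (res t : ℤ) [ZMOD (q t : ℤ)] := (Int.natCast_modEq_iff).mpr h1
    have hq0' : (q t : ℤ) ≠ 0 := by exact_mod_cast hq0 t ht
    have h3 : (res t : ℤ) = a t i % (q t : ℤ) := Int.toNat_of_nonneg (Int.emod_nonneg _ hq0')
    rw [h3] at h2
    have h4 : (k : ℤ) ≡ a t i [ZMOD (q t : ℤ)] := h2.trans (Int.mod_modEq _ _)
    exact h4.symm.dvd
  choose A hA using hcrt
  have hAsum : ∀ t' : Fin (r+1) → ℤ, ∀ t ∈ T, (q t : ℤ) ∣ (∑ i, t' i * A i) - ∑ i, t' i * a t i := by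
    intro t' t ht
    rw [← Finset.sum_sub_distrib]
    apply Finset.dvd_sum
    intro i _
    rw [← mul_sub]
    exact (hA i t ht).mul_left _
  refine ⟨M * Lam, q, A, ?_, ?_, ?_, ?_, hqcop, ?_, ?_⟩
  · exact Nat.one_le_iff_ne_zero.mpr (by positivity)
  · calc B0 ≤ Lam := hLamB
      _ = 1 * Lam := by ring
      _ ≤ M * Lam := Nat.mul_le_mul_right _ hMpos
  · intro t ht
    refine ⟨?_, ?_, ?_, ?_⟩
    · have : Even (M * y t) := (even_iff_two_dvd.mpr hM2).mul_right _
      rw [show q t = M * y t + 1 by simp only [q]; ring]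
      exact this.add_one
    · have := hy_pos t ht
      have : 0 < M * y t := Nat.mul_pos (by omega) (by omega)
      simp only [q]; omega
    · have h1 := hy_lo t ht
      have h2 : (0 : ℝ) ≤ M := Nat.cast_nonneg _
      push_cast [q]
      nlinarith [mul_le_mul_of_nonneg_left h1 h2]
    · have h1 := hy_hi t ht
      have h2 : (1 : ℝ) ≤ M := by exact_mod_cast hMpos
      have h3 := hLam2 t ht
      push_cast [q]
      have h4 : (1 : ℝ) + M * y t ≤ M * (1 + y t) := by linarith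
      have h5 : (M : ℝ) * (1 + y t) ≤ M * (Lam * H t + (2 * c + 1)) :=
        mul_le_mul_of_nonneg_left (by linarith) (by linarith)
      have h6 : (M : ℝ) * (Lam * H t + (2 * c + 1)) ≤ M * (Lam * H t + eps * (Lam * H t)) :=
        mul_le_mul_of_nonneg_left (by linarith) (by linarith)
      calc (1 : ℝ) + M * y t ≤ M * (Lam * H t + eps * (Lam * H t)) := h4.trans (h5.trans h6)
        _ = (1 + eps) * (M * Lam * H t) := by ring
  · intro t ht n hn1 hnB
    rw [Nat.coprime_iff_gcd_eq_one]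
    by_contra hg
    obtain ⟨p, hp, hpd⟩ := Nat.exists_prime_and_dvd hg
    have h1 : p ∣ 1 + M * y t := hpd.trans (Nat.gcd_dvd_left _ _)
    have h2 : p ∣ n := hpd.trans (Nat.gcd_dvd_right _ _)
    have h3 : p ≤ B := (Nat.le_of_dvd (by omega) h2).trans (hnB.trans (by simp only [B]; omega))
    exact no_small_prime hp h3 hMB h1
  · intro t ht
    have h1 := hAsum t t ht
    rw [ha t ht, sub_zero] at h1
    exact h1
  · intro t ht t' ht' hne
    have h0 : ∑ i, t i * a t' i ≠ 0 := ha' t' ht' t ht hne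
    have hcop : IsCoprime (∑ i, t i * a t' i) (q t' : ℤ) := by
      rw [Int.isCoprime_iff_gcd_eq_one]
      by_contra hg
      obtain ⟨p, hp, hpd⟩ := Nat.exists_prime_and_dvd hg
      have h1 : (p : ℤ) ∣ ∑ i, t i * a t' i := by
        have : (p : ℤ) ∣ (Int.gcd (∑ i, t i * a t' i) (q t' : ℤ) : ℤ) := by exact_mod_cast hpd
        exact this.trans (Int.gcd_dvd_left ..)
      have h2 : p ∣ 1 + M * y t' := by
        have : (p : ℤ) ∣ (Int.gcd (∑ i, t i * a t' i) (q t' : ℤ) : ℤ) := by exact_mod_cast hpd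
        have := this.trans (Int.gcd_dvd_right ..)
        exact_mod_cast this
      have h3 : p ≤ (∑ i, t i * a t' i).natAbs := by
        have := Int.natAbs_dvd_natAbs.mpr h1
        simp only [Int.natAbs_natCast] at this
        exact Nat.le_of_dvd (Int.natAbs_pos.mpr h0) this
      have h4 : (∑ i, t i * a t' i).natAbs ≤ B := by
        have h5 : (∑ i, t i * a t' i).natAbs ≤ ∑ t'' ∈ T, (∑ i, t'' i * a t' i).natAbs :=
          Finset.single_le_sum (f := fun t'' : Fin (r+1) → ℤ => (∑ i, t'' i * a t' i).natAbs)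
            (fun _ _ => Nat.zero_le _) ht
        have h6 : ∑ t'' ∈ T, (∑ i, t'' i * a t' i).natAbs ≤
            ∑ t ∈ T, ∑ t'' ∈ T, (∑ i, t'' i * a t i).natAbs :=
          Finset.single_le_sum
            (f := fun t : Fin (r+1) → ℤ => ∑ t'' ∈ T, (∑ i, t'' i * a t i).natAbs)
            (fun _ _ => Nat.zero_le _) ht'
        simp only [B]
        omega
      exact no_small_prime hp (h3.trans h4) hMB h2
    obtain ⟨k, hk⟩ := hAsum t t' ht'
    have h5 : ∑ i, t i * A i = ∑ i, t i * a t' i + (q t' : ℤ) * k := by linarith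
    rw [h5]
    exact hcop.add_mul_left_left k

end Crest.Agent.R075
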