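import Crest.Agent.R075.DesignData
import Crest.Agent.R075.Amp
import Crest.Agent.R075.ThmF
import Crest.Agent.R075.ThmQ

/-!
# Row 75, THM D: existence of the tiling (helper332)
-/

set_option autoImplicit false

namespace Crest.Agent.R075

open Finset

/-- statement of the packing lemma (774), with `pblk` -/
def PackStmt : Prop :=
  ∀ {R : ℕ} (T : Finset (Fin (R+1) → ℤ)), (∀ t ∈ T, 1 ≤ t 0) →
    (∀ t ∈ T, ∀ t2 ∈ T, t ≠ t2 → ∃ i j, t i * t2 j ≠ t j * t2 i) →
    ∀ (p : (Fin (R+1) → ℤ) → ℝ), (∀ t ∈ T, 0 < p t) → 2 * ∑ t ∈ T, p t ≤ 1 →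
    ∀ (L : ℕ), 0 < L → (∀ t ∈ T, t 0 ∣ (L : ℤ)) → ∀ (eps : ℝ), 0 < eps →
    ∃ l0 : ℕ, ∀ l ≥ l0, l.Prime → ∃ (sigma : ZMod l → (Fin (R+1) → ℤ))
      (W : Finset ((Fin (R+1) → ZMod l) × ℕ)), W.Nonempty ∧ (∀ B, sigma (-1 - B) = - sigma B) ∧
      (∀ g ∈ W, g.2 < L) ∧ (∀ g ∈ W, ∀ t ∈ T, sigma (pblk l L t g) = t) ∧
      (∀ t ∈ T, ∀ B : ZMod l, ∀ r : ℤ,
        ((W.filter fun g => pblk l L t g = B ∧ t 0 * g.2 % L = r).card : ℝ)
          ≤ (1+eps) * W.card * t 0 / (p t * (L * l)))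

lemma inv_sqrt_bound {th e1 : ℝ} (h1 : 1 ≤ th) (h2 : th ≤ 1 + e1) :
    |1 / Real.sqrt th - 1| ≤ e1 := by
  have h0 : 0 < th := by linarith
  have hs : 1 ≤ Real.sqrt th := by
    rw [show (1:ℝ) = Real.sqrt 1 by simp]; exact Real.sqrt_le_sqrt h1
  have hs2 : Real.sqrt th ≤ th := by
    have := Real.sq_sqrt h0.le
    nlinarith
  have h3 : 1 / Real.sqrt th ≤ 1 := by
    rw [div_le_one (by linarith)]; exact hs
  have h4 : 1 - e1 ≤ 1 / Real.sqrt th := by
    rw [le_div_iff₀ (by linarith)]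
    by_cases he : e1 ≤ 1
    · have : (1 - e1) * Real.sqrt th ≤ (1 - e1) * (1 + e1) :=
        mul_le_mul_of_nonneg_left (by linarith) (by linarith)
      nlinarith [sq_nonneg e1]
    · have : (1 - e1) * Real.sqrt th ≤ 0 :=
        mul_nonpos_of_nonpos_of_nonneg (by linarith) (by linarith)
      linarith
  rw [abs_le]; constructor <;> linarith

set_option maxHeartbeats 1000000 in
theorem tiling_of_pack (henum : EnumTiles) (hpack : PackStmt) (ε : ℝ) (hε : 0 < ε) :
    Nonempty (Tiling ε) := by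
  classical
  -- constants
  set e : ℝ := min ε 1 / 100 with he
  have he0 : 0 < e := by rw [he]; positivity
  have he1 : e ≤ 1 / 100 := by
    rw [he]; have := min_le_right ε 1; linarith
  have heε : 100 * e ≤ ε := by
    rw [he]; have := min_le_left ε 1; linarith
  obtain ⟨R, T, f, hTne, hodd, hpos, -, hf0, hnp, hE, hlow, hup⟩ := ThmF.thmF e he0
  set c : ℝ := (T.card : ℝ) with hc
  have hc0 : 0 ≤ c := by rw [hc]; positivity
  set e1 : ℝ := e / (c + 1) with he1d
  have he10 : 0 < e1 := by rw [he1d]; positivity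
  have he1e : e1 ≤ e := by
    rw [he1d]; exact div_le_self he0.le (by linarith)
  have hce1 : c * e1 ≤ e := by
    rw [he1d, mul_div_assoc', div_le_iff₀ (by linarith)]
    nlinarith
  -- L
  set L : ℕ := ∏ t ∈ T, (t 0).toNat with hL
  have hcast : ∀ t ∈ T, (((t 0).toNat : ℕ) : ℤ) = t 0 := fun t ht =>
    Int.toNat_of_nonneg (by have := hpos t ht; omega)
  have hLodd : Odd L := by
    rw [hL]
    apply Finset.prod_induction _ Odd (fun a b => Odd.mul) odd_one
    intro t ht
    have := hodd t ht 0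
    rw [← hcast t ht] at this
    exact_mod_cast this
  have hdvdN : ∀ t ∈ T, (t 0).toNat ∣ L := fun t ht => Finset.dvd_prod_of_mem _ ht
  have hdvd : ∀ t ∈ T, t 0 ∣ (L : ℤ) := by
    intro t ht
    rw [← hcast t ht]
    exact_mod_cast hdvdN t ht
  -- packing
  have hp : ∀ t ∈ T, 0 < (f t) ^ 2 := fun t ht => by
    have := hf0 t ht; positivity
  obtain ⟨l0, hl0⟩ := hpack T hpos hnp (fun t => (f t) ^ 2) hp hup L hLodd.pos hdvd e he0
  obtain ⟨l, hl_ge, hlp⟩ := Nat.exists_infinite_primes (max l0 3)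
  have hlodd : Odd l := hlp.odd_of_ne_two (by
    intro h2; rw [h2] at hl_ge; have := le_max_right l0 3; omega)
  obtain ⟨sigma, W, hWne, hsig, hWL, hW, hload⟩ := hl0 l (le_trans (le_max_left _ _) hl_ge) hlp
  have hWc : (0:ℝ) < W.card := by
    have := Finset.card_pos.mpr hWne
    exact_mod_cast this
  have hLpos : (0:ℝ) < L := by exact_mod_cast hLodd.pos
  have hlpos : (0:ℝ) < l := by exact_mod_cast hlodd.pos
  have ht0 : ∀ t ∈ T, (0:ℝ) < t 0 := fun t ht => by
    have := hpos t ht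
    have h2 : (0:ℤ) < t 0 := by omega
    exact_mod_cast h2
  -- torsion
  set H : (Fin (R+1) → ℤ) → ℝ := fun t => (1+e) * W.card * t 0 / ((f t) ^ 2 * (L * l)) with hH
  have hHpos : ∀ t ∈ T, 0 < H t := by
    intro t ht
    have h1 := hp t ht
    have h2 := ht0 t ht
    simp only [hH]
    positivity
  obtain ⟨kap, q, A, hkap, -, hq, hqB, hqc, hqA, hqA2⟩ := thmQ T hpos hnp H hHpos e1 he10 L
  have hkap0 : (0:ℝ) < kap := by exact_mod_cast hkap
  have hq0 : ∀ t ∈ T, (0:ℝ) < q t := fun t ht => by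
    have := (hq t ht).2.1
    exact_mod_cast (by omega : 0 < q t)
  let P : PackData R := {
    T := T
    hpos := hpos
    L := L
    l := l
    L_odd := hLodd
    l_odd := hlodd
    hdvd := hdvd
    sigma := sigma
    hsigma := hsig
    W := W
    hW := hW
    kap := kap
    q := q
    q_odd := fun t ht => (hq t ht).1
    q_cop := hqc
    q_copL := by
      intro t ht
      apply Nat.Coprime.symm
      apply hqB t ht
      · have := hpos t ht; omega
      · exact Nat.le_of_dvd hLodd.pos (hdvdN t ht)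
    load := by
      intro t ht B r
      have h1 := hload t ht B r
      have h2 := (hq t ht).2.2.1
      have h3 : (kap : ℝ) * ((W.filter fun g => pblk l L t g = B ∧ t 0 * g.2 % L = r).card : ℝ)
        ≤ kap * H t := mul_le_mul_of_nonneg_left h1 hkap0.le
      have h4 : (kap : ℝ) * ((W.filter fun g => pblk l L t g = B ∧ t 0 * g.2 % L = r).card : ℝ) ≤ q t :=
        le_trans h3 h2
      exact_mod_cast h4 }
  -- the cells
  set C := P.cells with hC
  -- theta_t = q_t / (kap H_t)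
  have hth : ∀ t ∈ T, 1 ≤ q t / (kap * H t) ∧ q t / (kap * H t) ≤ 1 + e1 := by
    intro t ht
    have h1 := hHpos t ht
    have h2 := (hq t ht).2.2
    have h3 : 0 < kap * H t := by positivity
    constructor
    · rw [le_div_iff₀ h3]; linarith [h2.1]
    · rw [div_le_iff₀ h3]; linarith [h2.2]
  -- number of pieces
  set Pn : ℝ := (W.card : ℝ) * kap with hPn
  have hPn0 : 0 < Pn := by rw [hPn]; positivity
  have hcard : (Fintype.card (P.Wt × Fin P.kap) : ℝ) = Pn := by
    have h1 : Fintype.card (P.Wt × Fin P.kap) = W.card * kap := by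
      rw [Fintype.card_prod, Fintype.card_fin, Fintype.card_coe]
    rw [h1]; push_cast; rfl
  set De : ℝ := (1 - 7 * e) / Pn with hDe
  have hDe0 : 0 < De := by
    rw [hDe]; apply div_pos _ hPn0; linarith
  -- the main algebraic identity
  have hmain : ∀ t ∈ T, (t 0 : ℝ) / (L * l * q t)
      = (f t) ^ 2 / ((1 + e) * Pn * (q t / (kap * H t))) := by
    intro t ht
    have h1 := hHpos t ht
    have h2 := hp t ht
    have h3 := hq0 t ht
    have h4 := ht0 t ht
    have h5 : H t = (1+e) * W.card * t 0 / ((f t) ^ 2 * (L * l)) := rfl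
    have h6 : (1 + e) * Pn * (q t / (kap * H t)) = q t * ((f t) ^ 2 * (L * l)) / t 0 := by
      rw [h5, hPn]
      have : (0:ℝ) < 1 + e := by linarith
      field_simp
    rw [h6]
    have h7 := hf0 t ht
    field_simp
  have hfle : ∀ t ∈ T, |f t| ≤ 1 := by
    intro t ht
    have h1 : (f t) ^ 2 ≤ ∑ t ∈ T, (f t) ^ 2 :=
      Finset.single_le_sum (f := fun t => (f t) ^ 2) (fun i _ => sq_nonneg _) ht
    rw [← sq_le_one_iff_abs_le_one]
    have h2 := hp t ht
    linarith
  -- amplitude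
  set rho : ℝ := 1 / Real.sqrt ((1 + e) * (1 - 7 * e)) with hrho
  have hprod : 0 < (1 + e) * (1 - 7 * e) := by
    apply mul_pos <;> linarith
  have hrho0 : 0 < rho := by rw [hrho]; positivity
  have hrho1 : rho ≤ 1 + 8 * e := by
    rw [hrho, div_le_iff₀ (Real.sqrt_pos.mpr hprod)]
    have h1 : 1 - 7 * e ≤ Real.sqrt ((1 + e) * (1 - 7 * e)) := by
      apply Real.le_sqrt_of_sq_le
      nlinarith
    nlinarith
  have hamp : ∀ t : P.Ty, |Real.sqrt ((t.1 0 : ℝ) / (((L * l : ℕ) : ℝ) * (q t.1 : ℝ) * De))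
      - rho * (|f t.1|)| ≤ rho * e1 := by
    intro t
    obtain ⟨h1, h2⟩ := hth t.1 t.2
    set th : ℝ := q t.1 / (kap * H t.1) with hthd
    have hth0 : 0 < th := by linarith
    have h3 : (t.1 0 : ℝ) / (((L * l : ℕ) : ℝ) * (q t.1 : ℝ) * De)
        = (f t.1) ^ 2 * (1 / ((1 + e) * (1 - 7 * e))) * (1 / th) := by
      have h4 : (t.1 0 : ℝ) / (((L * l : ℕ) : ℝ) * (q t.1 : ℝ) * De)
          = ((t.1 0 : ℝ) / (L * l * q t.1)) / De := by
        push_cast; rw [div_div]
      rw [h4, hmain t.1 t.2, ← hthd, hDe]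
      have a1 : (1 + e) ≠ 0 := by linarith
      have a2 : (1 - 7 * e) ≠ 0 := by linarith
      field_simp
    rw [h3, Real.sqrt_mul (by positivity), Real.sqrt_mul (by positivity), Real.sqrt_sq_eq_abs,
      Real.sqrt_div zero_le_one, Real.sqrt_div zero_le_one, Real.sqrt_one, ← hrho]
    have h5 : |f t.1| * rho * (1 / Real.sqrt th) - rho * |f t.1|
        = rho * |f t.1| * (1 / Real.sqrt th - 1) := by ring
    rw [h5, abs_mul, abs_mul, abs_abs, abs_of_pos hrho0]
    have h6 := inv_sqrt_bound h1 h2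
    have h7 := hfle t.1 t.2
    calc rho * |f t.1| * |1 / Real.sqrt th - 1| ≤ rho * 1 * e1 := by
          apply mul_le_mul _ h6 (abs_nonneg _) (by positivity)
          exact mul_le_mul_of_nonneg_left h7 hrho0.le
      _ = rho * e1 := by ring
  obtain ⟨al, hal⟩ := amp_bound (ι := P.Ty) (fun t => t.1) (fun t => hpos t.1 t.2) (fun t => f t.1) (1 + e)
    (by
      intro φ
      have h1 := hE φ
      have h2 : ∑ t : P.Ty, f t.1 * Real.cos (2 * Real.pi * ∑ i, (t.1 i : ℝ) * φ i)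
          = ∑ t ∈ T, f t * Real.cos (2 * Real.pi * ∑ i, (t i : ℝ) * φ i) :=
        Finset.sum_coe_sort T (fun t => f t * Real.cos (2 * Real.pi * ∑ i, (t i : ℝ) * φ i))
      rw [h2]; exact h1)
    (fun t => q t.1) (fun t => (hq t.1 t.2).1) A (fun t => hqA t.1 t.2)
    (fun t t2 h => hqA2 t.1 t.2 t2.1 t2.2 (fun h' => h (Subtype.ext h'))) (L * l)
    (Nat.mul_pos hLodd.pos hlodd.pos)
  have hL' : (0:ℤ) < L := by exact_mod_cast hLodd.pos
  refine tiling_of_cells henum C ε hε.le De hDe0 ?_ al ?_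
  · -- time
    rw [hcard]
    have h1 : ∑ t : P.Ty, (C.t1 t : ℝ) / (C.h * C.q t) = ∑ t ∈ T, (t 0 : ℝ) / (L * l * q t) := by
      rw [← Finset.sum_coe_sort T (fun t => (t 0 : ℝ) / (L * l * q t))]
      apply Finset.sum_congr rfl
      intro t _
      have e1 : (C.t1 t : ℝ) = (t.1 0 : ℝ) := by
        have : ((C.t1 t : ℕ) : ℤ) = t.1 0 := hcast t.1 t.2
        exact_mod_cast this
      have e2 : (C.h : ℝ) = L * l := by
        have : C.h = L * l := rfl
        rw [this]; push_cast; ring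
      have e3 : C.q t = q t.1 := rfl
      rw [e1, e2, e3]
    rw [h1]
    have h2 : (∑ t ∈ T, (f t) ^ 2) / ((1 + e) * Pn * (1 + e1)) ≤ ∑ t ∈ T, (t 0 : ℝ) / (L * l * q t) := by
      rw [Finset.sum_div]
      apply Finset.sum_le_sum
      intro t ht
      rw [hmain t ht]
      obtain ⟨h3, h4⟩ := hth t ht
      apply div_le_div_of_nonneg_left (sq_nonneg _)
      · positivity
      · apply mul_le_mul_of_nonneg_left h4; positivity
    have h3 : (1 - e) / ((1 + e) * (1 + e1)) ≤ 2 * Pn * ∑ t ∈ T, (t 0 : ℝ) / (L * l * q t) := by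
      calc (1 - e) / ((1 + e) * (1 + e1)) ≤ (2 * ∑ t ∈ T, (f t) ^ 2) / ((1 + e) * (1 + e1)) := by
            apply div_le_div_of_nonneg_right hlow; positivity
        _ = 2 * Pn * ((∑ t ∈ T, (f t) ^ 2) / ((1 + e) * Pn * (1 + e1))) := by
            have : (1 + e1) ≠ 0 := by linarith
            field_simp
        _ ≤ _ := by apply mul_le_mul_of_nonneg_left h2; positivity
    have h4 : 1 - 3 * e ≤ (1 - e) / ((1 + e) * (1 + e1)) := by
      rw [le_div_iff₀ (by positivity)]
      have h5 : (1 + e) * (1 + e1) ≤ (1 + e) * (1 + e) := by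
        apply mul_le_mul_of_nonneg_left <;> linarith
      have h6 : (1 - 3 * e) * ((1 + e) * (1 + e1)) ≤ (1 - 3 * e) * ((1 + e) * (1 + e)) :=
        mul_le_mul_of_nonneg_left h5 (by linarith)
      nlinarith [mul_pos he0 he0, mul_pos (mul_pos he0 he0) he0]
    have h5 : Pn * De = 1 - 7 * e := by
      rw [hDe]; field_simp
    rw [h5]
    have h6 := h4.trans h3
    linarith
  · -- amplitude
    intro i k G
    have h1 := hal rho De (rho * e1) hDe0 hrho0.le hamp (fun r => uu l L i.1.1 r) (P.a i) k G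
    have h2 : rho * (1 + e) + 2 * (Fintype.card P.Ty : ℝ) * (rho * e1) ≤ 1 + ε := by
      have hcT : (Fintype.card P.Ty : ℝ) = c := by
        rw [hc, Fintype.card_coe]
      rw [hcT]
      have h3 : rho * (1 + e) ≤ (1 + 8 * e) * (1 + e) :=
        mul_le_mul_of_nonneg_right hrho1 (by linarith)
      have h4 : 2 * c * (rho * e1) ≤ 2 * ((1 + 8 * e) * e) := by
        have : rho * (c * e1) ≤ (1 + 8 * e) * e := mul_le_mul hrho1 hce1 (by positivity) (by linarith)
        calc 2 * c * (rho * e1) = 2 * (rho * (c * e1)) := by ring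
          _ ≤ _ := by linarith
      nlinarith
    refine le_trans (le_of_eq ?_) (le_trans h1 h2)
    congr 2
    apply Finset.sum_congr rfl
    intro t _
    apply Finset.sum_congr rfl
    intro j _
    have a1 : (C.t1 t : ℝ) = (t.1 0 : ℝ) := by
      have : ((C.t1 t : ℕ) : ℤ) = t.1 0 := hcast t.1 t.2
      exact_mod_cast this
    have a2 : (C.M : ℝ) = ((L * l : ℕ) : ℝ) * ((∏ t2 : P.Ty, q t2.1 : ℕ) : ℝ) := by
      have : C.M = (L * l) * ∏ t2 : P.Ty, q t2.1 := rfl
      rw [this]; push_cast; ring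
    have a3 : (C.s i t : ℝ) + C.h * C.v i t
        = ((∑ r, t.1 r * uu l L i.1.1 r : ℤ) : ℝ) + ((L * l : ℕ) : ℝ) * (t.1 0 : ℝ) * (P.a i : ℝ) := by
      have b1 := sum_uu l L hLodd.pos hlodd.pos t.1 i.1.1
      have b2 : (C.s i t : ℤ) = sS l L t.1 i.1.1 := rfl
      have b3 : C.v i t = NN l L t.1 i.1.1 / l + ((t.1 0).toNat : ℤ) * P.a i := rfl
      have b4 : C.h = L * l := rfl
      have b5 := hcast t.1 t.2
      have b6 : (C.s i t : ℤ) + C.h * C.v i t
          = (∑ r, t.1 r * uu l L i.1.1 r) + (L * l : ℕ) * t.1 0 * P.a i := by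
        rw [b1, b2, b3, b4, b5]; ring
      exact_mod_cast b6
    have a4 : C.q t = q t.1 := rfl
    have a5 : (C.h : ℝ) = ((L * l : ℕ) : ℝ) := rfl
    rw [a3, a1, a2, a4, a5]

end Crest.Agent.R075
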