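import Mathlib

open Finset

namespace Crest.Agent.R075

/-- Residues: a common integer shift `a i` making all affine residues distinct inside each class. -/
theorem exists_residues {ι W : Type} [Fintype ι] [DecidableEq ι] [Fintype W] [DecidableEq W]
    (kap : ℕ) (s : W → ι → ℕ) (q : ι → ℕ) (hq : ∀ t, 0 < q t)
    (hcop : ∀ t t2, t ≠ t2 → Nat.Coprime (q t) (q t2)) (t1 : ι → ℕ)
    (ht1 : ∀ t, Nat.Coprime (t1 t) (q t))
    (hload : ∀ t (x : ℕ), kap * (univ.filter fun w => s w t = x).card ≤ q t)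
    (V0 : W → ι → ℤ) :
    ∃ a : W × Fin kap → ℤ, ∀ t (i i2 : W × Fin kap), s i.1 t = s i2.1 t →
      V0 i.1 t + t1 t * a i ≡ V0 i2.1 t + t1 t * a i2 [ZMOD q t] → i = i2 := by
  classical
  -- injections on the classes
  have hinj : ∀ (t : ι) (x : ℕ), ∃ g : {i : W × Fin kap // s i.1 t = x} → Fin (q t),
      Function.Injective g := by
    intro t x
    have hcard : Fintype.card {i : W × Fin kap // s i.1 t = x} ≤ Fintype.card (Fin (q t)) := by
      rw [Fintype.card_fin, Fintype.card_subtype]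
      have h1 : (univ.filter fun i : W × Fin kap => s i.1 t = x)
          = (univ.filter fun w : W => s w t = x) ×ˢ (univ : Finset (Fin kap)) := by
        ext i
        simp
      rw [h1, Finset.card_product, Finset.card_univ, Fintype.card_fin, mul_comm]
      exact hload t x
    obtain ⟨g⟩ := Function.Embedding.nonempty_of_card_le hcard
    exact ⟨g, g.injective⟩
  choose g hg using hinj
  let r : ι → W × Fin kap → ℕ := fun t i => (g t (s i.1 t) ⟨i, rfl⟩ : Fin (q t)).1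
  have hr : ∀ t i, r t i < q t := fun t i => (g t (s i.1 t) ⟨i, rfl⟩).2
  have hrinj : ∀ t (i i2 : W × Fin kap), s i.1 t = s i2.1 t → r t i = r t i2 → i = i2 := by
    intro t i i2 hs h
    have key : ∀ (x : ℕ) (h1 : s i.1 t = x) (h2 : s i2.1 t = x),
        (g t x ⟨i, h1⟩).1 = (g t x ⟨i2, h2⟩).1 → i = i2 := by
      intro x h1 h2 h3
      have := hg t x (Fin.ext h3)
      exact congrArg (fun z => z.1) this
    apply key (s i2.1 t) hs rfl
    have e1 : (g t (s i2.1 t) ⟨i, hs⟩).1 = (g t (s i.1 t) ⟨i, rfl⟩).1 := by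
      have : ∀ (x : ℕ) (h1 : s i.1 t = x), (g t x ⟨i, h1⟩).1 = (g t (s i.1 t) ⟨i, rfl⟩).1 := by
        intro x h1
        subst h1
        rfl
      exact this _ hs
    rw [e1]
    exact h
  -- chinese remainder
  have hne : ∀ t, NeZero (q t) := fun t => ⟨(hq t).ne'⟩
  have hcrt : ∀ i : W × Fin kap, ∃ k : ℕ, ∀ t, (V0 i.1 t : ZMod (q t)) + (t1 t : ZMod (q t)) * (k : ZMod (q t))
      = (r t i : ZMod (q t)) := by
    intro i
    let b : ι → ℕ := fun t =>
      haveI := hne t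
      (((t1 t : ZMod (q t))⁻¹ * ((r t i : ZMod (q t)) - (V0 i.1 t : ZMod (q t)))).val)
    obtain ⟨k, hk⟩ := Nat.chineseRemainderOfFinset b q univ (fun t _ => (hq t).ne')
      (fun t _ t2 _ h => hcop t t2 h)
    refine ⟨k, fun t => ?_⟩
    have := hne t
    have h1 : (k : ZMod (q t)) = (b t : ZMod (q t)) :=
      (ZMod.natCast_eq_natCast_iff _ _ _).2 (hk t (mem_univ t))
    have h2 : (b t : ZMod (q t)) = (t1 t : ZMod (q t))⁻¹ * ((r t i : ZMod (q t)) - (V0 i.1 t : ZMod (q t))) := by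
      exact ZMod.natCast_zmod_val _
    have h3 : (t1 t : ZMod (q t)) * (t1 t : ZMod (q t))⁻¹ = 1 := ZMod.coe_mul_inv_eq_one _ (ht1 t)
    rw [h1, h2, ← mul_assoc, h3, one_mul]
    ring
  choose k hk using hcrt
  refine ⟨fun i => (k i : ℤ), ?_⟩
  intro t i i2 hs h
  apply hrinj t i i2 hs
  have h1 : ((V0 i.1 t + t1 t * (k i : ℤ) : ℤ) : ZMod (q t)) = ((V0 i2.1 t + t1 t * (k i2 : ℤ) : ℤ) : ZMod (q t)) :=
    (ZMod.intCast_eq_intCast_iff _ _ _).2 h
  push_cast at h1
  rw [hk i t, hk i2 t] at h1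
  have h2 := (ZMod.natCast_eq_natCast_iff _ _ _).1 h1
  exact Nat.ModEq.eq_of_lt_of_lt h2 (hr t i) (hr t i2)

end Crest.Agent.R075
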