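import Crest.Agent.R075.CellTiling
import Crest.Agent.R075.Residues

/-!
# Row 75, THM D: from the packing lemma to `CellData` (helper332)
-/

set_option autoImplicit false

namespace Crest.Agent.R075

open Finset

/-- block of the line `t` of the piece `g = (w, rho)` (774's `blk`) -/
def pblk {R : ℕ} (l L : ℕ) (t : Fin (R+1) → ℤ) (g : (Fin (R+1) → ZMod l) × ℕ) : ZMod l :=
  (∑ i, (t i : ZMod l) * g.1 i) + ((t 0 * g.2 / L : ℤ) : ZMod l)

/-- the integer vector `u` of a piece -/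
def uu {R : ℕ} (l L : ℕ) (g : (Fin (R+1) → ZMod l) × ℕ) (i : Fin (R+1)) : ℤ :=
  L * ((g.1 i).val : ℤ) + (if i = 0 then (g.2 : ℤ) else 0)

/-- block number as an integer -/
def NN {R : ℕ} (l L : ℕ) (t : Fin (R+1) → ℤ) (g : (Fin (R+1) → ZMod l) × ℕ) : ℤ :=
  (∑ i, t i * ((g.1 i).val : ℤ)) + t 0 * g.2 / L

def sS {R : ℕ} (l L : ℕ) (t : Fin (R+1) → ℤ) (g : (Fin (R+1) → ZMod l) × ℕ) : ℕ :=
  L * (NN l L t g % l).toNat + (t 0 * g.2 % L).toNat

lemma NN_cast {R : ℕ} (l L : ℕ) [NeZero l] (t : Fin (R+1) → ℤ) (g : (Fin (R+1) → ZMod l) × ℕ) :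
    ((NN l L t g : ℤ) : ZMod l) = pblk l L t g := by
  unfold NN pblk
  push_cast
  congr 1
  apply Finset.sum_congr rfl
  intro i _
  congr 1
  exact ZMod.natCast_zmod_val (g.1 i)

lemma NNmod_cast {R : ℕ} (l L : ℕ) [NeZero l] (t : Fin (R+1) → ℤ) (g : (Fin (R+1) → ZMod l) × ℕ) :
    (((NN l L t g % l).toNat : ℕ) : ZMod l) = pblk l L t g := by
  rw [← NN_cast]
  have hl : (0:ℤ) < l := by exact_mod_cast Nat.pos_of_ne_zero (NeZero.ne l)
  have h1 : (((NN l L t g % l).toNat : ℕ) : ℤ) = NN l L t g % l :=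
    Int.toNat_of_nonneg (Int.emod_nonneg _ hl.ne')
  have h2 : (((NN l L t g % l).toNat : ℕ) : ZMod l) = ((((NN l L t g % l).toNat : ℕ) : ℤ) : ZMod l) := by
    push_cast; rfl
  rw [h2, h1]
  simp

lemma sum_uu {R : ℕ} (l L : ℕ) (hL : 0 < L) (hl : 0 < l) (t : Fin (R+1) → ℤ)
    (g : (Fin (R+1) → ZMod l) × ℕ) :
    ∑ i, t i * uu l L g i = (sS l L t g : ℤ) + (L * l : ℕ) * (NN l L t g / l) := by
  have hL' : (0:ℤ) < L := by exact_mod_cast hL
  have hl' : (0:ℤ) < l := by exact_mod_cast hl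
  have h1 : ∑ i, t i * uu l L g i = L * (∑ i, t i * ((g.1 i).val : ℤ)) + t 0 * g.2 := by
    unfold uu
    simp only [mul_add, Finset.sum_add_distrib]
    congr 1
    · rw [Finset.mul_sum]; apply Finset.sum_congr rfl; intro i _; ring
    · simp
  have h2 : (((NN l L t g % l).toNat : ℕ) : ℤ) = NN l L t g % l :=
    Int.toNat_of_nonneg (Int.emod_nonneg _ hl'.ne')
  have h3 : (((t 0 * g.2 % L).toNat : ℕ) : ℤ) = t 0 * g.2 % L :=
    Int.toNat_of_nonneg (Int.emod_nonneg _ hL'.ne')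
  unfold sS
  push_cast
  rw [h1, h2, h3]
  have h4 := Int.emod_add_mul_ediv (NN l L t g) l
  have h5 := Int.emod_add_mul_ediv (t 0 * g.2) L
  have h6 : NN l L t g = (∑ i, t i * ((g.1 i).val : ℤ)) + t 0 * g.2 / L := rfl
  calc (L:ℤ) * (∑ i, t i * ((g.1 i).val : ℤ)) + t 0 * g.2
      = L * (NN l L t g - t 0 * g.2 / L) + t 0 * g.2 := by rw [h6]; ring
    _ = L * NN l L t g - L * (t 0 * g.2 / L) + (t 0 * g.2 % L + L * (t 0 * g.2 / L)) := by
        rw [h5]; ring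
    _ = L * NN l L t g + t 0 * g.2 % L := by ring
    _ = L * (NN l L t g % l + l * (NN l L t g / l)) + t 0 * g.2 % L := by rw [h4]
    _ = _ := by ring

/-- data coming from the packing lemma and the torsion lemma -/
structure PackData (R : ℕ) where
  T : Finset (Fin (R+1) → ℤ)
  hpos : ∀ t ∈ T, 1 ≤ t 0
  L : ℕ
  l : ℕ
  L_odd : Odd L
  l_odd : Odd l
  hdvd : ∀ t ∈ T, t 0 ∣ (L : ℤ)
  sigma : ZMod l → (Fin (R+1) → ℤ)
  hsigma : ∀ B, sigma (-1 - B) = - sigma B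
  W : Finset ((Fin (R+1) → ZMod l) × ℕ)
  hW : ∀ g ∈ W, ∀ t ∈ T, sigma (pblk l L t g) = t
  kap : ℕ
  q : (Fin (R+1) → ℤ) → ℕ
  q_odd : ∀ t ∈ T, Odd (q t)
  q_cop : ∀ t ∈ T, ∀ t2 ∈ T, t ≠ t2 → Nat.Coprime (q t) (q t2)
  q_copL : ∀ t ∈ T, Nat.Coprime (t 0).toNat (q t)
  load : ∀ t ∈ T, ∀ (B : ZMod l) (r : ℤ),
    kap * (W.filter fun g => pblk l L t g = B ∧ t 0 * g.2 % L = r).card ≤ q t

namespace PackData

variable {R : ℕ} (P : PackData R)

abbrev Ty : Type := {t : Fin (R+1) → ℤ // t ∈ P.T}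
abbrev Wt : Type := {g : (Fin (R+1) → ZMod P.l) × ℕ // g ∈ P.W}

lemma L_pos : 0 < P.L := P.L_odd.pos
lemma l_pos : 0 < P.l := P.l_odd.pos

lemma exists_a : ∃ a : P.Wt × Fin P.kap → ℤ, ∀ (t : P.Ty) (i i2 : P.Wt × Fin P.kap),
    sS P.l P.L t.1 i.1.1 = sS P.l P.L t.1 i2.1.1 →
      (NN P.l P.L t.1 i.1.1 / P.l) + (t.1 0).toNat * a i
        ≡ (NN P.l P.L t.1 i2.1.1 / P.l) + (t.1 0).toNat * a i2 [ZMOD P.q t.1] → i = i2 := by
  classical
  have : NeZero P.l := ⟨P.l_pos.ne'⟩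
  have hL' : (0:ℤ) < P.L := by exact_mod_cast P.L_pos
  have hl' : (0:ℤ) < P.l := by exact_mod_cast P.l_pos
  apply exists_residues P.kap (fun (w : P.Wt) (t : P.Ty) => sS P.l P.L t.1 w.1) (fun t => P.q t.1)
    (fun t => (P.q_odd t.1 t.2).pos)
    (fun t t2 h => P.q_cop t.1 t.2 t2.1 t2.2 (fun h' => h (Subtype.ext h')))
    (fun t => (t.1 0).toNat) (fun t => P.q_copL t.1 t.2) _ (fun w t => NN P.l P.L t.1 w.1 / P.l)
  intro t x
  refine le_trans ?_ (P.load t.1 t.2 ((x / P.L : ℕ) : ZMod P.l) ((x % P.L : ℕ) : ℤ))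
  apply Nat.mul_le_mul_left
  rw [← Finset.card_map (Function.Embedding.subtype _)]
  apply Finset.card_le_card
  intro g hg
  simp only [mem_map, mem_filter, mem_univ, true_and, Function.Embedding.subtype_apply] at hg
  obtain ⟨w, hw, rfl⟩ := hg
  rw [mem_filter]
  refine ⟨w.2, ?_⟩
  have hr : (t.1 0 * w.1.2 % P.L).toNat < P.L := by
    have := Int.emod_lt_of_pos (t.1 0 * w.1.2) hL'
    have := Int.emod_nonneg (t.1 0 * w.1.2) hL'.ne'
    omega
  have h1 : x / P.L = (NN P.l P.L t.1 w.1 % P.l).toNat := by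
    rw [← hw]; unfold sS
    rw [Nat.mul_add_div P.L_pos, Nat.div_eq_of_lt hr, add_zero]
  have h2 : x % P.L = (t.1 0 * w.1.2 % P.L).toNat := by
    rw [← hw]; unfold sS
    rw [Nat.mul_add_mod, Nat.mod_eq_of_lt hr]
  refine ⟨?_, ?_⟩
  · rw [h1, NNmod_cast]
  · rw [h2, Int.toNat_of_nonneg (Int.emod_nonneg _ hL'.ne')]

noncomputable def a : P.Wt × Fin P.kap → ℤ := P.exists_a.choose

noncomputable def cells : CellData P.Ty (P.Wt × Fin P.kap) where
  L := P.L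
  l := P.l
  L_odd := P.L_odd
  l_odd := P.l_odd
  t1 := fun t => (t.1 0).toNat
  t1_pos := by
    intro t
    have := P.hpos t.1 t.2
    omega
  t1_dvd := by
    intro t
    have h1 := P.hpos t.1 t.2
    have h2 := P.hdvd t.1 t.2
    have h3 : (((t.1 0).toNat : ℕ) : ℤ) = t.1 0 := Int.toNat_of_nonneg (by omega)
    rw [← h3] at h2
    exact_mod_cast h2
  tau := by
    classical
    exact fun B => if h : P.sigma (B : ZMod P.l) ∈ P.T then some ⟨_, h⟩ else none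
  tau_symm := by
    classical
    intro B hB t ht
    split_ifs at ht with h
    rw [dif_neg]
    intro h2
    have h3 : ((P.l - 1 - B : ℕ) : ZMod P.l) = -1 - (B : ZMod P.l) := by
      have e : (P.l - 1 - B) + 1 + B = P.l := by omega
      have e2 : (((P.l - 1 - B) + 1 + B : ℕ) : ZMod P.l) = 0 := by rw [e]; simp
      push_cast at e2
      linear_combination e2
    rw [h3, P.hsigma] at h2
    have h4 := P.hpos _ h
    have h5 := P.hpos _ h2
    simp only [Pi.neg_apply] at h5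
    omega
  s := fun i t => sS P.l P.L t.1 i.1.1
  s_blk := by
    classical
    have : NeZero P.l := ⟨P.l_pos.ne'⟩
    intro i t
    have hL' : (0:ℤ) < P.L := by exact_mod_cast P.L_pos
    have hl' : (0:ℤ) < P.l := by exact_mod_cast P.l_pos
    refine ⟨(NN P.l P.L t.1 i.1.1 % P.l).toNat, ?_, (t.1 0 * i.1.1.2 % P.L).toNat, ?_, ?_, rfl, ?_⟩
    · have := Int.emod_lt_of_pos (NN P.l P.L t.1 i.1.1) hl'
      have := Int.emod_nonneg (NN P.l P.L t.1 i.1.1) hl'.ne'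
      omega
    · have := Int.emod_lt_of_pos (t.1 0 * i.1.1.2) hL'
      have := Int.emod_nonneg (t.1 0 * i.1.1.2) hL'.ne'
      omega
    · have h1 := P.hpos t.1 t.2
      have h3 : (((t.1 0).toNat : ℕ) : ℤ) = t.1 0 := Int.toNat_of_nonneg (by omega)
      have h4 : (((t.1 0 * i.1.1.2 % P.L).toNat : ℕ) : ℤ) = t.1 0 * i.1.1.2 % P.L :=
        Int.toNat_of_nonneg (Int.emod_nonneg _ hL'.ne')
      have h5 : t.1 0 ∣ t.1 0 * i.1.1.2 % P.L := by
        rw [Int.emod_def]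
        exact dvd_sub (Dvd.intro _ rfl) (dvd_mul_of_dvd_left (P.hdvd t.1 t.2) _)
      rw [← Int.natCast_dvd_natCast, h3, h4]
      exact h5
    · have h1 := NNmod_cast P.l P.L t.1 i.1.1
      have h2 := P.hW i.1.1 i.1.2 t.1 t.2
      have h3 : P.sigma (((NN P.l P.L t.1 i.1.1 % P.l).toNat : ℕ) : ZMod P.l) = t.1 := by
        rw [h1, h2]
      rw [dif_pos (by rw [h3]; exact t.2)]
      congr 1
      exact Subtype.ext h3
  q := fun t => P.q t.1
  q_odd := fun t => P.q_odd t.1 t.2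
  v := fun i t => NN P.l P.L t.1 i.1.1 / P.l + (t.1 0).toNat * P.a i
  v_inj := fun t i i2 h1 h2 => P.exists_a.choose_spec t i i2 h1 h2

end PackData

end Crest.Agent.R075
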