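import Crest.Agent.R075.Fold

/-!
# Row 75, THM D: enumeration of a finite exact tiling of `[0,M)` (helper332)
-/

set_option autoImplicit false

namespace Crest.Agent.R075

open Finset

theorem enum_tiles : EnumTiles := by
  classical
  intro I _ M st len hlen hle hcov hM
  -- the unique interval containing `c`
  have hidx : ∀ c : ℕ, ∃ i : I, c < M → (st i ≤ c ∧ c < st i + len i) ∧
      ∀ j, (st j ≤ c ∧ c < st j + len j) → j = i := by
    intro c
    by_cases hc : c < M
    · obtain ⟨i, hi, hu⟩ := hcov c hc
      exact ⟨i, fun _ => ⟨hi, hu⟩⟩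
    · obtain ⟨i, -, -⟩ := hcov 0 hM
      exact ⟨i, fun h => absurd h hc⟩
  choose idx hidx using hidx
  have halign : ∀ p, p < M → st (idx p) = p → p + len (idx p) < M →
      st (idx (p + len (idx p))) = p + len (idx p) := by
    intro p hp hs hp'
    obtain ⟨⟨h1, h2⟩, h3⟩ := hidx (p + len (idx p)) hp'
    obtain ⟨⟨h4, h5⟩, h6⟩ := hidx p hp
    by_contra hne
    have hlt : st (idx (p + len (idx p))) < p + len (idx p) := lt_of_le_of_ne h1 hne
    have hl := hlen (idx p)
    have hp1 : p + len (idx p) - 1 < M := by omega
    obtain ⟨-, h7⟩ := hidx (p + len (idx p) - 1) hp1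
    have e1 := h7 (idx (p + len (idx p))) ⟨by omega, by omega⟩
    have e2 := h7 (idx p) ⟨by omega, by omega⟩
    have e3 : idx (p + len (idx p)) = idx p := e1.trans e2.symm
    rw [e3] at h2
    omega
  let pos : ℕ → ℕ := fun l =>
    Nat.rec (motive := fun _ => ℕ) 0 (fun _ (p : ℕ) => if p < M then p + len (idx p) else p) l
  have hpos0 : pos 0 = 0 := rfl
  have hposS : ∀ l, pos (l+1) = if pos l < M then pos l + len (idx (pos l)) else pos l := fun l => rfl
  have hinv : ∀ l, pos l ≤ M ∧ (pos l < M → st (idx (pos l)) = pos l) := by
    intro l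
    induction l with
    | zero =>
      rw [hpos0]
      refine ⟨Nat.zero_le _, fun h => ?_⟩
      obtain ⟨⟨h1, -⟩, -⟩ := hidx 0 h
      omega
    | succ l ih =>
      rw [hposS l]
      by_cases h : pos l < M
      · rw [if_pos h]
        have h1 := ih.2 h
        have h2 := hle (idx (pos l))
        refine ⟨by omega, fun h3 => halign _ h h1 h3⟩
      · rw [if_neg h]; exact ih
  have hmono : ∀ l, pos l < M → pos l < pos (l+1) := by
    intro l h
    rw [hposS l, if_pos h]
    have := hlen (idx (pos l))
    omega
  have hge : ∀ l, min l M ≤ pos l := by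
    intro l
    induction l with
    | zero => simp
    | succ l ih =>
      by_cases h : pos l < M
      · have := hmono l h
        omega
      · have h1 : pos (l+1) = pos l := by rw [hposS l, if_neg h]
        have := (hinv l).1
        omega
  have hex : ∃ l, pos l = M := ⟨M, by have := hge M; have := (hinv M).1; omega⟩
  set n := Nat.find hex with hn
  have hnM : pos n = M := Nat.find_spec hex
  have hlt : ∀ l < n, pos l < M := by
    intro l hl
    have h1 := Nat.find_min hex hl
    have h2 := (hinv l).1
    omega
  have hmono2 : ∀ l l', l < l' → l' ≤ n → pos l < pos l' := by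
    intro l l' hll
    induction l' with
    | zero => omega
    | succ l' ih =>
      intro hl'
      have h1 := hmono l' (hlt l' (by omega))
      rcases Nat.lt_or_ge l l' with h2 | h2
      · have := ih h2 (by omega); omega
      · have : l = l' := by omega
        subst this; exact h1
  refine ⟨n, fun l => idx (pos l), pos, hpos0, hnM, ?_, ?_⟩
  · intro l hl
    have h1 := hlt l hl
    have h2 := (hinv l).2 h1
    refine ⟨h2.symm, ?_⟩
    rw [hposS l, if_pos h1, h2]
  · intro i
    have h1 := hlen i
    have h2 := hle i
    have hsi : st i < M := by omega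
    -- largest l with pos l ≤ st i
    have hex2 : ∃ l, st i < pos l := ⟨n, by omega⟩
    set k := Nat.find hex2 with hk
    have hk1 : st i < pos k := Nat.find_spec hex2
    have hk0 : k ≠ 0 := by
      intro h0; rw [h0, hpos0] at hk1; omega
    obtain ⟨l, hl⟩ := Nat.exists_eq_succ_of_ne_zero hk0
    have hkn : k ≤ n := Nat.find_min' hex2 (by omega)
    have hl2 : pos l ≤ st i := by
      have := Nat.find_min hex2 (m := l) (by omega)
      omega
    have hln : l < n := by omega
    refine ⟨l, ⟨hln, ?_⟩, ?_⟩
    · have h3 := hlt l hln
      have h4 := (hinv l).2 h3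
      have h5 : pos (l+1) = pos l + len (idx (pos l)) := by rw [hposS l, if_pos h3]
      have h6 : pos k = pos (l+1) := by rw [hl]
      obtain ⟨-, hu⟩ := hidx (st i) hsi
      have e1 := hu i ⟨le_refl _, by omega⟩
      have e2 := hu (idx (pos l)) ⟨by omega, by omega⟩
      show idx (pos l) = i
      rw [e2, ← e1]
    · rintro l' ⟨hl', hee⟩
      have h3 := (hinv l').2 (hlt l' hl')
      have h4 := (hinv l).2 (hlt l hln)
      have h3' : st i = pos l' := by rw [← h3]; exact congrArg st hee.symm
      rcases Nat.lt_trichotomy l l' with h | h | h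
      · -- pos (l+1) ≤ pos l' = st i < pos (l+1)
        have h6 : pos (l+1) ≤ pos l' := by
          rcases Nat.lt_or_ge (l+1) l' with h7 | h7
          · exact (hmono2 _ _ h7 (by omega)).le
          · have : l + 1 = l' := by omega
            rw [this]
        have h8 : pos k = pos (l+1) := by rw [hl]
        omega
      · exact h.symm
      · have h9 := hmono2 l' l h hln.le
        -- st i = pos l' < pos l ≤ st i
        omega

end Crest.Agent.R075
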