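import Crest.Agent.R075.Fou

/-! Row 75: Parseval for polynomials on the circle (helper544). -/

set_option autoImplicit false

open MeasureTheory Set intervalIntegral

namespace Crest.Agent.R075

/-- Parseval: `∫ |∑ c_k e(kv)|^2 = ∑ c_k^2`. -/
theorem parseval_eq (N : ℕ) (c : Fin N → ℝ) :
    (∫ v in (-(1 / 2) : ℝ)..(1 / 2), ‖∑ k : Fin N, (c k : ℂ) * ee v ^ (k : ℕ)‖ ^ 2) = ∑ k, (c k) ^ 2 := by
  have e1 : ∀ v : ℝ, ((‖∑ k : Fin N, (c k : ℂ) * ee v ^ (k : ℕ)‖ ^ 2 : ℝ) : ℂ)
      = ∑ k : Fin N, ∑ l : Fin N, ((c k : ℂ) * (c l : ℂ)) * ee ((((k : ℕ) : ℤ) - ((l : ℕ) : ℤ) : ℤ) * v) := by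
    intro v
    rw [Complex.ofReal_pow, ← Complex.mul_conj', map_sum, Finset.sum_mul_sum]
    apply Finset.sum_congr rfl
    intro k _
    apply Finset.sum_congr rfl
    intro l _
    rw [map_mul, map_pow, Complex.conj_ofReal, ee_conj, ← ee_mul_nat, ← ee_mul_nat]
    have : ee ((((k : ℕ) : ℤ) - ((l : ℕ) : ℤ) : ℤ) * v) = ee ((k : ℕ) * v) * ee ((l : ℕ) * -v) := by
      rw [← ee_add]
      congr 1
      push_cast
      ring
    rw [this]
    ring
  have e2 : (((∫ v in (-(1 / 2) : ℝ)..(1 / 2), ‖∑ k : Fin N, (c k : ℂ) * ee v ^ (k : ℕ)‖ ^ 2 : ℝ)) : ℂ)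
      = ((∑ k, (c k) ^ 2 : ℝ) : ℂ) := by
    rw [← intervalIntegral.integral_ofReal]
    simp_rw [e1]
    rw [intervalIntegral.integral_finsetSum]
    swap
    · intro k _
      apply Continuous.intervalIntegrable
      apply continuous_finsetSum
      intro l _
      exact continuous_const.mul (ee_continuous.comp (continuous_const.mul continuous_id))
    rw [Complex.ofReal_sum]
    simp only [Complex.ofReal_pow]
    apply Finset.sum_congr rfl
    intro k _
    rw [intervalIntegral.integral_finsetSum]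
    swap
    · intro l _
      exact (continuous_const.mul (ee_continuous.comp (continuous_const.mul
        continuous_id))).intervalIntegrable _ _
    have e3 : ∀ l : Fin N, (∫ v in (-(1 / 2) : ℝ)..(1 / 2), ((c k : ℂ) * (c l : ℂ)) *
        ee ((((k : ℕ) : ℤ) - ((l : ℕ) : ℤ) : ℤ) * v)) = if l = k then (c k : ℂ) ^ 2 else 0 := by
      intro l
      rw [intervalIntegral.integral_const_mul, Fou.int_ee]
      by_cases h : l = k
      · subst h; simp; ring
      · rw [if_neg h, if_neg, mul_zero]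
        intro h2
        apply h
        apply Fin.ext
        omega
    simp_rw [e3]
    simp
  exact_mod_cast e2

theorem parseval_lower (N : ℕ) (c : Fin N → ℝ) (A : ℝ) (hA : 0 ≤ A)
    (h : ∀ z : ℂ, ‖z‖ = 1 → A ≤ ‖∑ k : Fin N, (c k : ℂ) * z ^ (k : ℕ)‖) : A ^ 2 ≤ ∑ k, (c k) ^ 2 := by
  rw [← parseval_eq]
  have hc : Continuous (fun v : ℝ => ‖∑ k : Fin N, (c k : ℂ) * ee v ^ (k : ℕ)‖ ^ 2) := by
    apply Continuous.pow
    apply Continuous.norm
    apply continuous_finsetSum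
    intro k _
    exact continuous_const.mul (ee_continuous.pow _)
  have h1 : (∫ _v in (-(1 / 2) : ℝ)..(1 / 2), A ^ 2) = A ^ 2 := by
    simp
    ring
  rw [← h1]
  apply intervalIntegral.integral_mono_on (by norm_num) (continuous_const.intervalIntegrable _ _)
    (hc.intervalIntegrable _ _)
  intro v _
  exact pow_le_pow_left₀ hA (h _ (norm_ee v)) 2

theorem parseval_upper (N : ℕ) (c : Fin N → ℝ) (A : ℝ)
    (h : ∀ z : ℂ, ‖z‖ = 1 → ‖∑ k : Fin N, (c k : ℂ) * z ^ (k : ℕ)‖ ≤ A) : ∑ k, (c k) ^ 2 ≤ A ^ 2 := by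
  rw [← parseval_eq]
  have hc : Continuous (fun v : ℝ => ‖∑ k : Fin N, (c k : ℂ) * ee v ^ (k : ℕ)‖ ^ 2) := by
    apply Continuous.pow
    apply Continuous.norm
    apply continuous_finsetSum
    intro k _
    exact continuous_const.mul (ee_continuous.pow _)
  have h1 : (∫ _v in (-(1 / 2) : ℝ)..(1 / 2), A ^ 2) = A ^ 2 := by
    simp
    ring
  rw [← h1]
  apply intervalIntegral.integral_mono_on (by norm_num) (hc.intervalIntegrable _ _)
    (continuous_const.intervalIntegrable _ _)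
  intro v _
  exact pow_le_pow_left₀ (norm_nonneg _) (h _ (norm_ee v)) 2

end Crest.Agent.R075
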