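import Crest.Agent.R075.RoundFull

/-!
Row 75, THM S (S4 + final): weak Bernstein inequality and rounding on the whole circle.
-/

set_option autoImplicit false

namespace Crest.Agent.R075.Round

open Finset

section bern

/-- the polynomial as a function -/
noncomputable def pol {N : ℕ} (d : Fin N → ℂ) (z : ℂ) : ℂ := ∑ k : Fin N, d k * z ^ (k : ℕ)

lemma pol_differentiable {N : ℕ} (d : Fin N → ℂ) : Differentiable ℂ (pol d) := by
  unfold pol
  fun_prop

lemma norm_le_of_circle {f : ℂ → ℂ} (hf : Differentiable ℂ f) {S : ℝ}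
    (hS : ∀ z : ℂ, ‖z‖ = 1 → ‖f z‖ ≤ S) (w : ℂ) (hw : ‖w‖ ≤ 1) : ‖f w‖ ≤ S := by
  have h := Complex.norm_le_of_forall_mem_frontier_norm_le (U := Metric.ball (0 : ℂ) 1)
    (f := f) (C := S) Metric.isBounded_ball hf.diffContOnCl
  apply h
  · intro z hz
    rw [frontier_ball (0 : ℂ) one_ne_zero, mem_sphere_zero_iff_norm] at hz
    exact hS z hz
  · rw [closure_ball (0 : ℂ) one_ne_zero, mem_closedBall_zero_iff]
    exact hw

lemma pol_outside {N : ℕ} (hN : 0 < N) (d : Fin N → ℂ) {S : ℝ}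
    (hS : ∀ z : ℂ, ‖z‖ = 1 → ‖pol d z‖ ≤ S) (w : ℂ) (hw : 1 ≤ ‖w‖) :
    ‖pol d w‖ ≤ ‖w‖ ^ (N - 1) * S := by
  set q : ℂ → ℂ := fun ζ => ∑ k : Fin N, d k * ζ ^ (N - 1 - (k : ℕ)) with hq
  have hqd : Differentiable ℂ q := by
    simp only [hq]; fun_prop
  have hrel : ∀ ζ : ℂ, ζ ≠ 0 → q ζ = ζ ^ (N - 1) * pol d ζ⁻¹ := by
    intro ζ hζ
    simp only [hq, pol]
    rw [Finset.mul_sum]
    apply Finset.sum_congr rfl
    intro k _
    have hk : (k : ℕ) ≤ N - 1 := by have := k.2; omega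
    have : ζ ^ (N - 1) = ζ ^ (N - 1 - (k : ℕ)) * ζ ^ (k : ℕ) := by
      rw [← pow_add]; congr 1; omega
    rw [this, inv_pow]
    field_simp
  have hqS : ∀ z : ℂ, ‖z‖ = 1 → ‖q z‖ ≤ S := by
    intro z hz
    have hz0 : z ≠ 0 := by
      intro h; rw [h, norm_zero] at hz; norm_num at hz
    rw [hrel z hz0, norm_mul, norm_pow, hz, one_pow, one_mul]
    apply hS
    rw [norm_inv, hz, inv_one]
  have hw0 : w ≠ 0 := by
    intro h; rw [h, norm_zero] at hw; norm_num at hw
  have h1 := norm_le_of_circle hqd hqS w⁻¹ (by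
    rw [norm_inv]; exact inv_le_one_of_one_le₀ hw)
  have h2 := hrel w⁻¹ (inv_ne_zero hw0)
  rw [inv_inv] at h2
  have h3 : pol d w = w ^ (N - 1) * q w⁻¹ := by
    rw [h2, inv_pow]
    field_simp
  rw [h3, norm_mul, norm_pow]
  apply mul_le_mul_of_nonneg_left h1 (by positivity)

lemma weak_bernstein {N : ℕ} (hN : 0 < N) (d : Fin N → ℂ) {S : ℝ}
    (hS : ∀ z : ℂ, ‖z‖ = 1 → ‖pol d z‖ ≤ S) (z : ℂ) (hz : ‖z‖ = 1) :
    ‖deriv (pol d) z‖ ≤ 3 * N * S := by
  have hN0 : (0 : ℝ) < N := by exact_mod_cast hN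
  have hS0 : 0 ≤ S := (norm_nonneg _).trans (hS 1 (by simp))
  have hR : (0 : ℝ) < 1 / N := by positivity
  have h := Complex.norm_deriv_le_of_forall_mem_sphere_norm_le (c := z) (R := 1 / N)
    (C := 3 * S) (f := pol d) hR (pol_differentiable d).diffContOnCl ?_
  · calc ‖deriv (pol d) z‖ ≤ 3 * S / (1 / N) := h
      _ = 3 * N * S := by field_simp
  · intro w hw
    rw [mem_sphere_iff_norm] at hw
    by_cases hw1 : ‖w‖ ≤ 1
    · have := norm_le_of_circle (pol_differentiable d) hS w hw1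
      linarith
    · push Not at hw1
      have h1 := pol_outside hN d hS w hw1.le
      have h2 : ‖w‖ ≤ 1 + 1 / N := by
        calc ‖w‖ = ‖z + (w - z)‖ := by congr 1; ring
          _ ≤ ‖z‖ + ‖w - z‖ := norm_add_le _ _
          _ = 1 + 1 / N := by rw [hz, hw]
      have h3 : ‖w‖ ^ (N - 1) ≤ 3 := by
        calc ‖w‖ ^ (N - 1) ≤ (1 + 1 / (N : ℝ)) ^ (N - 1) :=
              pow_le_pow_left₀ (norm_nonneg _) h2 _
          _ ≤ (1 + 1 / (N : ℝ)) ^ N := by
              apply pow_le_pow_right₀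
              · have : (0 : ℝ) ≤ 1 / N := by positivity
                linarith
              · omega
          _ ≤ (Real.exp (1 / N)) ^ N := by
              apply pow_le_pow_left₀ (by positivity)
              have := Real.add_one_le_exp (1 / (N : ℝ))
              linarith
          _ = Real.exp 1 := by
              rw [← Real.exp_nat_mul]; congr 1; field_simp
          _ ≤ 3 := by
              have := Real.exp_one_lt_d9
              linarith
      calc ‖pol d w‖ ≤ ‖w‖ ^ (N - 1) * S := h1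
        _ ≤ 3 * S := mul_le_mul_of_nonneg_right h3 hS0

lemma pol_lipschitz {N : ℕ} (hN : 0 < N) (d : Fin N → ℂ) {S : ℝ}
    (hS : ∀ z : ℂ, ‖z‖ = 1 → ‖pol d z‖ ≤ S) (x y : ℝ) :
    ‖pol d (Complex.exp (x * Complex.I)) - pol d (Complex.exp (y * Complex.I))‖ ≤
      3 * N * S * |x - y| := by
  have hder : ∀ t : ℝ, HasDerivAt (fun t : ℝ => pol d (Complex.exp (t * Complex.I)))
      (deriv (pol d) (Complex.exp (t * Complex.I)) * (Complex.exp (t * Complex.I) * Complex.I)) t := by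
    intro t
    have h1 : HasDerivAt (fun t : ℝ => (t : ℂ) * Complex.I) Complex.I t := by
      have := (Complex.ofRealCLM.hasDerivAt (x := t)).mul_const Complex.I
      simpa using this
    have h2 := h1.cexp
    have h3 := ((pol_differentiable d) (Complex.exp (t * Complex.I))).hasDerivAt
    exact HasDerivAt.comp t h3 h2
  have hbound : ∀ t ∈ (Set.univ : Set ℝ),
      ‖deriv (pol d) (Complex.exp (t * Complex.I)) * (Complex.exp (t * Complex.I) * Complex.I)‖ ≤
        3 * N * S := by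
    intro t _
    rw [norm_mul, norm_mul, Complex.norm_exp_ofReal_mul_I, Complex.norm_I, mul_one, mul_one]
    exact weak_bernstein hN d hS _ (Complex.norm_exp_ofReal_mul_I t)
  have := Convex.norm_image_sub_le_of_norm_hasDerivWithin_le
    (f := fun t : ℝ => pol d (Complex.exp (t * Complex.I)))
    (s := Set.univ) (fun t _ => (hder t).hasDerivWithinAt) hbound convex_univ
    (Set.mem_univ y) (Set.mem_univ x)
  simpa [Real.norm_eq_abs] using this

/-- grid to circle. -/
lemma circle_of_grid {N : ℕ} (hN : 0 < N) (d : Fin N → ℂ) (G : ℝ)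
    (hG : ∀ j : ℤ, |j| ≤ 16 * N →
      ‖pol d (Complex.exp ((2 * Real.pi * j / (32 * N) : ℝ) * Complex.I))‖ ≤ G)
    (z : ℂ) (hz : ‖z‖ = 1) : ‖pol d z‖ ≤ 2 * G := by
  have hN0 : (0 : ℝ) < N := by exact_mod_cast hN
  -- maximum point
  obtain ⟨z₀, hz₀, hmax⟩ := (isCompact_sphere (0 : ℂ) 1).exists_isMaxOn
    ⟨(1 : ℂ), by simp⟩ ((pol_differentiable d).continuous.norm.continuousOn)
  set S := ‖pol d z₀‖ with hSdef
  have hS : ∀ z : ℂ, ‖z‖ = 1 → ‖pol d z‖ ≤ S := by
    intro z hz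
    exact hmax (mem_sphere_zero_iff_norm.mpr hz)
  have hz₀' : ‖z₀‖ = 1 := mem_sphere_zero_iff_norm.mp hz₀
  set θ := Complex.arg z₀ with hθ
  have hzθ : z₀ = Complex.exp (θ * Complex.I) := by
    have := Complex.norm_mul_exp_arg_mul_I z₀
    rw [hz₀'] at this
    simpa using this.symm
  have hpi := Real.pi_pos
  set y : ℝ := θ * (16 * N) / Real.pi with hy
  set j : ℤ := round y with hj
  have hyabs : |y| ≤ 16 * N := by
    have h1 := Complex.abs_arg_le_pi z₀
    rw [hy, abs_div, abs_mul, abs_of_pos hpi, div_le_iff₀ hpi]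
    rw [abs_of_pos (by positivity : (0 : ℝ) < 16 * N)]
    rw [← hθ] at h1
    nlinarith
  have hjy : |y - j| ≤ 1 / 2 := abs_sub_round y
  have hjabs : |j| ≤ 16 * N := by
    have h1 : |(j : ℝ)| < 16 * N + 1 := by
      have : |(j : ℝ)| ≤ |y| + |y - j| := by
        have := abs_sub_abs_le_abs_sub (j : ℝ) y
        rw [abs_sub_comm] at this
        linarith
      linarith
    have h2 : |j| < 16 * N + 1 := by exact_mod_cast h1
    omega
  have hgrid := hG j hjabs
  set φ : ℝ := 2 * Real.pi * j / (32 * N) with hφ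
  have hdist : |θ - φ| ≤ Real.pi / (32 * N) := by
    have : θ - φ = (y - j) * (Real.pi / (16 * N)) := by
      rw [hy, hφ]; field_simp; ring
    rw [this, abs_mul, abs_of_pos (by positivity : 0 < Real.pi / (16 * N))]
    calc |y - j| * (Real.pi / (16 * N)) ≤ 1 / 2 * (Real.pi / (16 * N)) :=
          mul_le_mul_of_nonneg_right hjy (by positivity)
      _ = Real.pi / (32 * N) := by field_simp; norm_num
  have hlip := pol_lipschitz hN d hS θ φ
  have hS0 : 0 ≤ S := norm_nonneg _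
  have hfin : S ≤ G + 1 / 2 * S := by
    have h1 : S ≤ ‖pol d (Complex.exp (φ * Complex.I))‖ + 3 * N * S * |θ - φ| := by
      calc S = ‖pol d (Complex.exp (θ * Complex.I))‖ := by rw [hSdef, ← hzθ]
        _ = ‖pol d (Complex.exp (φ * Complex.I)) + (pol d (Complex.exp (θ * Complex.I)) -
              pol d (Complex.exp (φ * Complex.I)))‖ := by congr 1; ring
        _ ≤ ‖pol d (Complex.exp (φ * Complex.I))‖ + ‖pol d (Complex.exp (θ * Complex.I)) -
              pol d (Complex.exp (φ * Complex.I))‖ := norm_add_le _ _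
        _ ≤ _ := by linarith
    have h2 : 3 * N * S * |θ - φ| ≤ 1 / 2 * S := by
      calc 3 * N * S * |θ - φ| ≤ 3 * N * S * (Real.pi / (32 * N)) :=
            mul_le_mul_of_nonneg_left hdist (by positivity)
        _ = (3 * Real.pi / 32) * S := by field_simp
        _ ≤ 1 / 2 * S := by
            apply mul_le_mul_of_nonneg_right _ hS0
            have := Real.pi_lt_d2
            linarith
    linarith
  have := hS z hz
  linarith

end bern

/-- THM S: rounding. -/
theorem rounding (eps : ℝ) (he : 0 < eps) : ∃ delta : ℝ, 0 < delta ∧ ∃ N0 : ℕ, ∀ N : ℕ, N0 ≤ N →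
    ∀ b : Fin N → ℝ, (∀ k, |b k| ≤ 1) → (∑ k, (1 - (b k) ^ 2)) ≤ delta * N →
    ∃ a : Fin N → ℤˣ, ∀ z : ℂ, ‖z‖ = 1 →
      ‖∑ k : Fin N, ((((a k : ℤ) : ℂ)) - ((b k : ℝ) : ℂ)) * z ^ (k : ℕ)‖ ≤ eps * Real.sqrt N := by
  obtain ⟨K, hK, h⟩ := round_functionals 66 (by norm_num)
  set η : ℝ := eps / (8 * K) with hη
  have hη0 : 0 < η := by positivity
  refine ⟨min 1 (η ^ 4), by positivity, 1, ?_⟩
  intro N hN b hb hsum
  have hN' : 0 < N := hN
  have hN0 : (0 : ℝ) < N := by exact_mod_cast hN'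
  set δ : ℝ := min 1 (η ^ 4) with hδ
  have hδ0 : 0 < δ := by positivity
  have hδ1 : δ ≤ 1 := min_le_left _ _
  have hδη : Real.sqrt (Real.sqrt δ) ≤ η := sqrt_sqrt_le hη0.le (min_le_right _ _)
  let κ := {j : ℤ // j ∈ Finset.Icc (-(16 * (N : ℤ))) (16 * N)} × Bool
  let v : κ → Fin N → ℝ := fun i k =>
    if i.2 then Real.cos ((k : ℕ) * (2 * Real.pi * (i.1.1 : ℝ) / (32 * N)))
      else Real.sin ((k : ℕ) * (2 * Real.pi * (i.1.1 : ℝ) / (32 * N)))
  have hv : ∀ i j, |v i j| ≤ 1 := by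
    intro i k
    simp only [v]
    split_ifs
    · exact Real.abs_cos_le_one _
    · exact Real.abs_sin_le_one _
  have hcard : (Fintype.card κ : ℝ) ≤ 66 * N := by
    have : Fintype.card κ = (32 * N + 1) * 2 := by
      simp only [κ, Fintype.card_prod, Fintype.card_coe, Int.card_Icc, Fintype.card_bool]
      congr 1
      omega
    rw [this]
    push_cast
    have : (1 : ℝ) ≤ N := by exact_mod_cast hN
    linarith
  set u : Fin N → ℝ := fun k => (1 - b k) / 2 with hu
  have hu01 : ∀ k, 0 ≤ u k ∧ u k ≤ 1 := by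
    intro k
    have := abs_le.mp (hb k)
    simp only [hu]
    constructor <;> linarith [this.1, this.2]
  have hmin : ∑ k, min (u k) (1 - u k) ≤ δ * N := by
    refine le_trans ?_ hsum
    apply Finset.sum_le_sum
    intro k _
    have h1 := (hu01 k).1
    have h2 := (hu01 k).2
    have e : 1 - b k ^ 2 = 4 * (u k * (1 - u k)) := by simp only [hu]; ring
    rw [e]
    rcases le_total (u k) (1 / 2) with h3 | h3
    · refine (min_le_left _ _).trans ?_
      nlinarith
    · refine (min_le_right _ _).trans ?_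
      nlinarith
  obtain ⟨w, hw1, hw2⟩ := h N (Fin N) κ v hv hN' (by simp) hcard δ hδ0 hδ1 u hu01 hmin
  -- define a
  set a : Fin N → ℤˣ := fun k => if w k = 0 then 1 else -1 with ha
  have haw : ∀ k, ((a k : ℤ) : ℝ) = 1 - 2 * w k := by
    intro k
    rcases hw1 k with h0 | h1
    · simp only [ha, h0, if_true]; norm_num
    · simp only [ha, h1]; norm_num
  refine ⟨a, ?_⟩
  set d : Fin N → ℂ := fun k => (((a k : ℤ) : ℂ)) - ((b k : ℝ) : ℂ) with hd
  have hdr : ∀ k, d k = ((-2 * (w k - u k) : ℝ) : ℂ) := by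
    intro k
    have e1 : ((a k : ℤ) : ℂ) = (((a k : ℤ) : ℝ) : ℂ) := by push_cast; rfl
    simp only [hd]
    rw [e1, haw k]
    simp only [hu]
    push_cast
    ring
  intro z hz
  have hgoal : ‖pol d z‖ ≤ 2 * (4 * (K * (Real.sqrt N * Real.sqrt (Real.sqrt δ)))) := by
    apply circle_of_grid hN' d _ _ z hz
    intro j hj
    have hjmem : j ∈ Finset.Icc (-(16 * (N : ℤ))) (16 * N) := by
      rw [Finset.mem_Icc]
      exact abs_le.mp hj
    set φ : ℝ := 2 * Real.pi * j / (32 * N) with hφ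
    have hc := hw2 (⟨j, hjmem⟩, true)
    have hs := hw2 (⟨j, hjmem⟩, false)
    simp only [v, if_true] at hc
    simp only [v, Bool.false_eq_true, if_false] at hs
    have hpolre : pol d (Complex.exp (φ * Complex.I)) =
        ((-2 * ∑ k : Fin N, Real.cos ((k : ℕ) * φ) * (w k - u k) : ℝ) : ℂ) +
        ((-2 * ∑ k : Fin N, Real.sin ((k : ℕ) * φ) * (w k - u k) : ℝ) : ℂ) * Complex.I := by
      simp only [pol]
      push_cast
      rw [Finset.mul_sum, Finset.mul_sum, Finset.sum_mul, ← Finset.sum_add_distrib]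
      apply Finset.sum_congr rfl
      intro k _
      rw [hdr k, ← Complex.exp_nat_mul]
      have e2 : ((k : ℕ) : ℂ) * ((φ : ℂ) * Complex.I) = (((k : ℕ) * φ : ℝ) : ℂ) * Complex.I := by
        push_cast; ring
      rw [e2, Complex.exp_mul_I]
      push_cast
      ring
    rw [hpolre]
    set Cc : ℝ := ∑ k : Fin N, Real.cos ((k : ℕ) * φ) * (w k - u k) with hCc
    set Sc : ℝ := ∑ k : Fin N, Real.sin ((k : ℕ) * φ) * (w k - u k) with hSc
    have n1 : ‖((-2 * Cc : ℝ) : ℂ)‖ = 2 * |Cc| := by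
      rw [Complex.norm_real, Real.norm_eq_abs, abs_mul]; norm_num
    have n2 : ‖((-2 * Sc : ℝ) : ℂ) * Complex.I‖ = 2 * |Sc| := by
      rw [norm_mul, Complex.norm_I, mul_one, Complex.norm_real, Real.norm_eq_abs, abs_mul]
      norm_num
    calc ‖((-2 * Cc : ℝ) : ℂ) + ((-2 * Sc : ℝ) : ℂ) * Complex.I‖
        ≤ ‖((-2 * Cc : ℝ) : ℂ)‖ + ‖((-2 * Sc : ℝ) : ℂ) * Complex.I‖ := norm_add_le _ _
      _ = 2 * |Cc| + 2 * |Sc| := by rw [n1, n2]
      _ ≤ 4 * (K * (Real.sqrt N * Real.sqrt (Real.sqrt δ))) := by linarith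
  have : ‖∑ k : Fin N, ((((a k : ℤ) : ℂ)) - ((b k : ℝ) : ℂ)) * z ^ (k : ℕ)‖ = ‖pol d z‖ := rfl
  rw [this]
  calc ‖pol d z‖ ≤ 2 * (4 * (K * (Real.sqrt N * Real.sqrt (Real.sqrt δ)))) := hgoal
    _ ≤ 2 * (4 * (K * (Real.sqrt N * η))) := by gcongr
    _ = eps * Real.sqrt N := by rw [hη]; field_simp; norm_num

end Crest.Agent.R075.Round
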