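import Crest.Agent.R075.TilingExists
import Crest.Agent.R075.Rounding
import Crest.Agent.R075.Pars

/-!
# Row 75: the final assembly, from the analysis theorem to S0100 (helper332)
-/

set_option autoImplicit false

namespace Crest.Agent.R075

open Finset

/-- conclusion of THM A -/
def AnalysisStmt : Prop :=
  ∀ (e e2 : ℝ), 0 < e → e < e2 → Tiling e → ∃ N0 : ℕ, ∀ N : ℕ, N0 ≤ N → ∃ c : Fin N → ℝ,
    (∀ k, |c k| ≤ 1 + e2) ∧ ∀ z : ℂ, ‖z‖ = 1 →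
      (1 - e2) * Real.sqrt N ≤ ‖∑ k : Fin N, (c k : ℂ) * z ^ (k : ℕ)‖ ∧
      ‖∑ k : Fin N, (c k : ℂ) * z ^ (k : ℕ)‖ ≤ (1 + e2) * Real.sqrt N

theorem final_of_analysis (hA : AnalysisStmt) (ε : ℝ) (hε : 0 < ε) (hε₁ : ε < 1) :
    ∃ N₀ : ℕ, ∀ N ≥ N₀, ∃ c : Fin N → ℤˣ, ∀ z : ℂ, ‖z‖ = 1 →
      (1 - ε) * Real.sqrt N ≤ ‖∑ k : Fin N, ((c k : ℤ) : ℂ) * z ^ (k : ℕ)‖ ∧
        ‖∑ k : Fin N, ((c k : ℤ) : ℂ) * z ^ (k : ℕ)‖ ≤ (1 + ε) * Real.sqrt N := by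
  obtain ⟨delta, hd, N1, hround⟩ := Round.rounding (ε / 2) (by linarith)
  set e2 : ℝ := min (ε / 8) (delta / 4) with he2
  have h20 : 0 < e2 := by rw [he2]; positivity
  have h2a : e2 ≤ ε / 8 := min_le_left _ _
  have h2b : e2 ≤ delta / 4 := min_le_right _ _
  obtain ⟨Ti⟩ := tiling_exists (e2 / 2) (by linarith)
  obtain ⟨N2, hN2⟩ := hA (e2 / 2) e2 (by linarith) (by linarith) Ti
  refine ⟨max N1 N2, fun N hN => ?_⟩
  obtain ⟨c, hc1, hc2⟩ := hN2 N (le_trans (le_max_right _ _) hN)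
  have hs0 : 0 ≤ Real.sqrt N := Real.sqrt_nonneg _
  have hsq : Real.sqrt N ^ 2 = N := Real.sq_sqrt (Nat.cast_nonneg N)
  have h1e : 0 < 1 + e2 := by linarith
  have hx : 1 - 2 * e2 ≤ (1 - e2) / (1 + e2) := by
    rw [le_div_iff₀ h1e]; nlinarith
  have hx0 : 0 ≤ (1 - e2) / (1 + e2) := div_nonneg (by linarith) h1e.le
  have hx1 : (1 - e2) / (1 + e2) ≤ 1 := by rw [div_le_one h1e]; linarith
  obtain ⟨a, ha⟩ := hround N (le_trans (le_max_left _ _) hN) (fun k => c k / (1 + e2))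
    (by
      intro k
      rw [abs_div, abs_of_pos h1e, div_le_one h1e]
      exact hc1 k)
    (by
      have hp := parseval_lower N c ((1 - e2) * Real.sqrt N) (by
        apply mul_nonneg _ hs0; linarith) (fun z hz => (hc2 z hz).1)
      have h3 : ∑ k : Fin N, (1 - (c k / (1 + e2)) ^ 2) = N - (∑ k, (c k) ^ 2) / (1 + e2) ^ 2 := by
        rw [Finset.sum_sub_distrib, Finset.sum_div]
        simp only [div_pow, Finset.sum_const, Finset.card_univ, Fintype.card_fin, nsmul_eq_mul,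
          mul_one]
      rw [h3]
      have h4 : ((1 - e2) / (1 + e2)) ^ 2 * N ≤ (∑ k, (c k) ^ 2) / (1 + e2) ^ 2 := by
        rw [div_pow, div_mul_eq_mul_div]
        apply div_le_div_of_nonneg_right _ (by positivity)
        calc (1 - e2) ^ 2 * N = ((1 - e2) * Real.sqrt N) ^ 2 := by rw [mul_pow, hsq]
          _ ≤ _ := hp
      have h5 : 1 - delta ≤ ((1 - e2) / (1 + e2)) ^ 2 := by nlinarith
      have h6 : (1 - delta) * N ≤ ((1 - e2) / (1 + e2)) ^ 2 * N :=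
        mul_le_mul_of_nonneg_right h5 (Nat.cast_nonneg N)
      linarith)
  refine ⟨a, fun z hz => ?_⟩
  have hr := ha z hz
  obtain ⟨hl, hu⟩ := hc2 z hz
  have hb : ‖∑ k : Fin N, ((c k / (1 + e2) : ℝ) : ℂ) * z ^ (k : ℕ)‖
      = ‖∑ k : Fin N, (c k : ℂ) * z ^ (k : ℕ)‖ / (1 + e2) := by
    have : ∑ k : Fin N, ((c k / (1 + e2) : ℝ) : ℂ) * z ^ (k : ℕ)
        = (∑ k : Fin N, (c k : ℂ) * z ^ (k : ℕ)) / ((1 + e2 : ℝ) : ℂ) := by
      rw [Finset.sum_div]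
      apply Finset.sum_congr rfl
      intro k _
      push_cast; ring
    rw [this, norm_div, Complex.norm_real, Real.norm_eq_abs, abs_of_pos h1e]
  have hsplit : ∑ k : Fin N, ((((a k : ℤ) : ℂ)) - ((c k / (1 + e2) : ℝ) : ℂ)) * z ^ (k : ℕ)
      = ∑ k : Fin N, ((a k : ℤ) : ℂ) * z ^ (k : ℕ)
        - ∑ k : Fin N, ((c k / (1 + e2) : ℝ) : ℂ) * z ^ (k : ℕ) := by
    rw [← Finset.sum_sub_distrib]
    apply Finset.sum_congr rfl
    intro k _; ring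
  rw [hsplit] at hr
  have h7 := abs_norm_sub_norm_le (∑ k : Fin N, ((a k : ℤ) : ℂ) * z ^ (k : ℕ))
    (∑ k : Fin N, ((c k / (1 + e2) : ℝ) : ℂ) * z ^ (k : ℕ))
  rw [hb] at h7
  have h8 := abs_le.mp (h7.trans hr)
  have h9 : (1 - 2 * e2) * Real.sqrt N ≤ ‖∑ k : Fin N, (c k : ℂ) * z ^ (k : ℕ)‖ / (1 + e2) := by
    calc (1 - 2 * e2) * Real.sqrt N ≤ (1 - e2) / (1 + e2) * Real.sqrt N :=
          mul_le_mul_of_nonneg_right hx hs0
      _ = (1 - e2) * Real.sqrt N / (1 + e2) := by ring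
      _ ≤ _ := div_le_div_of_nonneg_right hl h1e.le
  have h10 : ‖∑ k : Fin N, (c k : ℂ) * z ^ (k : ℕ)‖ / (1 + e2) ≤ Real.sqrt N := by
    rw [div_le_iff₀ h1e]; linarith
  constructor
  · nlinarith [h8.1]
  · nlinarith [h8.2]

end Crest.Agent.R075
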