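import Crest.Agent.R075.TilingDef

/-!
# Row 75, THM D: from an index family of integer intervals to the sorted `Tiling` (helper332)
-/

set_option autoImplicit false

namespace Crest.Agent.R075

open Finset

/-- `enum_tiles` as a Prop (proved in `Enum.lean`) -/
def EnumTiles : Prop :=
  ∀ {I : Type} [Fintype I] (M : ℕ) (st len : I → ℕ), (∀ i, 1 ≤ len i) → (∀ i, st i + len i ≤ M) →
    (∀ c < M, ∃! i, st i ≤ c ∧ c < st i + len i) → 0 < M →
    ∃ (n : ℕ) (e : ℕ → I) (s : ℕ → ℕ), s 0 = 0 ∧ s n = M ∧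
      (∀ l < n, s l = st (e l) ∧ s (l+1) = st (e l) + len (e l)) ∧ (∀ i, ∃! l, l < n ∧ e l = i)

theorem tiling_of_index (henum : EnumTiles) {I K : Type} [Fintype I] [Fintype K] [DecidableEq K]
    (M : ℕ) (hM : 0 < M) (st len : I → ℕ) (hlen : ∀ i, 1 ≤ len i) (hle : ∀ i, st i + len i ≤ M)
    (hcov : ∀ c < M, ∃! i, st i ≤ c ∧ c < st i + len i)
    (pc : I → K) (ori : I → Bool) (al : I → ℝ) (De : K → ℝ) (hDe : ∀ i, 0 < De i)
    (hsum : ∑ i, De i < 1) (ε : ℝ)
    (amp : ∀ (i : K) (k : ℤ) (G : ℝ),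
      |2 * ∑ a ∈ univ.filter (fun a => pc a = i),
        Real.sqrt (((len a : ℝ) / (2 * M)) / De i) *
          Real.cos (2 * Real.pi * (al a + (if ori a then (st a : ℝ) / (2 * M)
            else -(((st a : ℝ) + len a) / (2 * M))) * k + ((len a : ℝ) / (2 * M)) * G))| ≤ 1 + ε) :
    Nonempty (Tiling ε) := by
  classical
  obtain ⟨n, e, s, hs0, hsn, hs, hu⟩ := henum M st len hlen hle hcov hM
  have hMR : (0:ℝ) < 2 * M := by
    have : (0:ℝ) < M := by exact_mod_cast hM
    linarith
  let E := Fintype.equivFin K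
  have hlenx : ∀ l < n, (s (l+1) : ℝ) / (2 * M) - (s l : ℝ) / (2 * M) = (len (e l) : ℝ) / (2 * M) := by
    intro l hl
    obtain ⟨h1, h2⟩ := hs l hl
    rw [h1, h2, ← sub_div]
    push_cast
    congr 1; ring
  refine ⟨{
    n := n
    m := Fintype.card K
    x := fun l => (s l : ℝ) / (2 * M)
    pc := fun l => E (pc (e l))
    ori := fun l => ori (e l)
    al := fun l => al (e l)
    De := fun i => De (E.symm i)
    x_zero := by simp [hs0]
    x_last := by
      rw [hsn]
      have : (M:ℝ) ≠ 0 := by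
        have : (0:ℝ) < M := by exact_mod_cast hM
        exact this.ne'
      field_simp
    x_lt := by
      intro l hl
      have h1 := hlenx l hl
      have h2 : (0:ℝ) < (len (e l) : ℝ) / (2 * M) := by
        apply div_pos _ hMR
        exact_mod_cast hlen (e l)
      show (s l : ℝ) / (2 * M) < (s (l+1) : ℝ) / (2 * M)
      linarith
    De_pos := fun i => hDe _
    De_sum := by
      rw [Equiv.sum_comp E.symm (fun i => De i)]
      exact hsum
    amp := ?_ }⟩
  intro i k G
  have key := amp (E.symm i) k G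
  convert key using 3
  refine Finset.sum_nbij e ?_ ?_ ?_ ?_
  · intro l hl
    simp only [mem_filter, mem_univ, true_and, mem_range] at hl ⊢
    rw [← hl.2]; simp
  · intro l hl l' hl' hee
    simp only [coe_filter, mem_range, Set.mem_ofPred_eq] at hl hl'
    obtain ⟨l0, -, h0⟩ := hu (e l)
    rw [h0 l ⟨hl.1, rfl⟩, h0 l' ⟨hl'.1, hee.symm⟩]
  · intro a ha
    simp only [coe_filter, mem_univ, true_and, Set.mem_ofPred_eq] at ha
    obtain ⟨l0, ⟨h0, h1⟩, -⟩ := hu a
    refine ⟨l0, ?_, h1⟩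
    simp only [coe_filter, mem_range, Set.mem_ofPred_eq]
    refine ⟨h0, ?_⟩
    rw [h1, ha]; simp
  · intro l hl
    simp only [mem_filter, mem_range] at hl
    obtain ⟨hl1, hl2⟩ := hl
    obtain ⟨h1, h2⟩ := hs l hl1
    have h3 := hlenx l hl1
    rw [h3, h1, h2]
    push_cast
    rfl

end Crest.Agent.R075
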