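import Mathlib

set_option autoImplicit false

namespace Crest.Agent.R075

open Finset

/-- Gauss sums on `ZMod D`: a quadratic character is a combination of linear ones with
all coefficients of modulus `D^{-1/2}`. -/
theorem gauss_zmod (D : ℕ) [NeZero D] (hD : Odd D) (c : ZMod D) (hc : IsUnit c) :
    ∃ g : ZMod D → ℂ, (∀ j, ‖g j‖ = 1 / Real.sqrt D) ∧
      ∀ k : ZMod D, ZMod.stdAddChar (c * k ^ 2) = ∑ j, g j * ZMod.stdAddChar (j * k) := by
  classical
  set ψ : AddChar (ZMod D) ℂ := ZMod.stdAddChar with hψ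
  have hprim : ψ.IsPrimitive := ZMod.isPrimitive_stdAddChar D
  have hDpos : (0 : ℝ) < D := by
    have := NeZero.pos D
    exact_mod_cast this
  have hDC : (D : ℂ) ≠ 0 := by
    exact_mod_cast (NeZero.ne D)
  have hsum : ∀ b : ZMod D, ∑ x : ZMod D, ψ (x * b) = if b = 0 then (D : ℂ) else 0 := by
    intro b
    have := AddChar.sum_mulShift (ψ := ψ) b hprim
    rw [this, ZMod.card]
    split_ifs <;> simp
  refine ⟨fun j => (1 / D : ℂ) * ∑ m : ZMod D, ψ (c * m ^ 2 - j * m), ?_, ?_⟩
  · intro j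
    have h2 : IsUnit (2 : ZMod D) := by
      have : IsUnit ((2 : ℕ) : ZMod D) := by
        rw [ZMod.isUnit_iff_coprime]
        exact (Nat.coprime_two_left.mpr hD)
      simpa using this
    -- |S|^2 = D
    set S : ℂ := ∑ m : ZMod D, ψ (c * m ^ 2 - j * m) with hS
    have hconj : ∀ x : ZMod D, (starRingEnd ℂ) (ψ x) = ψ (-x) := by
      intro x
      rw [AddChar.map_neg_eq_conj]
    have hSS : S * (starRingEnd ℂ) S = D := by
      rw [hS, map_sum, Finset.sum_mul_sum]
      have h1 : ∀ l : ZMod D, ∑ m : ZMod D, ψ (c * m ^ 2 - j * m) * (starRingEnd ℂ) (ψ (c * l ^ 2 - j * l))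
          = ∑ m : ZMod D, ψ (c * m ^ 2 - j * m) * ψ (l * (2 * c * m)) := by
        intro l
        rw [← Equiv.sum_comp (Equiv.addRight l)]
        apply Finset.sum_congr rfl
        intro m _
        simp only [Equiv.coe_addRight]
        rw [hconj, ← AddChar.map_add_eq_mul, ← AddChar.map_add_eq_mul]
        congr 1
        ring
      rw [Finset.sum_comm, Finset.sum_congr rfl (fun l _ => h1 l), Finset.sum_comm]
      have h3 : ∀ m : ZMod D, ∑ l : ZMod D, ψ (c * m ^ 2 - j * m) * ψ (l * (2 * c * m))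
          = if m = 0 then (D : ℂ) else 0 := by
        intro m
        rw [← Finset.mul_sum, hsum]
        by_cases hm : m = 0
        · subst hm; simp
        · have : 2 * c * m ≠ 0 := by
            intro h
            apply hm
            have hu : IsUnit (2 * c) := h2.mul hc
            exact (hu.mul_right_eq_zero).mp h
          simp [this, hm]
      rw [Finset.sum_congr rfl (fun m _ => h3 m)]
      simp
    have hnorm : ‖S‖ ^ 2 = D := by
      rw [Complex.mul_conj] at hSS
      have h4 : Complex.normSq S = D := by exact_mod_cast hSS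
      rw [← h4, Complex.normSq_eq_norm_sq]
    have hS' : ‖S‖ = Real.sqrt D := by
      rw [← hnorm, Real.sqrt_sq (norm_nonneg _)]
    rw [norm_mul, hS', norm_div, norm_one, Complex.norm_natCast]
    have hsq : Real.sqrt D * Real.sqrt D = D := Real.mul_self_sqrt hDpos.le
    have hs0 : Real.sqrt D ≠ 0 := (Real.sqrt_pos.mpr hDpos).ne'
    field_simp
    nlinarith [hsq]
  · intro k
    have h1 : ∀ j : ZMod D, (1 / D : ℂ) * (∑ m : ZMod D, ψ (c * m ^ 2 - j * m)) * ψ (j * k)
        = (1 / D : ℂ) * ∑ m : ZMod D, ψ (c * m ^ 2) * ψ (j * (k - m)) := by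
      intro j
      rw [mul_assoc, Finset.sum_mul]
      congr 1
      apply Finset.sum_congr rfl
      intro m _
      rw [← AddChar.map_add_eq_mul, ← AddChar.map_add_eq_mul]
      congr 1
      ring
    rw [Finset.sum_congr rfl (fun j _ => h1 j), ← Finset.mul_sum, Finset.sum_comm]
    have h2 : ∀ m : ZMod D, ∑ j : ZMod D, ψ (c * m ^ 2) * ψ (j * (k - m))
        = if m = k then ψ (c * k ^ 2) * D else 0 := by
      intro m
      rw [← Finset.mul_sum, hsum]
      by_cases hm : m = k
      · subst hm; simp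
      · have : k - m ≠ 0 := fun h => hm (sub_eq_zero.mp h).symm
        simp [hm, this]
    rw [Finset.sum_congr rfl (fun m _ => h2 m)]
    simp only [Finset.sum_ite_eq', Finset.mem_univ, if_true]
    field_simp

/-- `e(x) = exp (2 π i x)` version: for `D` odd, `c` coprime to `D`, there are coefficients of
modulus `D^{-1/2}` with `e(c k^2 / D) = ∑_{j < D} g j e(j k / D)` for all integers `k`. -/
theorem gauss (D : ℕ) (hD : Odd D) (c : ℤ) (hc : IsCoprime c (D : ℤ)) :
    ∃ g : ℕ → ℂ, (∀ j, ‖g j‖ = 1 / Real.sqrt D) ∧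
      ∀ k : ℤ, Complex.exp (2 * Real.pi * Complex.I * ((c * k ^ 2 / D : ℝ) : ℂ))
        = ∑ j ∈ range D, g j * Complex.exp (2 * Real.pi * Complex.I * ((j * k / D : ℝ) : ℂ)) := by
  have hD0 : D ≠ 0 := by rintro rfl; simp at hD
  have : NeZero D := ⟨hD0⟩
  have hcu : IsUnit (c : ZMod D) := by
    rw [ZMod.coe_int_isUnit_iff_isCoprime]
    exact hc.symm
  obtain ⟨g, hg, hg2⟩ := gauss_zmod D hD (c : ZMod D) hcu
  refine ⟨fun j => g (j : ZMod D), fun j => hg _, ?_⟩
  intro k
  have h1 := hg2 (k : ZMod D)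
  have h2 : ((c : ZMod D) * (k : ZMod D) ^ 2) = ((c * k ^ 2 : ℤ) : ZMod D) := by push_cast; ring
  rw [h2, ZMod.stdAddChar_coe] at h1
  have h3 : ∑ j : ZMod D, g j * ZMod.stdAddChar (j * (k : ZMod D))
      = ∑ j ∈ range D, g (j : ZMod D) * ZMod.stdAddChar (((j : ℕ) : ZMod D) * (k : ZMod D)) := by
    rw [Finset.sum_range]
    obtain ⟨n, rfl⟩ : ∃ n, D = n + 1 := ⟨D - 1, by omega⟩
    apply Finset.sum_congr rfl
    intro x _
    have : ((x.val : ℕ) : ZMod (n+1)) = x := by
      exact ZMod.natCast_zmod_val x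
    have h : ((Fin.val x : ℕ) : ZMod (n+1)) = x := this
    rw [h]
  rw [h3] at h1
  convert h1 using 1
  · congr 1; push_cast; ring
  · apply Finset.sum_congr rfl
    intro j _
    have h4 : (((j : ℕ) : ZMod D) * (k : ZMod D)) = ((j * k : ℤ) : ZMod D) := by push_cast; ring
    rw [h4, ZMod.stdAddChar_coe]
    congr 2; push_cast; ring

/-- real form -/
theorem gauss_cos (D : ℕ) (hD : Odd D) (c : ℤ) (hc : IsCoprime c (D : ℤ)) :
    ∃ al : ℕ → ℝ, ∀ (k : ℤ) (y : ℝ),
      ∑ j ∈ range D, Real.cos (2 * Real.pi * (al j + j * k / D + y))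
        = Real.sqrt D * Real.cos (2 * Real.pi * (c * k ^ 2 / D + y)) := by
  obtain ⟨g, hg, hg2⟩ := gauss D hD c hc
  have hD0 : D ≠ 0 := by rintro rfl; simp at hD
  have hDpos : (0 : ℝ) < D := by exact_mod_cast Nat.pos_of_ne_zero hD0
  have hs : 0 < Real.sqrt D := Real.sqrt_pos.mpr hDpos
  have hcos : ∀ x : ℝ, Real.cos (2 * Real.pi * x)
      = (Complex.exp (2 * Real.pi * Complex.I * (x : ℂ))).re := by
    intro x
    rw [show (2 * Real.pi * Complex.I * (x : ℂ) : ℂ) = ((2 * Real.pi * x : ℝ) : ℂ) * Complex.I by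
      push_cast; ring]
    rw [Complex.exp_ofReal_mul_I_re]
  have hpi : (Real.pi : ℂ) ≠ 0 := by exact_mod_cast Real.pi_ne_zero
  refine ⟨fun j => (g j).arg / (2 * Real.pi), ?_⟩
  intro k y
  have h1 : ∀ j : ℕ, Real.cos (2 * Real.pi * ((g j).arg / (2 * Real.pi) + j * k / D + y))
      = (Real.sqrt D * (g j * Complex.exp (2 * Real.pi * Complex.I * ((j * k / D : ℝ) : ℂ)))
          * Complex.exp (2 * Real.pi * Complex.I * (y : ℂ))).re := by
    intro j
    rw [hcos]
    congr 1
    have h2 : g j = ((1 / Real.sqrt D : ℝ) : ℂ) * Complex.exp ((g j).arg * Complex.I) := by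
      rw [← hg j]; exact (Complex.norm_mul_exp_arg_mul_I (g j)).symm
    have h3 : (Real.sqrt D : ℂ) * (g j * Complex.exp (2 * Real.pi * Complex.I * ((j * k / D : ℝ) : ℂ)))
          * Complex.exp (2 * Real.pi * Complex.I * (y : ℂ))
        = Complex.exp ((g j).arg * Complex.I) * Complex.exp (2 * Real.pi * Complex.I * ((j * k / D : ℝ) : ℂ))
          * Complex.exp (2 * Real.pi * Complex.I * (y : ℂ)) := by
      conv_lhs => rw [h2]
      have hsC : (Real.sqrt D : ℂ) ≠ 0 := by exact_mod_cast hs.ne'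
      push_cast
      field_simp
    rw [h3, ← Complex.exp_add, ← Complex.exp_add]
    congr 1
    push_cast
    field_simp
  rw [Finset.sum_congr rfl (fun j _ => h1 j), ← Complex.re_sum, ← Finset.sum_mul, ← Finset.mul_sum,
    ← hg2 k, hcos, ← Complex.re_ofReal_mul, mul_assoc, ← Complex.exp_add]
  congr 3
  push_cast
  ring

end Crest.Agent.R075
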