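import Mathlib
import Crest.Agent.R075.Basic

/-!
# Row 75: from the grid of `16N`-th roots of unity to the circle (helper50)
-/

set_option autoImplicit false

open Finset

namespace Crest.Agent.R075

namespace Grid

/-- discrete orthogonality for the `n`-th roots of unity `ee (j/n)` -/
lemma orth (n : ℕ) (hn : 0 < n) (a b : ℕ) (ha : a < n) (hb : b < n) :
    ∑ j ∈ range n, ee ((j : ℝ) / n) ^ a * (ee ((j : ℝ) / n) ^ b)⁻¹ = if a = b then (n : ℂ) else 0 := by
  have hn0 : (n : ℝ) ≠ 0 := by positivity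
  have key : ∀ j : ℕ, ee ((j : ℝ) / n) ^ a * (ee ((j : ℝ) / n) ^ b)⁻¹
      = (ee (((a : ℝ) - b) / n)) ^ j := by
    intro j
    rw [← ee_mul_nat, ← ee_mul_nat, ← ee_neg, ← ee_add, ← ee_mul_nat]
    congr 1
    field_simp
    ring
  simp_rw [key]
  split_ifs with h
  · subst h
    simp
  · have hne : ee (((a : ℝ) - b) / n) ≠ 1 := by
      intro h1
      unfold ee at h1
      rw [Complex.exp_eq_one_iff] at h1
      obtain ⟨m, hm⟩ := h1
      have hpi : (2 * (Real.pi : ℂ) * Complex.I) ≠ 0 := by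
        simp [Real.pi_ne_zero]
      have h2 : ((((a : ℝ) - b) / n : ℝ) : ℂ) = m := by
        have : 2 * (Real.pi : ℂ) * Complex.I * ((((a : ℝ) - b) / n : ℝ) : ℂ)
            = 2 * (Real.pi : ℂ) * Complex.I * m := by
          rw [hm]; ring
        exact mul_left_cancel₀ hpi this
      have h3 : ((a : ℝ) - b) / n = m := by exact_mod_cast h2
      have h4 : (a : ℝ) - b = m * n := by
        field_simp at h3
        linarith
      have h5 : (a : ℤ) - b = m * n := by exact_mod_cast h4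
      have ha' : (a : ℤ) < n := by exact_mod_cast ha
      have hb' : (b : ℤ) < n := by exact_mod_cast hb
      have ha0 : (0 : ℤ) ≤ a := by positivity
      have hb0 : (0 : ℤ) ≤ b := by positivity
      have hn' : (0 : ℤ) < n := by exact_mod_cast hn
      have hab : (a : ℤ) - b ≠ 0 := by
        intro h0
        exact h (by exact_mod_cast (sub_eq_zero.1 h0))
      have hm0 : m ≠ 0 := by
        rintro rfl
        exact hab (by rw [h5]; ring)
      rcases lt_or_gt_of_ne hm0 with hm1 | hm1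
      · have : m * n ≤ -1 * n := mul_le_mul_of_nonneg_right (by omega) hn'.le
        omega
      · have : 1 * (n : ℤ) ≤ m * n := mul_le_mul_of_nonneg_right (by omega) hn'.le
        omega
    have hg := mul_neg_geom_sum (ee (((a : ℝ) - b) / n)) n
    have hpow : ee (((a : ℝ) - b) / n) ^ n = 1 := by
      rw [← ee_mul_nat]
      have : (n : ℝ) * (((a : ℝ) - b) / n) = (((a : ℤ) - (b : ℤ) : ℤ) : ℝ) := by
        push_cast
        field_simp
      rw [this, ee_int]
    rw [hpow, sub_self] at hg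
    rcases mul_eq_zero.1 hg with h0 | h0
    · exact absurd (sub_eq_zero.1 h0).symm hne
    · exact h0

/-- Parseval on the grid for sums of `M ≤ n` unimodular terms -/
lemma sumsq (n : ℕ) (hn : 0 < n) (M : ℕ) (hM : M ≤ n) (c : ℕ → ℂ) (hc : ∀ r, ‖c r‖ = 1) :
    ∑ j ∈ range n, ‖∑ r ∈ range M, c r * ee ((j : ℝ) / n) ^ r‖ ^ 2 = n * M := by
  have h1 : ∀ j : ℕ, ((‖∑ r ∈ range M, c r * ee ((j : ℝ) / n) ^ r‖ ^ 2 : ℝ) : ℂ)
      = ∑ r ∈ range M, ∑ s ∈ range M, (c r * (starRingEnd ℂ) (c s)) *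
        (ee ((j : ℝ) / n) ^ r * (ee ((j : ℝ) / n) ^ s)⁻¹) := by
    intro j
    have hz : ∀ z : ℂ, ((‖z‖ ^ 2 : ℝ) : ℂ) = z * (starRingEnd ℂ) z := by
      intro z
      rw [Complex.mul_conj, Complex.normSq_eq_norm_sq]
    rw [hz, map_sum, sum_mul_sum]
    refine sum_congr rfl fun r _ => sum_congr rfl fun s _ => ?_
    rw [map_mul, map_pow, ee_conj, ee_neg, inv_pow]
    ring
  have h2 : ((∑ j ∈ range n, ‖∑ r ∈ range M, c r * ee ((j : ℝ) / n) ^ r‖ ^ 2 : ℝ) : ℂ)
      = ((n * M : ℝ) : ℂ) := by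
    rw [Complex.ofReal_sum]
    simp_rw [h1]
    rw [sum_comm]
    have h3 : ∀ r ∈ range M, ∑ j ∈ range n, ∑ s ∈ range M, (c r * (starRingEnd ℂ) (c s)) *
        (ee ((j : ℝ) / n) ^ r * (ee ((j : ℝ) / n) ^ s)⁻¹) = n := by
      intro r hr
      rw [sum_comm]
      have hr' : r < n := lt_of_lt_of_le (mem_range.1 hr) hM
      have h4 : ∀ s ∈ range M, ∑ j ∈ range n, (c r * (starRingEnd ℂ) (c s)) *
        (ee ((j : ℝ) / n) ^ r * (ee ((j : ℝ) / n) ^ s)⁻¹) =
          (c r * (starRingEnd ℂ) (c s)) * (if r = s then (n : ℂ) else 0) := by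
        intro s hs
        rw [← mul_sum, orth n hn r s hr' (lt_of_lt_of_le (mem_range.1 hs) hM)]
      rw [sum_congr rfl h4]
      simp only [mul_ite, mul_zero]
      rw [sum_ite_eq, if_pos hr]
      have : c r * (starRingEnd ℂ) (c r) = 1 := by
        rw [Complex.mul_conj, Complex.normSq_eq_norm_sq, hc r]
        simp
      rw [this, one_mul]
    rw [sum_congr rfl h3]
    simp
    ring
  exact_mod_cast h2

end Grid

open Grid in
/-- A polynomial of degree `< N` bounded by `B` at the `16N`-th roots of unity is bounded by `3B`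
on the whole circle. -/
theorem grid_to_circle (N : ℕ) (hN : 1 ≤ N) (w : Fin N → ℂ) (B : ℝ)
    (h : ∀ j : Fin (16*N), ‖∑ k : Fin N, w k * (ee (((j:ℕ):ℝ)/(16*N)))^(k:ℕ)‖ ≤ B) (z : ℂ)
    (hz : ‖z‖ = 1) : ‖∑ k : Fin N, w k * z^(k:ℕ)‖ ≤ 3*B := by
  set n : ℕ := 16 * N with hn
  have hn0 : 0 < n := by omega
  have hz0 : z ≠ 0 := by
    intro h0; rw [h0] at hz; simp at hz
  have hB : 0 ≤ B := le_trans (norm_nonneg _) (h ⟨0, hn0⟩)
  -- the grid values
  set p : ℕ → ℂ := fun j => ∑ k : Fin N, w k * (ee ((j : ℝ) / n)) ^ (k : ℕ) with hp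
  have hpB : ∀ j ∈ range n, ‖p j‖ ≤ B := by
    intro j hj
    have := h ⟨j, mem_range.1 hj⟩
    simpa [hp, hn] using this
  -- kernels
  set a : ℕ → ℂ := fun j => ∑ r ∈ range (2 * N), z ^ r * (ee ((j : ℝ) / n) ^ r)⁻¹ with ha
  set b : ℕ → ℂ := fun j => ∑ s ∈ range N, (z ^ s)⁻¹ * ee ((j : ℝ) / n) ^ s with hb
  -- reproducing identity
  have hrep : ∑ j ∈ range n, p j * (a j * b j) = (n * N : ℂ) * ∑ k : Fin N, w k * z ^ (k : ℕ) := by
    have e1 : ∀ j : ℕ, p j * (a j * b j) = ∑ k : Fin N, ∑ s ∈ range N, ∑ r ∈ range (2 * N),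
        (w k * (z ^ r * (z ^ s)⁻¹)) *
          (ee ((j : ℝ) / n) ^ ((k : ℕ) + s) * (ee ((j : ℝ) / n) ^ r)⁻¹) := by
      intro j
      simp only [hp, ha, hb]
      rw [mul_comm (∑ r ∈ range (2 * N), z ^ r * (ee ((j : ℝ) / n) ^ r)⁻¹), sum_mul_sum, sum_mul]
      refine sum_congr rfl fun k _ => ?_
      rw [mul_sum]
      refine sum_congr rfl fun s _ => ?_
      rw [mul_sum]
      refine sum_congr rfl fun r _ => ?_
      rw [pow_add]
      ring
    simp_rw [e1]
    rw [sum_comm, mul_sum]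
    refine sum_congr rfl fun k _ => ?_
    rw [sum_comm]
    have hk : (k : ℕ) < N := k.2
    have e2 : ∀ s ∈ range N, ∑ j ∈ range n, ∑ r ∈ range (2 * N),
        (w k * (z ^ r * (z ^ s)⁻¹)) *
          (ee ((j : ℝ) / n) ^ ((k : ℕ) + s) * (ee ((j : ℝ) / n) ^ r)⁻¹)
        = (n : ℂ) * (w k * z ^ (k : ℕ)) := by
      intro s hs
      have hs' := mem_range.1 hs
      rw [sum_comm]
      have e3 : ∀ r ∈ range (2 * N), ∑ j ∈ range n, (w k * (z ^ r * (z ^ s)⁻¹)) *
          (ee ((j : ℝ) / n) ^ ((k : ℕ) + s) * (ee ((j : ℝ) / n) ^ r)⁻¹)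
          = (w k * (z ^ r * (z ^ s)⁻¹)) * (if (k : ℕ) + s = r then (n : ℂ) else 0) := by
        intro r hr
        have hr' := mem_range.1 hr
        rw [← mul_sum, orth n hn0 _ _ (by omega) (by omega)]
      rw [sum_congr rfl e3]
      simp only [mul_ite, mul_zero]
      rw [sum_ite_eq, if_pos (mem_range.2 (by omega))]
      rw [pow_add]
      field_simp
    rw [sum_congr rfl e2]
    simp
    ring
  -- bound of the kernels
  have hA : ∑ j ∈ range n, ‖a j‖ ^ 2 = n * (2 * N : ℕ) := by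
    have : ∀ j : ℕ, ‖a j‖ = ‖∑ r ∈ range (2 * N), (z ^ r)⁻¹ * ee ((j : ℝ) / n) ^ r‖ := by
      intro j
      have hconj : a j = (starRingEnd ℂ) (∑ r ∈ range (2 * N), (z ^ r)⁻¹ * ee ((j : ℝ) / n) ^ r) := by
        simp only [ha]
        rw [map_sum]
        refine sum_congr rfl fun r _ => ?_
        rw [map_mul, map_pow, ee_conj, ee_neg, inv_pow, map_inv₀, map_pow]
        congr 1
        have : (starRingEnd ℂ) z = z⁻¹ := by
          rw [Complex.inv_def, Complex.normSq_eq_norm_sq, hz]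
          simp
        rw [this, inv_pow, inv_inv]
      rw [hconj, RCLike.norm_conj]
    simp_rw [this]
    exact sumsq n hn0 (2 * N) (by omega) (fun r => (z ^ r)⁻¹) (by intro r; simp [hz])
  have hBs : ∑ j ∈ range n, ‖b j‖ ^ 2 = n * N :=
    sumsq n hn0 N (by omega) (fun r => (z ^ r)⁻¹) (by intro r; simp [hz])
  have hfin : ‖∑ j ∈ range n, p j * (a j * b j)‖ ≤ B * (3 / 2 * (n * N)) := by
    calc ‖∑ j ∈ range n, p j * (a j * b j)‖ ≤ ∑ j ∈ range n, ‖p j * (a j * b j)‖ := norm_sum_le _ _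
      _ ≤ ∑ j ∈ range n, B * ((‖a j‖ ^ 2 + ‖b j‖ ^ 2) / 2) := by
          refine sum_le_sum fun j hj => ?_
          rw [norm_mul, norm_mul]
          refine mul_le_mul (hpB j hj) ?_ (by positivity) hB
          nlinarith [sq_nonneg (‖a j‖ - ‖b j‖)]
      _ = B * (3 / 2 * (n * N)) := by
          rw [← mul_sum, ← sum_div, sum_add_distrib, hA, hBs]
          push_cast
          ring
  rw [hrep, norm_mul] at hfin
  have hnN : ‖(n * N : ℂ)‖ = (n * N : ℝ) := by
    rw [norm_mul]; simp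
  rw [hnN] at hfin
  have hpos : (0 : ℝ) < n * N := by
    have h1 : (0 : ℝ) < n := by exact_mod_cast hn0
    have h2 : (0 : ℝ) < N := by exact_mod_cast (by omega : 0 < N)
    positivity
  have : ‖∑ k : Fin N, w k * z ^ (k : ℕ)‖ ≤ 3 / 2 * B := by
    have h5 : (n * N : ℝ) * ‖∑ k : Fin N, w k * z ^ (k : ℕ)‖ ≤ (n * N : ℝ) * (3 / 2 * B) := by
      linarith
    exact le_of_mul_le_mul_left h5 hpos
  linarith

end Crest.Agent.R075
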