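import Mathlib

/-!
Row 75: statements (Props only, no proofs) of the sub-lemmas of modules S (rounding) and P (packing)
that are given away in captain note 10048.  Own namespace, nothing depends on this file.
-/

set_option autoImplicit false

open scoped BigOperators
open Finset

noncomputable section

namespace Crest.Agent.R075.IfaceP

/-- `e x = exp (2 π i x)`. -/
def e (x : ℝ) : ℂ := Complex.exp (((2 * Real.pi * x : ℝ) : ℂ) * Complex.I)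

/-! ## Module S: rounding (Spencer) -/

/-- S1a: sub-gaussian tail, counting form. -/
def SubGauss : Prop :=
  ∀ (n : ℕ) (v : Fin n → ℝ), 1 ≤ n → (∀ j, |v j| ≤ 1) → ∀ u : ℝ, 0 ≤ u →
    ((univ.filter (fun x : Fin n → Bool =>
        u * Real.sqrt n ≤ |∑ j, v j * (if x j then (1 : ℝ) else -1)|)).card : ℝ)
      ≤ 2 * Real.exp (-(u ^ 2) / 2) * 2 ^ n

/-- S1b: number of integer vectors of small `ℓ¹` norm. -/
def LatticeCount : Prop :=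
  ∀ (m : ℕ) (B K : ℝ), 1 ≤ K → 0 ≤ B →
    ∀ F : Finset (Fin m → ℤ), (∀ r ∈ F, (∑ i, |(r i : ℝ)|) ≤ B) →
      (F.card : ℝ) ≤ Real.exp (K * B + 4 * m * Real.exp (-K))

/-- S1c: Hamming balls of radius `n/20` are small. -/
def HammingBall : Prop :=
  ∀ (n : ℕ) (x : Fin n → Bool),
    ((univ.filter (fun y : Fin n → Bool =>
        20 * (univ.filter (fun j => x j ≠ y j)).card ≤ n)).card : ℝ) ≤ (5 / 4 : ℝ) ^ n

/-- S1: partial colouring. -/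
def PartialColouring : Prop :=
  ∃ C : ℝ, 0 < C ∧ ∀ n m : ℕ, 1 ≤ n → n ≤ m → ∀ v : Fin m → Fin n → ℝ, (∀ i j, |v i j| ≤ 1) →
    ∃ x : Fin n → ℤ, (∀ j, x j = 0 ∨ x j = 1 ∨ x j = -1) ∧
      n ≤ 20 * (univ.filter (fun j => x j ≠ 0)).card ∧
      ∀ i, |∑ j, v i j * (x j : ℝ)| ≤ C * Real.sqrt (n * Real.log (2 * m / n))

/-- S2: full colouring of a finite set. -/
def FullColouring : Prop :=
  ∃ C : ℝ, 0 < C ∧ ∀ (ι : Type) [Fintype ι] [DecidableEq ι] (m : ℕ) (v : Fin m → ι → ℝ),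
    (∀ i j, |v i j| ≤ 1) → ∀ A : Finset ι, A.card ≤ m →
      ∃ x : ι → ℝ, (∀ j, x j = 1 ∨ x j = -1) ∧
        ∀ i, |∑ j ∈ A, v i j * x j| ≤ C * Real.sqrt (A.card * Real.log (2 * m / A.card))

/-- S3: rounding of a vector that is almost `±1` in mean square, w.r.t. `40 N` functionals. -/
def Rounding : Prop :=
  ∀ ε : ℝ, 0 < ε → ∃ δ : ℝ, 0 < δ ∧ ∃ N₀ : ℕ, ∀ N ≥ N₀,
    ∀ v : Fin (40 * N) → Fin N → ℝ, (∀ i j, |v i j| ≤ 1) →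
    ∀ b : Fin N → ℝ, (∀ k, |b k| ≤ 1) → (∑ k, (1 - b k ^ 2)) ≤ δ * N →
    ∃ a : Fin N → ℤˣ, ∀ i, |∑ k, v i k * (((a k : ℤ) : ℝ) - b k)| ≤ ε * Real.sqrt N

/-- S4: from the grid of `16 N`-th roots of unity to the circle. -/
def GridToCircle : Prop :=
  ∀ N : ℕ, 1 ≤ N → ∀ (w : Fin N → ℂ) (B : ℝ),
    (∀ j : Fin (16 * N), ‖∑ k : Fin N, w k * e ((j : ℕ) / (16 * N)) ^ (k : ℕ)‖ ≤ B) →
    ∀ z : ℂ, ‖z‖ = 1 → ‖∑ k : Fin N, w k * z ^ (k : ℕ)‖ ≤ 3 * B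

/-- Theorem S. -/
def ThmS : Prop :=
  ∀ ε : ℝ, 0 < ε → ∃ δ : ℝ, 0 < δ ∧ ∃ N₀ : ℕ, ∀ N ≥ N₀, ∀ b : Fin N → ℝ,
    (∀ k, |b k| ≤ 1) → (∑ k, (1 - b k ^ 2)) ≤ δ * N →
    ∃ a : Fin N → ℤˣ, ∀ z : ℂ, ‖z‖ = 1 →
      ‖∑ k : Fin N, (((a k : ℤ) : ℂ) - (b k : ℂ)) * z ^ (k : ℕ)‖ ≤ ε * Real.sqrt N

/-- No two vectors are parallel (first coordinates are positive). -/
def NonParallel {R : ℕ} {τ : Type} (v : τ → Fin (R + 1) → ℤ) : Prop :=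
  ∀ t t', t ≠ t' → ∃ i, v t 0 * v t' i ≠ v t i * v t' 0

/-! ## Module P: packing -/

/-- Block of the line `v` of the piece `g = (w, ρ)`. -/
def blk {R : ℕ} (ℓ L : ℕ) (v : Fin (R + 1) → ℤ) (g : (Fin (R + 1) → ZMod ℓ) × Fin L) : ZMod ℓ :=
  (∑ i, (v i : ZMod ℓ) * g.1 i) + ((v 0 * ((g.2 : ℕ) : ℤ) / (L : ℤ) : ℤ) : ZMod ℓ)

/-- Position of the line inside its block. -/
def inr {R : ℕ} (L : ℕ) (v : Fin (R + 1) → ℤ) (ρ : Fin L) : ℤ :=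
  (v 0 * ((ρ : ℕ) : ℤ)) % (L : ℤ)

/-- Reflection of labels. -/
def flip {τ : Type} (x : Option (τ × Bool)) : Option (τ × Bool) := x.map (fun y => (y.1, !y.2))

/-- P1: random colouring of the blocks. -/
def RandomBlocks : Prop :=
  ∀ (τ : Type) [Fintype τ] [DecidableEq τ] (m : ℕ) (w : τ → ℕ), 0 < m → 2 * ∑ t, w t ≤ m →
    ∀ ℓ : ℕ, [NeZero ℓ] → Odd ℓ →
    ∃ (Ω : Type) (_ : Fintype Ω) (_ : Nonempty Ω) (σ : Ω → ZMod ℓ → Option (τ × Bool)),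
      (∀ ω B, σ ω (-1 - B) = flip (σ ω B)) ∧
      ∀ S : Finset (ZMod ℓ), (∀ B ∈ S, -1 - B ∉ S) → ∀ f : ZMod ℓ → τ,
        (((univ : Finset Ω).filter (fun ω => ∀ B ∈ S, σ ω B = some (f B, true))).card : ℝ)
          = Fintype.card Ω * ∏ B ∈ S, ((w (f B) : ℝ) / m)

/-- P2: solutions of one or two independent linear equations over `ZMod ℓ`. -/
def LinCount : Prop :=
  ∀ (ι : Type) [Fintype ι] [DecidableEq ι] (ℓ : ℕ) [Fact ℓ.Prime] (c c' : ι → ZMod ℓ) (b b' : ZMod ℓ),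
    (c ≠ 0 → (univ.filter (fun w : ι → ZMod ℓ => ∑ i, c i * w i = b)).card * ℓ
      = ℓ ^ Fintype.card ι) ∧
    ((∀ x y : ZMod ℓ, (∀ i, x * c i + y * c' i = 0) → x = 0 ∧ y = 0) →
      (univ.filter (fun w : ι → ZMod ℓ => ∑ i, c i * w i = b ∧ ∑ i, c' i * w i = b')).card * ℓ ^ 2
      = ℓ ^ Fintype.card ι)

/-- P3a: few single pieces are bad. -/
def BadSingles : Prop :=
  ∀ (R : ℕ) (τ : Type) [Fintype τ] [DecidableEq τ] (v : τ → Fin (R + 1) → ℤ),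
    (∀ t, 0 < v t 0) → NonParallel v → ∀ L : ℕ, 0 < L →
    ∃ (C ℓ₀ : ℕ), ∀ (ℓ : ℕ) [Fact ℓ.Prime], ℓ₀ ≤ ℓ →
      (univ.filter (fun g : (Fin (R + 1) → ZMod ℓ) × Fin L =>
        ¬ ((∀ t t', t ≠ t' → blk ℓ L (v t) g ≠ blk ℓ L (v t') g) ∧
           (∀ t t', blk ℓ L (v t) g ≠ -1 - blk ℓ L (v t') g)))).card
        ≤ C * ℓ ^ R

/-- P3b: few pairs of pieces on the same arc of type `t₀` are bad. -/
def BadPairs : Prop :=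
  ∀ (R : ℕ) (τ : Type) [Fintype τ] [DecidableEq τ] (v : τ → Fin (R + 1) → ℤ),
    (∀ t, 0 < v t 0) → NonParallel v → ∀ L : ℕ, 0 < L → ∀ t₀ : τ,
    ∃ (C ℓ₀ : ℕ), ∀ (ℓ : ℕ) [Fact ℓ.Prime], ℓ₀ ≤ ℓ →
      (univ.filter (fun p : ((Fin (R + 1) → ZMod ℓ) × Fin L) × ((Fin (R + 1) → ZMod ℓ) × Fin L) =>
        (blk ℓ L (v t₀) p.1 = blk ℓ L (v t₀) p.2 ∧ inr L (v t₀) p.1.2 = inr L (v t₀) p.2.2) ∧
        ¬ ((∀ t t', t ≠ t' → blk ℓ L (v t) p.1 ≠ blk ℓ L (v t') p.1) ∧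
           (∀ t t', t ≠ t' → blk ℓ L (v t) p.2 ≠ blk ℓ L (v t') p.2) ∧
           (∀ t t', ¬ (t = t₀ ∧ t' = t₀) → blk ℓ L (v t) p.1 ≠ blk ℓ L (v t') p.2) ∧
           (∀ t t', blk ℓ L (v t) p.1 ≠ -1 - blk ℓ L (v t') p.1) ∧
           (∀ t t', blk ℓ L (v t) p.2 ≠ -1 - blk ℓ L (v t') p.2) ∧
           (∀ t t', blk ℓ L (v t) p.1 ≠ -1 - blk ℓ L (v t') p.2)))).card
        ≤ C * ℓ ^ (2 * R)

/-- P3c: total number of pairs on the same arc, and number of pieces on one arc. -/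
def PairCount : Prop :=
  ∀ (R : ℕ) (v : Fin (R + 1) → ℤ), 0 < v 0 → ∀ L : ℕ, 0 < L → v 0 ∣ (L : ℤ) →
    ∀ (ℓ : ℕ) [Fact ℓ.Prime], (v 0).toNat < ℓ →
      ((univ.filter (fun p : ((Fin (R + 1) → ZMod ℓ) × Fin L) × ((Fin (R + 1) → ZMod ℓ) × Fin L) =>
        blk ℓ L v p.1 = blk ℓ L v p.2 ∧ inr L v p.1.2 = inr L v p.2.2)).card : ℤ)
        = L * v 0 * ℓ ^ (2 * R + 1)

/-- Admissible pieces for the colouring `σ`. -/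
def adm {R : ℕ} {τ : Type} [Fintype τ] (ℓ L : ℕ) [NeZero ℓ] (v : τ → Fin (R + 1) → ℤ)
    (σ : ZMod ℓ → Option (τ × Bool)) : Finset ((Fin (R + 1) → ZMod ℓ) × Fin L) :=
  letI := Classical.decPred
    (fun g : (Fin (R + 1) → ZMod ℓ) × Fin L => ∀ t, σ (blk ℓ L (v t) g) = some (t, true))
  univ.filter (fun g => ∀ t, σ (blk ℓ L (v t) g) = some (t, true))

/-- Expected load of an arc of type `t` in an occupied block. -/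
def mu {R : ℕ} {τ : Type} [Fintype τ] [DecidableEq τ] (ℓ m : ℕ) (v : τ → Fin (R + 1) → ℤ)
    (w : τ → ℕ) (t : τ) : ℝ :=
  v t 0 * (ℓ : ℝ) ^ R * ∏ t' ∈ univ.erase t, ((w t' : ℝ) / m)

/-- P3: second moment estimate. -/
def SecondMoment : Prop :=
  ∀ (R : ℕ) (τ : Type) [Fintype τ] [DecidableEq τ] [Nonempty τ] (v : τ → Fin (R + 1) → ℤ),
    (∀ t, 0 < v t 0) → NonParallel v →
    ∀ (m : ℕ) (w : τ → ℕ), 0 < m → (∀ t, 0 < w t) → 2 * ∑ t, w t ≤ m →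
    ∀ L : ℕ, 0 < L → (∀ t, v t 0 ∣ (L : ℤ)) → ∀ δ : ℝ, 0 < δ →
    ∃ (ℓ : ℕ) (_ : Fact ℓ.Prime) (σ : ZMod ℓ → Option (τ × Bool)),
      Odd ℓ ∧ (∀ t, (v t 0).toNat < ℓ) ∧ (∀ B, σ (-1 - B) = flip (σ B)) ∧
      (1 - δ) * (L * (ℓ : ℝ) ^ (R + 1) * ∏ t, ((w t : ℝ) / m)) ≤ (adm ℓ L v σ).card ∧
      ∀ t : τ,
        ((((adm ℓ L v σ) ×ˢ (adm ℓ L v σ)).filter (fun p =>
            blk ℓ L (v t) p.1 = blk ℓ L (v t) p.2 ∧ inr L (v t) p.1.2 = inr L (v t) p.2.2)).card : ℝ)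
          - 2 * mu ℓ m v w t * (adm ℓ L v σ).card
          + (mu ℓ m v w t) ^ 2 * ((L : ℝ) / v t 0) *
              ((univ : Finset (ZMod ℓ)).filter (fun B => σ B = some (t, true))).card
          ≤ δ * (ℓ : ℝ) ^ (2 * R + 1)

/-- P: packing lemma. -/
def Packing : Prop :=
  ∀ (R : ℕ) (τ : Type) [Fintype τ] [DecidableEq τ] [Nonempty τ] (v : τ → Fin (R + 1) → ℤ),
    (∀ t, 0 < v t 0) → NonParallel v →
    ∀ (m : ℕ) (w : τ → ℕ), 0 < m → (∀ t, 0 < w t) → 2 * ∑ t, w t ≤ m →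
    ∀ L : ℕ, 0 < L → (∀ t, v t 0 ∣ (L : ℤ)) → ∀ ε : ℝ, 0 < ε →
    ∃ (ℓ : ℕ) (_ : Fact ℓ.Prime) (σ : ZMod ℓ → Option (τ × Bool))
      (W : Finset ((Fin (R + 1) → ZMod ℓ) × Fin L)),
      Odd ℓ ∧ (∀ B, σ (-1 - B) = flip (σ B)) ∧ W.Nonempty ∧
      (∀ g ∈ W, ∀ t, σ (blk ℓ L (v t) g) = some (t, true)) ∧
      ∀ (t : τ) (B : ZMod ℓ) (r : ℤ),
        ((W.filter (fun g => blk ℓ L (v t) g = B ∧ inr L (v t) g.2 = r)).card : ℝ)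
            * ((w t : ℝ) / m) * (L * ℓ) ≤ (1 + ε) * W.card * v t 0

end Crest.Agent.R075.IfaceP
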