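import Mathlib

set_option autoImplicit false
set_option linter.unusedSectionVars false

namespace Crest.Agent.R075.Pack

open Finset

/-! ### Weighted sums over assignments -/

section Exp

variable {ι κ : Type*} [Fintype ι] [DecidableEq ι] [DecidableEq κ]

/-- weighted sum over all assignments `ι → V` -/
noncomputable def Ex (V : Finset κ) (P : κ → ℝ) (F : (ι → κ) → ℝ) : ℝ :=
  ∑ x ∈ Fintype.piFinset (fun _ : ι => V), (∏ i, P (x i)) * F x

lemma Ex_prod (V : Finset κ) (P : κ → ℝ) (f : ι → κ → ℝ) :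
    Ex V P (fun x => ∏ i, f i (x i)) = ∏ i, ∑ v ∈ V, P v * f i v := by
  unfold Ex
  rw [Finset.prod_univ_sum]
  exact sum_congr rfl fun x _ => by rw [← prod_mul_distrib]

lemma Ex_ind (V : Finset κ) (P : κ → ℝ) (hP : ∑ v ∈ V, P v = 1)
    {J : Type*} [DecidableEq J] (S : Finset J) (b : J → ι)
    (hb : ∀ j ∈ S, ∀ j' ∈ S, b j = b j' → j = j') (c : J → κ) (hc : ∀ j ∈ S, c j ∈ V) :
    Ex V P (fun x : ι → κ => ∏ j ∈ S, if x (b j) = c j then (1:ℝ) else 0) =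
      ∏ j ∈ S, P (c j) := by
  have h1 : (fun x : ι → κ => ∏ j ∈ S, if x (b j) = c j then (1:ℝ) else 0) =
      fun x : ι → κ => ∏ i, (fun (i : ι) (v : κ) =>
        ∏ j ∈ S with b j = i, if v = c j then (1:ℝ) else 0) i (x i) := by
    funext x
    rw [← Finset.prod_fiberwise S b]
    refine prod_congr rfl fun i _ => prod_congr rfl fun j hj => ?_
    rw [mem_filter] at hj
    rw [hj.2]
  rw [h1]
  refine (Ex_prod V P (fun (i : ι) (v : κ) =>
        ∏ j ∈ S with b j = i, if v = c j then (1:ℝ) else 0)).trans ?_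
  rw [← Finset.prod_fiberwise S b]
  refine prod_congr rfl fun i _ => ?_
  rcases (S.filter fun j => b j = i).eq_empty_or_nonempty with h | ⟨j, hj⟩
  · simp only [h, prod_empty, mul_one, hP]
  · have hs : (S.filter fun j => b j = i) = {j} := by
      rw [mem_filter] at hj
      ext j'
      rw [mem_filter, mem_singleton]
      constructor
      · rintro ⟨h1, h2⟩
        exact hb _ h1 _ hj.1 (h2.trans hj.2.symm)
      · rintro rfl
        exact hj
    rw [mem_filter] at hj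
    simp only [hs, prod_singleton]
    simp only [mul_ite, mul_one, mul_zero]
    rw [Finset.sum_ite_eq' V (c j) P, if_pos (hc j hj.1)]

lemma Ex_add (V : Finset κ) (P : κ → ℝ) (F G : (ι → κ) → ℝ) :
    Ex V P (fun x => F x + G x) = Ex V P F + Ex V P G := by
  unfold Ex
  rw [← sum_add_distrib]
  exact sum_congr rfl fun x _ => by ring

lemma Ex_smul (V : Finset κ) (P : κ → ℝ) (c : ℝ) (F : (ι → κ) → ℝ) :
    Ex V P (fun x => c * F x) = c * Ex V P F := by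
  unfold Ex
  rw [mul_sum]
  exact sum_congr rfl fun x _ => by ring

lemma Ex_sum (V : Finset κ) (P : κ → ℝ) {J : Type*} (S : Finset J) (F : J → (ι → κ) → ℝ) :
    Ex V P (fun x => ∑ j ∈ S, F j x) = ∑ j ∈ S, Ex V P (F j) := by
  unfold Ex
  rw [sum_comm]
  exact sum_congr rfl fun x _ => by rw [mul_sum]

lemma Ex_one (V : Finset κ) (P : κ → ℝ) (hP : ∑ v ∈ V, P v = 1) :
    Ex V P (fun _ : ι → κ => (1:ℝ)) = 1 := by
  have := Ex_prod (ι := ι) V P (fun _ _ => (1:ℝ))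
  simp only [prod_const_one, mul_one, hP] at this
  exact this

lemma Ex_mono (V : Finset κ) (P : κ → ℝ) (hP0 : ∀ v ∈ V, 0 ≤ P v) (F G : (ι → κ) → ℝ)
    (h : ∀ x, F x ≤ G x) : Ex V P F ≤ Ex V P G := by
  unfold Ex
  refine sum_le_sum fun x hx => mul_le_mul_of_nonneg_left (h x) ?_
  refine prod_nonneg fun i _ => hP0 _ ?_
  exact Fintype.mem_piFinset.1 hx i

lemma exists_ge (V : Finset κ) (P : κ → ℝ) (hP0 : ∀ v ∈ V, 0 ≤ P v) (hP : ∑ v ∈ V, P v = 1)
    (F : (ι → κ) → ℝ) : ∃ x, Ex V P F ≤ F x := by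
  by_contra hcon
  push Not at hcon
  have hpos : ∃ x ∈ Fintype.piFinset (fun _ : ι => V), 0 < ∏ i, P (x i) := by
    by_contra h0
    push Not at h0
    have h1 := Ex_one (ι := ι) V P hP
    unfold Ex at h1
    have h2 : ∑ x ∈ Fintype.piFinset (fun _ : ι => V), (∏ i, P (x i)) * (1:ℝ) ≤ 0 :=
      sum_nonpos fun x hx => by rw [mul_one]; exact h0 x hx
    linarith
  obtain ⟨x0, hx0, hx0p⟩ := hpos
  have hlt : Ex V P F < Ex V P (fun _ : ι → κ => Ex V P F) := by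
    conv_lhs => unfold Ex
    conv_rhs => unfold Ex
    refine sum_lt_sum ?_ ⟨x0, hx0, ?_⟩
    · intro x hx
      refine mul_le_mul_of_nonneg_left (hcon x).le ?_
      exact prod_nonneg fun i _ => hP0 _ (Fintype.mem_piFinset.1 hx i)
    · exact mul_lt_mul_of_pos_left (hcon x0) hx0p
  have h3 : Ex V P (fun _ : ι → κ => Ex V P F) = Ex V P F := by
    have := Ex_smul (ι := ι) V P (Ex V P F) (fun _ => 1)
    rw [Ex_one V P hP] at this
    simpa using this
  rw [h3] at hlt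
  exact lt_irrefl _ hlt

end Exp

/-! ### counting -/

lemma card_fiber {V W : Type*} [AddCommGroup V] [Fintype V] [AddCommGroup W] [Fintype W]
    [DecidableEq W] (φ : V →+ W) (h : Function.Surjective φ) (c : W) :
    (univ.filter fun v => φ v = c).card * Fintype.card W = Fintype.card V := by
  classical
  have h1 : Fintype.card V = ∑ d : W, (univ.filter fun v => φ v = d).card := by
    rw [← card_univ (α := V)]
    exact card_eq_sum_card_fiberwise (fun _ _ => mem_univ _)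
  have h2 : ∀ d : W, (univ.filter fun v => φ v = d).card = (univ.filter fun v => φ v = c).card := by
    intro d
    obtain ⟨v0, hv0⟩ := h (c - d)
    refine card_bij (fun v _ => v + v0) ?_ ?_ ?_
    · intro v hv
      rw [mem_filter] at hv ⊢
      refine ⟨mem_univ _, ?_⟩
      rw [map_add, hv.2, hv0]; abel
    · intro v _ v' _ hvv
      exact add_right_cancel hvv
    · intro v hv
      rw [mem_filter] at hv
      refine ⟨v - v0, ?_, by abel⟩
      rw [mem_filter]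
      refine ⟨mem_univ _, ?_⟩
      rw [map_sub, hv.2, hv0]; abel
  rw [h1, sum_congr rfl (fun d _ => h2 d), sum_const, card_univ, smul_eq_mul, mul_comm]


/-! ### the random antisymmetric assignment -/

section Sig

variable {R ℓ : ℕ} [NeZero ℓ]

def rep (B : ZMod ℓ) : ZMod ℓ := if B.val ≤ (-1 - B).val then B else -1 - B

def sg (B : ZMod ℓ) : ℤ :=
  if B.val < (-1 - B).val then 1 else if (-1 - B).val < B.val then -1 else 0

def sig (x : ZMod ℓ → (Fin (R+1) → ℤ)) (B : ZMod ℓ) : Fin (R+1) → ℤ := sg B • x (rep B)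

lemma mir_mir (B : ZMod ℓ) : -1 - (-1 - B) = B := by ring

lemma rep_mir (B : ZMod ℓ) : rep (-1 - B) = rep B := by
  unfold rep
  rw [mir_mir]
  by_cases h1 : B.val ≤ (-1 - B).val <;> by_cases h2 : (-1 - B).val ≤ B.val
  · rw [if_pos h1, if_pos h2]
    exact ZMod.val_injective ℓ (le_antisymm h2 h1)
  · rw [if_pos h1, if_neg h2]
  · rw [if_neg h1, if_pos h2]
  · omega

lemma sg_mir (B : ZMod ℓ) : sg (-1 - B) = - sg B := by
  unfold sg
  rw [mir_mir]
  rcases lt_trichotomy B.val (-1 - B).val with h | h | h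
  · rw [if_neg (by omega), if_pos h, if_pos h]
  · rw [if_neg (by omega), if_neg (by omega), if_neg (by omega), if_neg (by omega)]; rfl
  · rw [if_pos h, if_neg (by omega), if_pos h]; rfl

lemma sig_mir (x : ZMod ℓ → (Fin (R+1) → ℤ)) (B : ZMod ℓ) : sig x (-1 - B) = - sig x B := by
  unfold sig
  rw [sg_mir, rep_mir, neg_smul]

lemma rep_eq {B B' : ZMod ℓ} (h : rep B = rep B') : B = B' ∨ B = -1 - B' := by
  unfold rep at h
  split_ifs at h with h1 h2 h2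
  · exact Or.inl h
  · exact Or.inr h
  · right; rw [← h]; ring
  · left
    have : -1 - (-1 - B) = -1 - (-1 - B') := by rw [h]
    rwa [mir_mir, mir_mir] at this

lemma sg_sq {B : ZMod ℓ} (h : B ≠ -1 - B) : sg B * sg B = 1 := by
  unfold sg
  have : B.val ≠ (-1 - B).val := fun h' => h (ZMod.val_injective ℓ h')
  rcases lt_or_gt_of_ne this with h' | h'
  · rw [if_pos h']; rfl
  · rw [if_neg (by omega), if_pos h']; rfl

lemma sg_cases {B : ZMod ℓ} (h : B ≠ -1 - B) : sg B = 1 ∨ sg B = -1 := by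
  unfold sg
  have : B.val ≠ (-1 - B).val := fun h' => h (ZMod.val_injective ℓ h')
  rcases lt_or_gt_of_ne this with h' | h'
  · rw [if_pos h']; exact Or.inl rfl
  · rw [if_neg (by omega), if_pos h']; exact Or.inr rfl

lemma sig_eq_iff (x : ZMod ℓ → (Fin (R+1) → ℤ)) {B : ZMod ℓ} (h : B ≠ -1 - B)
    (t : Fin (R+1) → ℤ) : sig x B = t ↔ x (rep B) = sg B • t := by
  unfold sig
  constructor
  · rintro rfl
    rw [smul_smul, sg_sq h, one_smul]
  · intro h'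
    rw [h', smul_smul, sg_sq h, one_smul]

variable (T : Finset (Fin (R+1) → ℤ)) (p : (Fin (R+1) → ℤ) → ℝ)

def Vs : Finset (Fin (R+1) → ℤ) := insert 0 (T ∪ T.image (fun t => -t))

noncomputable def Pw (v : Fin (R+1) → ℤ) : ℝ :=
  if v = 0 then 1 - 2 * ∑ t ∈ T, p t else if v ∈ T then p v else p (-v)

variable {T p}

lemma zero_not_mem (hpos : ∀ t ∈ T, 1 ≤ t 0) : (0 : Fin (R+1) → ℤ) ∉ T := by
  intro h
  have := hpos _ h
  simp at this

lemma neg_not_mem (hpos : ∀ t ∈ T, 1 ≤ t 0) {t : Fin (R+1) → ℤ} (ht : t ∈ T) : -t ∉ T := by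
  intro h
  have h1 := hpos _ h
  have h2 := hpos _ ht
  simp only [Pi.neg_apply] at h1
  omega

lemma ne_zero_of_mem (hpos : ∀ t ∈ T, 1 ≤ t 0) {t : Fin (R+1) → ℤ} (ht : t ∈ T) : t ≠ 0 := by
  rintro rfl
  exact zero_not_mem hpos ht

lemma Pw_pos (hpos : ∀ t ∈ T, 1 ≤ t 0) {t : Fin (R+1) → ℤ} (ht : t ∈ T) : Pw T p t = p t := by
  unfold Pw
  rw [if_neg (ne_zero_of_mem hpos ht), if_pos ht]

lemma Pw_neg (hpos : ∀ t ∈ T, 1 ≤ t 0) {t : Fin (R+1) → ℤ} (ht : t ∈ T) : Pw T p (-t) = p t := by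
  unfold Pw
  rw [if_neg (neg_ne_zero.2 (ne_zero_of_mem hpos ht)), if_neg (neg_not_mem hpos ht), neg_neg]

lemma Pw_sum (hpos : ∀ t ∈ T, 1 ≤ t 0) : ∑ v ∈ Vs T, Pw T p v = 1 := by
  unfold Vs
  rw [sum_insert, sum_union, sum_image]
  · rw [sum_congr rfl (fun t ht => Pw_pos (p := p) hpos ht),
      sum_congr rfl (fun t ht => Pw_neg (p := p) hpos ht)]
    unfold Pw
    rw [if_pos rfl]; ring
  · intro a _ b _ h
    exact neg_injective h
  · rw [disjoint_left]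
    intro a ha hb
    rw [mem_image] at hb
    obtain ⟨b, hb, rfl⟩ := hb
    exact neg_not_mem hpos hb ha
  · rw [mem_union, not_or]
    refine ⟨zero_not_mem hpos, ?_⟩
    rw [mem_image]
    rintro ⟨b, hb, hb0⟩
    exact ne_zero_of_mem hpos hb (neg_eq_zero.1 hb0)

lemma Pw_nonneg (hp : ∀ t ∈ T, 0 < p t) (hsum : 2 * ∑ t ∈ T, p t ≤ 1) :
    ∀ v ∈ Vs T, 0 ≤ Pw T p v := by
  intro v hv
  unfold Vs at hv
  unfold Pw
  split_ifs with h1 h2
  · linarith
  · exact (hp v h2).le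
  · rw [mem_insert, mem_union, mem_image] at hv
    rcases hv with h | h | ⟨b, hb, rfl⟩
    · exact absurd h h1
    · exact absurd h h2
    · rw [neg_neg]; exact (hp b hb).le

lemma Ex_req (hpos : ∀ t ∈ T, 1 ≤ t 0) {J : Type*} [DecidableEq J] (S : Finset J)
    (B : J → ZMod ℓ) (τ : J → (Fin (R+1) → ℤ)) (hτ : ∀ j ∈ S, τ j ∈ T)
    (hfix : ∀ j ∈ S, B j ≠ -1 - B j)
    (hdist : ∀ j ∈ S, ∀ j' ∈ S, j ≠ j' → B j ≠ B j' ∧ B j ≠ -1 - B j') :
    Ex (Vs T) (Pw T p) (fun x : ZMod ℓ → (Fin (R+1) → ℤ) =>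
      ∏ j ∈ S, if sig x (B j) = τ j then (1:ℝ) else 0) = ∏ j ∈ S, p (τ j) := by
  have h1 : (fun x : ZMod ℓ → (Fin (R+1) → ℤ) =>
      ∏ j ∈ S, if sig x (B j) = τ j then (1:ℝ) else 0) =
      fun x => ∏ j ∈ S, if x (rep (B j)) = sg (B j) • τ j then (1:ℝ) else 0 := by
    funext x
    refine prod_congr rfl fun j hj => ?_
    simp only [sig_eq_iff x (hfix j hj) (τ j)]
  rw [h1, Ex_ind (Vs T) (Pw T p) (Pw_sum hpos) S (fun j => rep (B j)) _
    (fun j => sg (B j) • τ j) _]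
  · refine prod_congr rfl fun j hj => ?_
    rcases sg_cases (hfix j hj) with h | h
    · rw [h, one_smul, Pw_pos hpos (hτ j hj)]
    · rw [h, neg_smul, one_smul, Pw_neg hpos (hτ j hj)]
  · intro j hj j' hj' h
    by_contra hne
    have := hdist j hj j' hj' hne
    rcases rep_eq h with h2 | h2
    · exact this.1 h2
    · exact this.2 h2
  · intro j hj
    unfold Vs
    rw [mem_insert, mem_union, mem_image]
    rcases sg_cases (hfix j hj) with h | h
    · rw [h, one_smul]; exact Or.inr (Or.inl (hτ j hj))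
    · rw [h, neg_smul, one_smul]; exact Or.inr (Or.inr ⟨_, hτ j hj, rfl⟩)

end Sig


/-! ### pieces -/

section Piece

variable {R : ℕ}

/-- the block of the type-`t` arc of the piece `g = (w, ρ)` -/
def blk (ℓ L : ℕ) (t : Fin (R+1) → ℤ) (g : (Fin (R+1) → ZMod ℓ) × ℕ) : ZMod ℓ :=
  (∑ i, (t i : ZMod ℓ) * g.1 i) + ((t 0 * g.2 / L : ℤ) : ZMod ℓ)

/-- the arc (block, offset) -/
def key (ℓ L : ℕ) (t : Fin (R+1) → ℤ) (g : (Fin (R+1) → ZMod ℓ) × ℕ) : ZMod ℓ × ℤ :=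
  (blk ℓ L t g, t 0 * g.2 % L)

def Gs (R ℓ L : ℕ) [NeZero ℓ] : Finset ((Fin (R+1) → ZMod ℓ) × ℕ) := univ ×ˢ range L

noncomputable def xi (ℓ L : ℕ) [NeZero ℓ] (T : Finset (Fin (R+1) → ℤ))
    (x : ZMod ℓ → (Fin (R+1) → ℤ)) (g : (Fin (R+1) → ZMod ℓ) × ℕ) : ℝ :=
  ∏ t ∈ T, if sig x (blk ℓ L t g) = t then (1:ℝ) else 0

noncomputable def eta (ℓ L : ℕ) [NeZero ℓ] (t : Fin (R+1) → ℤ)
    (x : ZMod ℓ → (Fin (R+1) → ℤ)) (g : (Fin (R+1) → ZMod ℓ) × ℕ) : ℝ :=
  if sig x (blk ℓ L t g) = t then (1:ℝ) else 0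

def good1 (ℓ L : ℕ) (T : Finset (Fin (R+1) → ℤ)) (g : (Fin (R+1) → ZMod ℓ) × ℕ) : Prop :=
  (∀ t ∈ T, ∀ t' ∈ T, blk ℓ L t g ≠ -1 - blk ℓ L t' g) ∧
    ∀ t ∈ T, ∀ t' ∈ T, t ≠ t' → blk ℓ L t g ≠ blk ℓ L t' g

def good2 (ℓ L : ℕ) (T : Finset (Fin (R+1) → ℤ)) (t : Fin (R+1) → ℤ)
    (g g' : (Fin (R+1) → ZMod ℓ) × ℕ) : Prop :=
  good1 ℓ L T g ∧ good1 ℓ L T g' ∧ ∀ t' ∈ T.erase t, ∀ t'' ∈ T.erase t,
    blk ℓ L t' g ≠ blk ℓ L t'' g' ∧ blk ℓ L t' g ≠ -1 - blk ℓ L t'' g'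

variable {ℓ L : ℕ} [NeZero ℓ] {T : Finset (Fin (R+1) → ℤ)} {p : (Fin (R+1) → ℤ) → ℝ}

lemma Ex_xi (hpos : ∀ t ∈ T, 1 ≤ t 0) {g : (Fin (R+1) → ZMod ℓ) × ℕ} (hg : good1 ℓ L T g) :
    Ex (Vs T) (Pw T p) (fun x => xi ℓ L T x g) = ∏ t ∈ T, p t := by
  unfold xi
  exact Ex_req hpos T (fun t => blk ℓ L t g) (fun t => t) (fun t ht => ht)
    (fun t ht => hg.1 t ht t ht) (fun t ht t' ht' hne => ⟨hg.2 t ht t' ht' hne, hg.1 t ht t' ht'⟩)

lemma Ex_eta (hpos : ∀ t ∈ T, 1 ≤ t 0) {g : (Fin (R+1) → ZMod ℓ) × ℕ} (hg : good1 ℓ L T g)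
    {t : Fin (R+1) → ℤ} (ht : t ∈ T) :
    Ex (Vs T) (Pw T p) (fun x => eta ℓ L t x g) = p t := by
  have h := Ex_req (p := p) hpos {t} (fun t => blk ℓ L t g) (fun t => t)
    (fun t' ht' => by rw [mem_singleton] at ht'; rw [ht']; exact ht)
    (fun t' ht' => by rw [mem_singleton] at ht'; rw [ht']; exact hg.1 t ht t ht)
    (fun t1 h1 t2 h2 hne => by
      rw [mem_singleton] at h1 h2; exact absurd (h1.trans h2.symm) hne)
  simp only [prod_singleton] at h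
  exact h

lemma xi_mul_eta {x : ZMod ℓ → (Fin (R+1) → ℤ)} {g : (Fin (R+1) → ZMod ℓ) × ℕ}
    {t : Fin (R+1) → ℤ} (ht : t ∈ T) : xi ℓ L T x g * eta ℓ L t x g = xi ℓ L T x g := by
  unfold xi eta
  rw [← mul_prod_erase T _ ht]
  split_ifs <;> ring

lemma Ex_xi_xi (hpos : ∀ t ∈ T, 1 ≤ t 0) {t : Fin (R+1) → ℤ} (ht : t ∈ T)
    {g g' : (Fin (R+1) → ZMod ℓ) × ℕ} (hg : good2 ℓ L T t g g')
    (hb : blk ℓ L t g = blk ℓ L t g') :
    Ex (Vs T) (Pw T p) (fun x => xi ℓ L T x g * xi ℓ L T x g') =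
      p t * (∏ t' ∈ T.erase t, p t') ^ 2 := by
  classical
  obtain ⟨h1, h2, h3⟩ := hg
  let S : Finset ((Fin (R+1) → ℤ) × Bool) := T ×ˢ {true} ∪ (T.erase t) ×ˢ {false}
  let B : ((Fin (R+1) → ℤ) × Bool) → ZMod ℓ := fun j => blk ℓ L j.1 (if j.2 then g else g')
  have hdisj : Disjoint (T ×ˢ ({true} : Finset Bool)) ((T.erase t) ×ˢ {false}) := by
    rw [disjoint_left]
    rintro ⟨a, b⟩ h h'
    simp only [mem_product, mem_singleton] at h h'
    rw [h.2] at h'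
    exact absurd h'.2 (by simp)
  have hkey : (fun x : ZMod ℓ → (Fin (R+1) → ℤ) => xi ℓ L T x g * xi ℓ L T x g') =
      fun x => ∏ j ∈ S, if sig x (B j) = j.1 then (1:ℝ) else 0 := by
    funext x
    rw [prod_union hdisj, prod_product, prod_product]
    simp only [prod_singleton, B, if_true]
    have : ∀ x : ZMod ℓ → (Fin (R+1) → ℤ), xi ℓ L T x g' = eta ℓ L t x g *
        ∏ t' ∈ T.erase t, if sig x (blk ℓ L t' g') = t' then (1:ℝ) else 0 := by
      intro x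
      unfold xi eta
      rw [← mul_prod_erase T _ ht, hb]
    rw [this, ← mul_assoc, xi_mul_eta ht]
    rfl
  rw [hkey, Ex_req hpos S B (fun j => j.1)]
  · rw [prod_union hdisj, prod_product, prod_product]
    simp only [prod_singleton]
    rw [← mul_prod_erase T _ ht]; ring
  · rintro ⟨a, b⟩ hj
    rw [mem_union, mem_product, mem_product] at hj
    rcases hj with h | h
    · exact h.1
    · exact mem_of_mem_erase h.1
  · rintro ⟨a, b⟩ hj
    rw [mem_union, mem_product, mem_product] at hj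
    simp only [mem_singleton] at hj
    rcases hj with ⟨ha, rfl⟩ | ⟨ha, rfl⟩
    · exact h1.1 a ha a ha
    · exact h2.1 a (mem_of_mem_erase ha) a (mem_of_mem_erase ha)
  · rintro ⟨a, b⟩ hj ⟨a', b'⟩ hj' hne
    rw [mem_union, mem_product, mem_product] at hj hj'
    simp only [mem_singleton] at hj hj'
    rcases hj with ⟨ha, rfl⟩ | ⟨ha, rfl⟩ <;> rcases hj' with ⟨ha', rfl⟩ | ⟨ha', rfl⟩
    · have hne' : a ≠ a' := fun h => hne (by rw [h])
      exact ⟨h1.2 a ha a' ha' hne', h1.1 a ha a' ha'⟩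
    · have haT' := mem_of_mem_erase ha'
      by_cases hat : a = t
      · subst hat
        have hne' : a ≠ a' := (ne_of_mem_erase ha').symm
        simp only [B, if_true, Bool.false_eq_true, if_false]
        rw [hb]
        exact ⟨h2.2 a ha a' haT' hne', h2.1 a ha a' haT'⟩
      · exact h3 a (mem_erase.2 ⟨hat, ha⟩) a' ha'
    · have haT := mem_of_mem_erase ha
      by_cases hat : a' = t
      · subst hat
        have hne' : a ≠ a' := ne_of_mem_erase ha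
        simp only [B, if_true, Bool.false_eq_true, if_false]
        rw [hb]
        exact ⟨h2.2 a haT a' ha' hne', h2.1 a haT a' ha'⟩
      · have := h3 a' (mem_erase.2 ⟨hat, ha'⟩) a ha
        refine ⟨fun h => this.1 h.symm, fun h => this.2 ?_⟩
        simp only [B, if_true, Bool.false_eq_true, if_false] at h
        rw [h]; ring
    · have hne' : a ≠ a' := fun h => hne (by rw [h])
      exact ⟨h2.2 a (mem_of_mem_erase ha) a' (mem_of_mem_erase ha') hne',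
        h2.1 a (mem_of_mem_erase ha) a' (mem_of_mem_erase ha')⟩

lemma eta_sq {x : ZMod ℓ → (Fin (R+1) → ℤ)} {g : (Fin (R+1) → ZMod ℓ) × ℕ}
    {t : Fin (R+1) → ℤ} : eta ℓ L t x g * eta ℓ L t x g = eta ℓ L t x g := by
  unfold eta
  split_ifs <;> ring

lemma eta_congr {x : ZMod ℓ → (Fin (R+1) → ℤ)} {g g' : (Fin (R+1) → ZMod ℓ) × ℕ}
    {t : Fin (R+1) → ℤ} (hb : blk ℓ L t g = blk ℓ L t g') : eta ℓ L t x g = eta ℓ L t x g' := by
  unfold eta
  rw [hb]

lemma cross_zero (hpos : ∀ t ∈ T, 1 ≤ t 0) {t : Fin (R+1) → ℤ} (ht : t ∈ T)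
    {g g' : (Fin (R+1) → ZMod ℓ) × ℕ} (hg : good2 ℓ L T t g g')
    (hb : blk ℓ L t g = blk ℓ L t g') (q : ℝ) (hq : q = ∏ t' ∈ T.erase t, p t') :
    Ex (Vs T) (Pw T p) (fun x => (xi ℓ L T x g - q * eta ℓ L t x g) *
      (xi ℓ L T x g' - q * eta ℓ L t x g')) = 0 := by
  have h1 : (fun x : ZMod ℓ → (Fin (R+1) → ℤ) => (xi ℓ L T x g - q * eta ℓ L t x g) *
      (xi ℓ L T x g' - q * eta ℓ L t x g')) = fun x => (xi ℓ L T x g * xi ℓ L T x g' +
        (-q) * xi ℓ L T x g) + ((-q) * xi ℓ L T x g' + q^2 * eta ℓ L t x g) := by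
    funext x
    have e1 := xi_mul_eta (L := L) (x := x) (g := g) ht
    have e2 := xi_mul_eta (L := L) (x := x) (g := g') ht
    have e3 := eta_sq (L := L) (x := x) (g := g) (t := t)
    have e4 := eta_congr (x := x) hb
    rw [← e4] at e2 ⊢
    linear_combination (-q) * e1 - q * e2 + q^2 * e3
  rw [h1, Ex_add, Ex_add, Ex_add, Ex_smul, Ex_smul, Ex_smul, Ex_xi_xi hpos ht hg hb,
    Ex_xi hpos hg.1, Ex_xi hpos hg.2.1, Ex_eta hpos hg.1 ht, ← mul_prod_erase T p ht, ← hq]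
  ring

lemma xi_mem {x : ZMod ℓ → (Fin (R+1) → ℤ)} {g : (Fin (R+1) → ZMod ℓ) × ℕ} :
    xi ℓ L T x g = 0 ∨ (xi ℓ L T x g = 1 ∧ ∀ t ∈ T, sig x (blk ℓ L t g) = t) := by
  by_cases h : ∀ t ∈ T, sig x (blk ℓ L t g) = t
  · right
    refine ⟨?_, h⟩
    unfold xi
    exact prod_eq_one fun t ht => if_pos (h t ht)
  · left
    push Not at h
    obtain ⟨t, ht, hne⟩ := h
    unfold xi
    exact prod_eq_zero ht (if_neg hne)

lemma eta_mem {x : ZMod ℓ → (Fin (R+1) → ℤ)} {g : (Fin (R+1) → ZMod ℓ) × ℕ}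
    {t : Fin (R+1) → ℤ} : eta ℓ L t x g = 0 ∨ eta ℓ L t x g = 1 := by
  unfold eta
  split_ifs
  · exact Or.inr rfl
  · exact Or.inl rfl

lemma cross_le (hp : ∀ t ∈ T, 0 < p t) (hsum : 2 * ∑ t ∈ T, p t ≤ 1) (hpos : ∀ t ∈ T, 1 ≤ t 0)
    {t : Fin (R+1) → ℤ}
    (g g' : (Fin (R+1) → ZMod ℓ) × ℕ) (q : ℝ) (hq0 : 0 ≤ q) (hq1 : q ≤ 1) :
    Ex (Vs T) (Pw T p) (fun x => (xi ℓ L T x g - q * eta ℓ L t x g) *
      (xi ℓ L T x g' - q * eta ℓ L t x g')) ≤ 1 := by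
  rw [← Ex_one (ι := ZMod ℓ) (Vs T) (Pw T p) (Pw_sum hpos)]
  refine Ex_mono _ _ (Pw_nonneg hp hsum) _ _ fun x => ?_
  have key : ∀ g : (Fin (R+1) → ZMod ℓ) × ℕ, |xi ℓ L T x g - q * eta ℓ L t x g| ≤ 1 := by
    intro g
    rw [abs_le]
    rcases xi_mem (L := L) (T := T) (x := x) (g := g) with h | h <;>
    rcases eta_mem (L := L) (x := x) (g := g) (t := t) with h' | h' <;>
    · first
        | rw [h.1, h']
        | rw [h, h']
      constructor <;> linarith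
  calc (xi ℓ L T x g - q * eta ℓ L t x g) * (xi ℓ L T x g' - q * eta ℓ L t x g')
      ≤ |(xi ℓ L T x g - q * eta ℓ L t x g) * (xi ℓ L T x g' - q * eta ℓ L t x g')| := le_abs_self _
    _ = |xi ℓ L T x g - q * eta ℓ L t x g| * |xi ℓ L T x g' - q * eta ℓ L t x g'| := abs_mul _ _
    _ ≤ 1 * 1 := mul_le_mul (key g) (key g') (abs_nonneg _) zero_le_one
    _ = 1 := one_mul 1

end Piece

end Crest.Agent.R075.Pack
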