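import Crest.Agent.R075.Pack

set_option autoImplicit false
set_option linter.unusedSectionVars false

namespace Crest.Agent.R075.Pack

open Finset

section Count

variable {R ℓ : ℕ} [hℓ : Fact ℓ.Prime]

def dotH (a : Fin (R+1) → ℤ) : (Fin (R+1) → ZMod ℓ) →+ ZMod ℓ :=
  AddMonoidHom.mk' (fun w => ∑ i, (a i : ZMod ℓ) * w i) (by
    intro w w'
    rw [← sum_add_distrib]
    exact sum_congr rfl fun i _ => by rw [Pi.add_apply]; ring)

lemma dotH_apply (a : Fin (R+1) → ℤ) (w : Fin (R+1) → ZMod ℓ) :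
    dotH a w = ∑ i, (a i : ZMod ℓ) * w i := rfl

lemma dotH_single (a : Fin (R+1) → ℤ) (i : Fin (R+1)) (x : ZMod ℓ) :
    dotH a (Pi.single i x) = (a i : ZMod ℓ) * x := by
  rw [dotH_apply, sum_eq_single i]
  · rw [Pi.single_eq_same]
  · intro j _ hj
    rw [Pi.single_eq_of_ne hj, mul_zero]
  · intro h; exact absurd (mem_univ i) h

lemma card_W : Fintype.card (Fin (R+1) → ZMod ℓ) = ℓ ^ (R+1) := by
  rw [Fintype.card_fun, ZMod.card, Fintype.card_fin]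

lemma card_one (a : Fin (R+1) → ℤ) {i : Fin (R+1)} (h : (a i : ZMod ℓ) ≠ 0) (c : ZMod ℓ) :
    (univ.filter fun w : Fin (R+1) → ZMod ℓ => dotH a w = c).card = ℓ ^ R := by
  have h1 := card_fiber (dotH (ℓ := ℓ) a) (fun y => ⟨Pi.single i ((a i : ZMod ℓ)⁻¹ * y), by
    rw [dotH_single, mul_inv_cancel_left₀ h]⟩) c
  rw [card_W, ZMod.card, pow_succ] at h1
  exact Nat.eq_of_mul_eq_mul_right hℓ.out.pos h1

def phi (t a a' : Fin (R+1) → ℤ) :
    ((Fin (R+1) → ZMod ℓ) × (Fin (R+1) → ZMod ℓ)) →+ (ZMod ℓ × ZMod ℓ) :=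
  AddMonoidHom.mk' (fun w => (dotH t w.1 - dotH t w.2, dotH a w.1 + dotH a' w.2)) (by
    intro w w'
    simp only [Prod.fst_add, Prod.snd_add, map_add, Prod.mk_add_mk]
    refine Prod.ext ?_ ?_ <;> simp only <;> ring)

lemma phi_apply (t a a' : Fin (R+1) → ℤ) (w : (Fin (R+1) → ZMod ℓ) × (Fin (R+1) → ZMod ℓ)) :
    phi t a a' w = (dotH t w.1 - dotH t w.2, dotH a w.1 + dotH a' w.2) := rfl

lemma surj1 (t a : Fin (R+1) → ℤ) (ht : (t 0 : ZMod ℓ) ≠ 0) {i : Fin (R+1)}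
    (ha : (a i : ZMod ℓ) ≠ 0) : Function.Surjective (phi (ℓ := ℓ) t a 0) := by
  rintro ⟨c1, c2⟩
  obtain ⟨w, hw⟩ : ∃ w : Fin (R+1) → ZMod ℓ, dotH a w = c2 :=
    ⟨Pi.single i ((a i : ZMod ℓ)⁻¹ * c2), by rw [dotH_single, mul_inv_cancel_left₀ ha]⟩
  refine ⟨(w, Pi.single 0 ((t 0 : ZMod ℓ)⁻¹ * (dotH t w - c1))), ?_⟩
  rw [phi_apply]
  simp only
  rw [dotH_single, mul_inv_cancel_left₀ ht, hw]
  refine Prod.ext ?_ ?_
  · simp only; ring
  · simp [dotH_apply]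

lemma surj1' (t a : Fin (R+1) → ℤ) (ht : (t 0 : ZMod ℓ) ≠ 0) {i : Fin (R+1)}
    (ha : (a i : ZMod ℓ) ≠ 0) : Function.Surjective (phi (ℓ := ℓ) t 0 a) := by
  rintro ⟨c1, c2⟩
  obtain ⟨w, hw⟩ : ∃ w : Fin (R+1) → ZMod ℓ, dotH a w = c2 :=
    ⟨Pi.single i ((a i : ZMod ℓ)⁻¹ * c2), by rw [dotH_single, mul_inv_cancel_left₀ ha]⟩
  refine ⟨(Pi.single 0 ((t 0 : ZMod ℓ)⁻¹ * (c1 + dotH t w)), w), ?_⟩
  rw [phi_apply]
  simp only
  rw [dotH_single, mul_inv_cancel_left₀ ht, hw]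
  refine Prod.ext ?_ ?_
  · simp only; ring
  · simp [dotH_apply]

lemma surj2 (t a a' : Fin (R+1) → ℤ) {i j : Fin (R+1)}
    (h : ((t i * a j - t j * a i : ℤ) : ZMod ℓ) ≠ 0) :
    Function.Surjective (phi (ℓ := ℓ) t a a') := by
  rintro ⟨c1, c2⟩
  push_cast at h
  set D : ZMod ℓ := (t i : ZMod ℓ) * a j - t j * a i with hD
  refine ⟨(Pi.single i (D⁻¹ * (c1 * a j - c2 * t j)) + Pi.single j (D⁻¹ * (t i * c2 - a i * c1)),
    0), ?_⟩
  rw [phi_apply]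
  simp only [map_add, dotH_single, map_zero]
  refine Prod.ext ?_ ?_
  · simp only
    field_simp
    rw [hD]; ring
  · simp only
    field_simp
    rw [hD]; ring

lemma card_two (t a a' : Fin (R+1) → ℤ) (hs : Function.Surjective (phi (ℓ := ℓ) t a a'))
    (c1 c2 : ZMod ℓ) :
    (univ.filter fun w : (Fin (R+1) → ZMod ℓ) × (Fin (R+1) → ZMod ℓ) =>
      dotH t w.1 - dotH t w.2 = c1 ∧ dotH a w.1 + dotH a' w.2 = c2).card = ℓ ^ (2 * R) := by
  have h1 := card_fiber (phi (ℓ := ℓ) t a a') hs (c1, c2)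
  have h2 : (univ.filter fun w : (Fin (R+1) → ZMod ℓ) × (Fin (R+1) → ZMod ℓ) =>
      phi t a a' w = (c1, c2)) = (univ.filter fun w => 
      dotH t w.1 - dotH t w.2 = c1 ∧ dotH a w.1 + dotH a' w.2 = c2) := by
    refine filter_congr fun w _ => ?_
    rw [phi_apply, Prod.mk.injEq]
  rw [h2, Fintype.card_prod, Fintype.card_prod, card_W, ZMod.card] at h1
  have h3 : ℓ ^ (R+1) * ℓ ^ (R+1) = ℓ ^ (2*R) * (ℓ * ℓ) := by ring
  rw [h3] at h1
  exact Nat.eq_of_mul_eq_mul_right (Nat.mul_pos hℓ.out.pos hℓ.out.pos) h1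

lemma blk_eq (L : ℕ) (t : Fin (R+1) → ℤ) (g : (Fin (R+1) → ZMod ℓ) × ℕ) :
    blk ℓ L t g = dotH t g.1 + ((t 0 * g.2 / L : ℤ) : ZMod ℓ) := rfl

lemma card_event (L : ℕ) (t a a' : Fin (R+1) → ℤ)
    (hs : Function.Surjective (phi (ℓ := ℓ) t a a'))
    (E : Finset (((Fin (R+1) → ZMod ℓ) × ℕ) × ((Fin (R+1) → ZMod ℓ) × ℕ)))
    (c : ℕ → ℕ → ZMod ℓ)
    (hE : ∀ g ∈ E, (g.1.2 < L ∧ g.2.2 < L) ∧ key ℓ L t g.1 = key ℓ L t g.2 ∧
      dotH a g.1.1 + dotH a' g.2.1 = c g.1.2 g.2.2) :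
    E.card ≤ L ^ 2 * ℓ ^ (2 * R) := by
  have h := card_le_mul_card_image_of_maps_to
    (s := E) (t := range L ×ˢ range L) (f := fun g => (g.1.2, g.2.2)) ?_ (ℓ ^ (2 * R)) ?_
  · rw [card_product, card_range] at h
    calc _ ≤ _ := h
      _ = _ := by ring
  · intro g hg
    exact mem_product.2 ⟨mem_range.2 (hE g hg).1.1, mem_range.2 (hE g hg).1.2⟩
  · rintro ⟨r, r'⟩ _
    rw [← card_two t a a' hs ((t 0 * r' / L : ℤ) - (t 0 * r / L : ℤ)) (c r r')]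
    refine card_le_card_of_injOn (fun g => (g.1.1, g.2.1)) ?_ ?_
    · intro g hg
      rw [mem_coe, mem_filter] at hg
      obtain ⟨hgE, hr⟩ := hg
      obtain ⟨_, hkey, hcond⟩ := hE g hgE
      rw [Prod.mk.injEq] at hr
      rw [mem_coe, mem_filter]
      refine ⟨mem_univ _, ?_, ?_⟩
      · unfold key at hkey
        rw [Prod.mk.injEq, blk_eq, blk_eq] at hkey
        have := hkey.1
        rw [hr.1, hr.2] at this
        linear_combination this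
      · simp only
        rw [hcond, hr.1, hr.2]
    · intro g hg g' hg' hgg
      rw [mem_coe, mem_filter] at hg hg'
      simp only [Prod.mk.injEq] at hgg
      have h1 := hg.2.trans hg'.2.symm
      rw [Prod.mk.injEq] at h1
      exact Prod.ext (Prod.ext hgg.1 h1.1) (Prod.ext hgg.2 h1.2)

structure Gen (ℓ : ℕ) (T : Finset (Fin (R+1) → ℤ)) : Prop where
  h0 : ∀ t ∈ T, ((t 0 : ℤ) : ZMod ℓ) ≠ 0
  hd : ∀ t ∈ T, ∀ t' ∈ T, t ≠ t' → ∃ i, ((t i - t' i : ℤ) : ZMod ℓ) ≠ 0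
  hs : ∀ t ∈ T, ∀ t' ∈ T, ((t 0 + t' 0 : ℤ) : ZMod ℓ) ≠ 0
  hm : ∀ t ∈ T, ∀ t' ∈ T, t ≠ t' → ∃ i j, ((t i * t' j - t j * t' i : ℤ) : ZMod ℓ) ≠ 0

variable {T : Finset (Fin (R+1) → ℤ)}

lemma dotH_sub (a b : Fin (R+1) → ℤ) (w : Fin (R+1) → ZMod ℓ) :
    dotH (a - b) w = dotH a w - dotH b w := by
  simp only [dotH_apply, ← sum_sub_distrib, Pi.sub_apply]
  exact sum_congr rfl fun i _ => by push_cast; ring

lemma dotH_add (a b : Fin (R+1) → ℤ) (w : Fin (R+1) → ZMod ℓ) :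
    dotH (a + b) w = dotH a w + dotH b w := by
  simp only [dotH_apply, ← sum_add_distrib, Pi.add_apply]
  exact sum_congr rfl fun i _ => by push_cast; ring

lemma dotH_neg (a : Fin (R+1) → ℤ) (w : Fin (R+1) → ZMod ℓ) :
    dotH (-a) w = - dotH a w := by
  simp only [dotH_apply, ← sum_neg_distrib, Pi.neg_apply]
  exact sum_congr rfl fun i _ => by push_cast; ring

lemma dotH_zero (w : Fin (R+1) → ZMod ℓ) : dotH (0 : Fin (R+1) → ℤ) w = 0 := by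
  simp [dotH_apply]

open Classical in
lemma card_bad (hG : Gen ℓ T) (L : ℕ) {t : Fin (R+1) → ℤ} (ht : t ∈ T) :
    ((Gs R ℓ L ×ˢ Gs R ℓ L).filter fun g => key ℓ L t g.1 = key ℓ L t g.2 ∧
      ¬ good2 ℓ L T t g.1 g.2).card ≤ 6 * (T.card ^ 2 * (L ^ 2 * ℓ ^ (2 * R))) := by
  set G2 := Gs R ℓ L ×ˢ Gs R ℓ L with hG2
  let K : ((Fin (R+1) → ZMod ℓ) × ℕ) × ((Fin (R+1) → ZMod ℓ) × ℕ) → Prop :=
    fun g => key ℓ L t g.1 = key ℓ L t g.2
  let E0 : ((Fin (R+1) → ℤ) × (Fin (R+1) → ℤ)) →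
      Finset (((Fin (R+1) → ZMod ℓ) × ℕ) × ((Fin (R+1) → ZMod ℓ) × ℕ)) := fun s =>
    G2.filter fun g => K g ∧ (s.1 ≠ s.2 ∧ blk ℓ L s.1 g.1 = blk ℓ L s.2 g.1)
  let E1 : ((Fin (R+1) → ℤ) × (Fin (R+1) → ℤ)) →
      Finset (((Fin (R+1) → ZMod ℓ) × ℕ) × ((Fin (R+1) → ZMod ℓ) × ℕ)) := fun s =>
    G2.filter fun g => K g ∧ (blk ℓ L s.1 g.1 = -1 - blk ℓ L s.2 g.1)
  let E2 : ((Fin (R+1) → ℤ) × (Fin (R+1) → ℤ)) →
      Finset (((Fin (R+1) → ZMod ℓ) × ℕ) × ((Fin (R+1) → ZMod ℓ) × ℕ)) := fun s =>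
    G2.filter fun g => K g ∧ (s.1 ≠ s.2 ∧ blk ℓ L s.1 g.2 = blk ℓ L s.2 g.2)
  let E3 : ((Fin (R+1) → ℤ) × (Fin (R+1) → ℤ)) →
      Finset (((Fin (R+1) → ZMod ℓ) × ℕ) × ((Fin (R+1) → ZMod ℓ) × ℕ)) := fun s =>
    G2.filter fun g => K g ∧ (blk ℓ L s.1 g.2 = -1 - blk ℓ L s.2 g.2)
  let E4 : ((Fin (R+1) → ℤ) × (Fin (R+1) → ℤ)) →
      Finset (((Fin (R+1) → ZMod ℓ) × ℕ) × ((Fin (R+1) → ZMod ℓ) × ℕ)) := fun s =>
    G2.filter fun g => K g ∧ (s.1 ≠ t ∧ blk ℓ L s.1 g.1 = blk ℓ L s.2 g.2)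
  let E5 : ((Fin (R+1) → ℤ) × (Fin (R+1) → ℤ)) →
      Finset (((Fin (R+1) → ZMod ℓ) × ℕ) × ((Fin (R+1) → ZMod ℓ) × ℕ)) := fun s =>
    G2.filter fun g => K g ∧ (s.1 ≠ t ∧ blk ℓ L s.1 g.1 = -1 - blk ℓ L s.2 g.2)
  have hGm : ∀ g ∈ G2, g.1.2 < L ∧ g.2.2 < L := by
    intro g hg
    rw [hG2, mem_product] at hg
    unfold Gs at hg
    rw [mem_product, mem_product] at hg
    exact ⟨mem_range.1 hg.1.2, mem_range.1 hg.2.2⟩
  have hsub : (G2.filter fun g => key ℓ L t g.1 = key ℓ L t g.2 ∧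
      ¬ good2 ℓ L T t g.1 g.2) ⊆ (T ×ˢ T).biUnion E0 ∪ ((T ×ˢ T).biUnion E1 ∪
        ((T ×ˢ T).biUnion E2 ∪ ((T ×ˢ T).biUnion E3 ∪ ((T ×ˢ T).biUnion E4 ∪
        (T ×ˢ T).biUnion E5)))) := by
    intro g hg
    rw [mem_filter] at hg
    obtain ⟨hg1, hK, hbad⟩ := hg
    simp only [mem_union, mem_biUnion]
    by_contra hcon
    push Not at hcon
    obtain ⟨c0, c1, c2, c3, c4, c5⟩ := hcon
    apply hbad
    refine ⟨⟨?_, ?_⟩, ⟨?_, ?_⟩, ?_⟩
    · intro a ha b hb h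
      exact c1 (a, b) (mem_product.2 ⟨ha, hb⟩) (mem_filter.2 ⟨hg1, hK, h⟩)
    · intro a ha b hb hne h
      exact c0 (a, b) (mem_product.2 ⟨ha, hb⟩) (mem_filter.2 ⟨hg1, hK, hne, h⟩)
    · intro a ha b hb h
      exact c3 (a, b) (mem_product.2 ⟨ha, hb⟩) (mem_filter.2 ⟨hg1, hK, h⟩)
    · intro a ha b hb hne h
      exact c2 (a, b) (mem_product.2 ⟨ha, hb⟩) (mem_filter.2 ⟨hg1, hK, hne, h⟩)
    · intro a ha b hb
      have ha' := mem_erase.1 ha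
      have hb' := mem_erase.1 hb
      refine ⟨fun h => ?_, fun h => ?_⟩
      · exact c4 (a, b) (mem_product.2 ⟨ha'.2, hb'.2⟩) (mem_filter.2 ⟨hg1, hK, ha'.1, h⟩)
      · exact c5 (a, b) (mem_product.2 ⟨ha'.2, hb'.2⟩) (mem_filter.2 ⟨hg1, hK, ha'.1, h⟩)
  have e0 : ∀ s ∈ T ×ˢ T, (E0 s).card ≤ L ^ 2 * ℓ ^ (2 * R) := by
    rintro ⟨a, b⟩ hab
    rw [mem_product] at hab
    by_cases hne : a = b
    · have : E0 (a, b) = ∅ := by
        apply filter_eq_empty_iff.2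
        rintro g _ ⟨_, h, _⟩
        exact h hne
      rw [this, card_empty]; exact Nat.zero_le _
    · obtain ⟨i, hi⟩ := hG.hd a hab.1 b hab.2 hne
      refine card_event L t (a - b) 0 (surj1 t (a-b) (hG.h0 t ht) (i := i) (by simpa using hi))
        (E0 (a, b))
        (fun r _ => ((b 0 * r / L : ℤ) : ZMod ℓ) - ((a 0 * r / L : ℤ) : ZMod ℓ)) ?_
      intro g hg
      obtain ⟨hgG, hK, _, h⟩ := mem_filter.1 hg
      refine ⟨hGm g hgG, hK, ?_⟩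
      simp only [blk_eq] at h
      rw [dotH_sub, dotH_zero]
      linear_combination h
  have e1 : ∀ s ∈ T ×ˢ T, (E1 s).card ≤ L ^ 2 * ℓ ^ (2 * R) := by
    rintro ⟨a, b⟩ hab
    rw [mem_product] at hab
    refine card_event L t (a + b) 0 (surj1 t (a+b) (hG.h0 t ht) (i := 0) (by
        simpa using hG.hs a hab.1 b hab.2))
      (E1 (a, b))
      (fun r _ => -1 - ((b 0 * r / L : ℤ) : ZMod ℓ) - ((a 0 * r / L : ℤ) : ZMod ℓ)) ?_
    intro g hg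
    obtain ⟨hgG, hK, h⟩ := mem_filter.1 hg
    refine ⟨hGm g hgG, hK, ?_⟩
    simp only [blk_eq] at h
    rw [dotH_add, dotH_zero]
    linear_combination h
  have e2 : ∀ s ∈ T ×ˢ T, (E2 s).card ≤ L ^ 2 * ℓ ^ (2 * R) := by
    rintro ⟨a, b⟩ hab
    rw [mem_product] at hab
    by_cases hne : a = b
    · have : E2 (a, b) = ∅ := by
        apply filter_eq_empty_iff.2
        rintro g _ ⟨_, h, _⟩
        exact h hne
      rw [this, card_empty]; exact Nat.zero_le _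
    · obtain ⟨i, hi⟩ := hG.hd a hab.1 b hab.2 hne
      refine card_event L t 0 (a - b) (surj1' t (a-b) (hG.h0 t ht) (i := i) (by simpa using hi))
        (E2 (a, b))
        (fun _ r => ((b 0 * r / L : ℤ) : ZMod ℓ) - ((a 0 * r / L : ℤ) : ZMod ℓ)) ?_
      intro g hg
      obtain ⟨hgG, hK, _, h⟩ := mem_filter.1 hg
      refine ⟨hGm g hgG, hK, ?_⟩
      simp only [blk_eq] at h
      rw [dotH_sub, dotH_zero]
      linear_combination h
  have e3 : ∀ s ∈ T ×ˢ T, (E3 s).card ≤ L ^ 2 * ℓ ^ (2 * R) := by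
    rintro ⟨a, b⟩ hab
    rw [mem_product] at hab
    refine card_event L t 0 (a + b) (surj1' t (a+b) (hG.h0 t ht) (i := 0) (by
        simpa using hG.hs a hab.1 b hab.2))
      (E3 (a, b))
      (fun _ r => -1 - ((b 0 * r / L : ℤ) : ZMod ℓ) - ((a 0 * r / L : ℤ) : ZMod ℓ)) ?_
    intro g hg
    obtain ⟨hgG, hK, h⟩ := mem_filter.1 hg
    refine ⟨hGm g hgG, hK, ?_⟩
    simp only [blk_eq] at h
    rw [dotH_add, dotH_zero]
    linear_combination h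
  have e4 : ∀ s ∈ T ×ˢ T, (E4 s).card ≤ L ^ 2 * ℓ ^ (2 * R) := by
    rintro ⟨a, b⟩ hab
    rw [mem_product] at hab
    by_cases hne : a = t
    · have : E4 (a, b) = ∅ := by
        apply filter_eq_empty_iff.2
        rintro g _ ⟨_, h, _⟩
        exact h hne
      rw [this, card_empty]; exact Nat.zero_le _
    · obtain ⟨i, j, hij⟩ := hG.hm t ht a hab.1 (Ne.symm hne)
      refine card_event L t a (-b) (surj2 t a (-b) hij)
        (E4 (a, b))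
        (fun r r' => ((b 0 * r' / L : ℤ) : ZMod ℓ) - ((a 0 * r / L : ℤ) : ZMod ℓ)) ?_
      intro g hg
      obtain ⟨hgG, hK, _, h⟩ := mem_filter.1 hg
      refine ⟨hGm g hgG, hK, ?_⟩
      simp only [blk_eq] at h
      rw [dotH_neg]
      linear_combination h
  have e5 : ∀ s ∈ T ×ˢ T, (E5 s).card ≤ L ^ 2 * ℓ ^ (2 * R) := by
    rintro ⟨a, b⟩ hab
    rw [mem_product] at hab
    by_cases hne : a = t
    · have : E5 (a, b) = ∅ := by
        apply filter_eq_empty_iff.2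
        rintro g _ ⟨_, h, _⟩
        exact h hne
      rw [this, card_empty]; exact Nat.zero_le _
    · obtain ⟨i, j, hij⟩ := hG.hm t ht a hab.1 (Ne.symm hne)
      refine card_event L t a b (surj2 t a b hij)
        (E5 (a, b))
        (fun r r' => -1 - ((b 0 * r' / L : ℤ) : ZMod ℓ) - ((a 0 * r / L : ℤ) : ZMod ℓ)) ?_
      intro g hg
      obtain ⟨hgG, hK, _, h⟩ := mem_filter.1 hg
      refine ⟨hGm g hgG, hK, ?_⟩
      simp only [blk_eq] at h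
      linear_combination h
  have hcard : (T ×ˢ T).card = T.card ^ 2 := by rw [card_product]; ring
  have f0 := card_biUnion_le_card_mul (T ×ˢ T) E0 _ e0
  have f1 := card_biUnion_le_card_mul (T ×ˢ T) E1 _ e1
  have f2 := card_biUnion_le_card_mul (T ×ˢ T) E2 _ e2
  have f3 := card_biUnion_le_card_mul (T ×ˢ T) E3 _ e3
  have f4 := card_biUnion_le_card_mul (T ×ˢ T) E4 _ e4
  have f5 := card_biUnion_le_card_mul (T ×ˢ T) E5 _ e5
  rw [hcard] at f0 f1 f2 f3 f4 f5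
  refine (card_le_card hsub).trans ?_
  refine (card_union_le _ _).trans ?_
  refine (Nat.add_le_add_left (card_union_le _ _) _).trans ?_
  refine (Nat.add_le_add_left (Nat.add_le_add_left (card_union_le _ _) _) _).trans ?_
  refine (Nat.add_le_add_left (Nat.add_le_add_left (Nat.add_le_add_left
    (card_union_le _ _) _) _) _).trans ?_
  refine (Nat.add_le_add_left (Nat.add_le_add_left (Nat.add_le_add_left
    (Nat.add_le_add_left (card_union_le _ _) _) _) _) _).trans ?_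
  omega

end Count

end Crest.Agent.R075.Pack
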