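import Crest.Agent.R075.PackCount

set_option autoImplicit false
set_option linter.unusedSectionVars false

namespace Crest.Agent.R075.Pack

open Finset

section Main

variable {R ℓ : ℕ} [hℓ : Fact ℓ.Prime]

lemma card_event1 (L : ℕ) (a : Fin (R+1) → ℤ) {i : Fin (R+1)} (ha : (a i : ZMod ℓ) ≠ 0)
    (E : Finset ((Fin (R+1) → ZMod ℓ) × ℕ)) (c : ℕ → ZMod ℓ)
    (hE : ∀ g ∈ E, g.2 < L ∧ dotH a g.1 = c g.2) :
    E.card ≤ L * ℓ ^ R := by
  have h := card_le_mul_card_image_of_maps_to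
    (s := E) (t := range L) (f := fun g => g.2) ?_ (ℓ ^ R) ?_
  · rw [card_range] at h
    calc _ ≤ _ := h
      _ = _ := by ring
  · intro g hg
    exact mem_range.2 (hE g hg).1
  · intro r _
    rw [← card_one a ha (c r)]
    refine card_le_card_of_injOn (fun g => g.1) ?_ ?_
    · intro g hg
      rw [mem_coe, mem_filter] at hg
      rw [mem_coe, mem_filter]
      refine ⟨mem_univ _, ?_⟩
      rw [(hE g hg.1).2, hg.2]
    · intro g hg g' hg' hgg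
      rw [mem_coe, mem_filter] at hg hg'
      exact Prod.ext hgg (hg.2.trans hg'.2.symm)

variable {T : Finset (Fin (R+1) → ℤ)}

open Classical in
lemma card_bad1 (hG : Gen ℓ T) (L : ℕ) :
    ((Gs R ℓ L).filter fun g => ¬ good1 ℓ L T g).card ≤ 2 * (T.card ^ 2 * (L * ℓ ^ R)) := by
  let E0 : ((Fin (R+1) → ℤ) × (Fin (R+1) → ℤ)) → Finset ((Fin (R+1) → ZMod ℓ) × ℕ) := fun s =>
    (Gs R ℓ L).filter fun g => (s.1 ≠ s.2 ∧ blk ℓ L s.1 g = blk ℓ L s.2 g)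
  let E1 : ((Fin (R+1) → ℤ) × (Fin (R+1) → ℤ)) → Finset ((Fin (R+1) → ZMod ℓ) × ℕ) := fun s =>
    (Gs R ℓ L).filter fun g => (blk ℓ L s.1 g = -1 - blk ℓ L s.2 g)
  have hGm : ∀ g ∈ Gs R ℓ L, g.2 < L := by
    intro g hg
    unfold Gs at hg
    rw [mem_product] at hg
    exact mem_range.1 hg.2
  have hsub : ((Gs R ℓ L).filter fun g => ¬ good1 ℓ L T g) ⊆ (T ×ˢ T).biUnion E0 ∪
      (T ×ˢ T).biUnion E1 := by
    intro g hg
    rw [mem_filter] at hg
    obtain ⟨hg1, hbad⟩ := hg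
    simp only [mem_union, mem_biUnion]
    by_contra hcon
    push Not at hcon
    obtain ⟨c0, c1⟩ := hcon
    apply hbad
    refine ⟨?_, ?_⟩
    · intro a ha b hb h
      exact c1 (a, b) (mem_product.2 ⟨ha, hb⟩) (mem_filter.2 ⟨hg1, h⟩)
    · intro a ha b hb hne h
      exact c0 (a, b) (mem_product.2 ⟨ha, hb⟩) (mem_filter.2 ⟨hg1, hne, h⟩)
  have e0 : ∀ s ∈ T ×ˢ T, (E0 s).card ≤ L * ℓ ^ R := by
    rintro ⟨a, b⟩ hab
    rw [mem_product] at hab
    by_cases hne : a = b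
    · have : E0 (a, b) = ∅ := by
        apply filter_eq_empty_iff.2
        rintro g _ ⟨h, _⟩
        exact h hne
      rw [this, card_empty]; exact Nat.zero_le _
    · obtain ⟨i, hi⟩ := hG.hd a hab.1 b hab.2 hne
      refine card_event1 L (a - b) (i := i) (by simpa using hi) (E0 (a, b))
        (fun r => ((b 0 * r / L : ℤ) : ZMod ℓ) - ((a 0 * r / L : ℤ) : ZMod ℓ)) ?_
      intro g hg
      obtain ⟨hgG, _, h⟩ := mem_filter.1 hg
      refine ⟨hGm g hgG, ?_⟩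
      simp only [blk_eq] at h
      rw [dotH_sub]
      linear_combination h
  have e1 : ∀ s ∈ T ×ˢ T, (E1 s).card ≤ L * ℓ ^ R := by
    rintro ⟨a, b⟩ hab
    rw [mem_product] at hab
    refine card_event1 L (a + b) (i := 0) (by simpa using hG.hs a hab.1 b hab.2) (E1 (a, b))
      (fun r => -1 - ((b 0 * r / L : ℤ) : ZMod ℓ) - ((a 0 * r / L : ℤ) : ZMod ℓ)) ?_
    intro g hg
    obtain ⟨hgG, h⟩ := mem_filter.1 hg
    refine ⟨hGm g hgG, ?_⟩
    simp only [blk_eq] at h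
    rw [dotH_add]
    linear_combination h
  have hcard : (T ×ˢ T).card = T.card ^ 2 := by rw [card_product]; ring
  have f0 := card_biUnion_le_card_mul (T ×ˢ T) E0 _ e0
  have f1 := card_biUnion_le_card_mul (T ×ˢ T) E1 _ e1
  rw [hcard] at f0 f1
  refine (card_le_card hsub).trans ?_
  refine (card_union_le _ _).trans ?_
  omega

lemma card_res (a m : ℕ) (hm : 0 < m) (c : ℕ) :
    ((range (a * m)).filter fun r => r % m = c % m).card = a := by
  have h := Nat.count_modEq_card (b := a * m) (r := m) hm c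
  rw [Nat.count_eq_card_filter_range, Nat.mul_div_cancel _ hm, Nat.mul_mod_left,
    if_neg (Nat.not_lt_zero _), add_zero] at h
  exact h

lemma card_key {t : Fin (R+1) → ℤ} (ht : (t 0 : ZMod ℓ) ≠ 0) {a m : ℕ} (ha : t 0 = a)
    (ha0 : 0 < a) (hm : 0 < m) {g0 : (Fin (R+1) → ZMod ℓ) × ℕ} :
    ((Gs R ℓ (a * m)).filter fun g => key ℓ (a * m) t g = key ℓ (a * m) t g0).card =
      a * ℓ ^ R := by
  classical
  have hcond : ∀ r : ℕ, (t 0 * r % ((a * m : ℕ) : ℤ) = t 0 * g0.2 % ((a * m : ℕ) : ℤ)) ↔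
      r % m = g0.2 % m := by
    intro r
    rw [ha]
    push_cast
    rw [Int.mul_emod_mul_of_pos _ _ (by exact_mod_cast ha0),
      Int.mul_emod_mul_of_pos _ _ (by exact_mod_cast ha0)]
    constructor
    · intro h
      have h2 : ((r : ℤ) % m) = ((g0.2 : ℤ) % m) :=
        mul_left_cancel₀ (by exact_mod_cast ha0.ne') h
      exact_mod_cast h2
    · intro h
      have h2 : ((r : ℤ) % m) = ((g0.2 : ℤ) % m) := by exact_mod_cast h
      rw [h2]
  unfold Gs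
  rw [card_filter, sum_product_right]
  have h1 : ∀ r ∈ range (a * m), (∑ w : Fin (R+1) → ZMod ℓ,
      if key ℓ (a * m) t (w, r) = key ℓ (a * m) t g0 then 1 else 0) =
      if r % m = g0.2 % m then ℓ ^ R else 0 := by
    intro r _
    by_cases hr : r % m = g0.2 % m
    · rw [if_pos hr, ← card_filter, ← card_one t ht (blk ℓ (a * m) t g0 -
        ((t 0 * r / (a * m : ℕ) : ℤ) : ZMod ℓ))]
      congr 1
      refine filter_congr fun w _ => ?_
      unfold key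
      rw [Prod.mk.injEq]
      constructor
      · rintro ⟨h, _⟩
        rw [← h, blk_eq]
        simp
      · intro h
        refine ⟨?_, (hcond r).2 hr⟩
        rw [blk_eq]
        simp only
        rw [h]; ring
    · rw [if_neg hr]
      refine sum_eq_zero fun w _ => if_neg ?_
      intro h
      unfold key at h
      rw [Prod.mk.injEq] at h
      exact hr ((hcond r).1 h.2)
  rw [sum_congr rfl h1, ← sum_filter, sum_const, card_res a m hm, smul_eq_mul]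

/-- size of an arc -/
lemma card_key' {L : ℕ} (hL : 0 < L) {t : Fin (R+1) → ℤ} (ht : (t 0 : ZMod ℓ) ≠ 0)
    (ht1 : 1 ≤ t 0) (hd : t 0 ∣ (L : ℤ)) (b : ZMod ℓ × ℤ)
    (hb : ∃ g0, b = key ℓ L t g0) :
    ((((Gs R ℓ L).filter fun g => key ℓ L t g = b).card : ℕ) : ℝ) = (t 0 : ℝ) * (ℓ : ℝ) ^ R := by
  obtain ⟨g0, rfl⟩ := hb
  obtain ⟨a, ha⟩ := Int.eq_ofNat_of_zero_le (by omega : 0 ≤ t 0)
  obtain ⟨m, hm⟩ := hd
  have ha0 : 0 < a := by omega
  have hm0 : 0 < m := by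
    by_contra h
    push Not at h
    have : (L : ℤ) ≤ 0 := by rw [hm]; exact mul_nonpos_of_nonneg_of_nonpos (by omega) h
    omega
  obtain ⟨m', rfl⟩ := Int.eq_ofNat_of_zero_le hm0.le
  have hL' : L = a * m' := by
    rw [ha] at hm
    exact_mod_cast hm
  subst hL'
  rw [card_key ht ha ha0 (by exact_mod_cast hm0), ha]
  push_cast
  ring

noncomputable def Xl (ℓ L : ℕ) [NeZero ℓ] (T : Finset (Fin (R+1) → ℤ))
    (x : ZMod ℓ → (Fin (R+1) → ℤ)) (t : Fin (R+1) → ℤ) (b : ZMod ℓ × ℤ) : ℝ :=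
  ∑ g ∈ (Gs R ℓ L).filter fun g => key ℓ L t g = b, xi ℓ L T x g

noncomputable def dd (ℓ L : ℕ) [NeZero ℓ] (T : Finset (Fin (R+1) → ℤ)) (q : ℝ)
    (x : ZMod ℓ → (Fin (R+1) → ℤ)) (t : Fin (R+1) → ℤ) (g : (Fin (R+1) → ZMod ℓ) × ℕ) : ℝ :=
  xi ℓ L T x g - q * eta ℓ L t x g

noncomputable def Mt (ℓ L : ℕ) [NeZero ℓ] (T : Finset (Fin (R+1) → ℤ)) (q : ℝ)
    (x : ZMod ℓ → (Fin (R+1) → ℤ)) (t : Fin (R+1) → ℤ) : ℝ :=
  ∑ g ∈ (Gs R ℓ L ×ˢ Gs R ℓ L).filter (fun g => key ℓ L t g.1 = key ℓ L t g.2),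
    dd ℓ L T q x t g.1 * dd ℓ L T q x t g.2

lemma Mt_eq (L : ℕ) (q : ℝ) (x : ZMod ℓ → (Fin (R+1) → ℤ)) (t : Fin (R+1) → ℤ) :
    Mt ℓ L T q x t = ∑ b ∈ (Gs R ℓ L).image (key ℓ L t),
      (∑ g ∈ (Gs R ℓ L).filter fun g => key ℓ L t g = b, dd ℓ L T q x t g) ^ 2 := by
  unfold Mt
  rw [sum_filter, sum_product]
  rw [← sum_fiberwise_of_maps_to (s := Gs R ℓ L) (t := (Gs R ℓ L).image (key ℓ L t))
    (g := key ℓ L t) (fun g hg => mem_image_of_mem _ hg)]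
  refine sum_congr rfl fun b _ => ?_
  rw [pow_two, sum_mul_sum]
  refine sum_congr rfl fun g hg => ?_
  rw [mem_filter] at hg
  rw [← sum_filter]
  refine sum_congr ?_ fun g' _ => rfl
  refine filter_congr fun g' _ => ?_
  simp only [hg.2]
  exact eq_comm

lemma Ex_Mt_le (hG : Gen ℓ T) {p : (Fin (R+1) → ℤ) → ℝ} (hp : ∀ t ∈ T, 0 < p t)
    (hsum : 2 * ∑ t ∈ T, p t ≤ 1) (hpos : ∀ t ∈ T, 1 ≤ t 0) (L : ℕ)
    {t : Fin (R+1) → ℤ} (ht : t ∈ T) (q : ℝ) (hq : q = ∏ t' ∈ T.erase t, p t') (hq0 : 0 ≤ q)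
    (hq1 : q ≤ 1) :
    Ex (Vs T) (Pw T p) (fun x => Mt ℓ L T q x t) ≤
      6 * ((T.card : ℝ) ^ 2 * ((L : ℝ) ^ 2 * (ℓ : ℝ) ^ (2 * R))) := by
  classical
  unfold Mt
  rw [Ex_sum]
  have hb := card_bad hG L ht
  have hb' : ((((Gs R ℓ L ×ˢ Gs R ℓ L).filter fun g => key ℓ L t g.1 = key ℓ L t g.2 ∧
      ¬ good2 ℓ L T t g.1 g.2).card : ℕ) : ℝ) ≤
      6 * ((T.card : ℝ) ^ 2 * ((L : ℝ) ^ 2 * (ℓ : ℝ) ^ (2 * R))) := by
    exact_mod_cast hb
  refine le_trans ?_ hb'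
  have hc : ((((Gs R ℓ L ×ˢ Gs R ℓ L).filter fun g => key ℓ L t g.1 = key ℓ L t g.2 ∧
      ¬ good2 ℓ L T t g.1 g.2).card : ℕ) : ℝ) =
      ∑ g ∈ (Gs R ℓ L ×ˢ Gs R ℓ L).filter (fun g => key ℓ L t g.1 = key ℓ L t g.2),
        if ¬ good2 ℓ L T t g.1 g.2 then (1:ℝ) else 0 := by
    rw [← filter_filter, card_filter]
    push_cast
    rfl
  rw [hc]
  refine sum_le_sum fun g hg => ?_
  rw [mem_filter] at hg
  by_cases hgood : good2 ℓ L T t g.1 g.2
  · rw [if_neg (not_not.2 hgood)]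
    have hk := hg.2
    unfold key at hk
    rw [Prod.mk.injEq] at hk
    exact (cross_zero hpos ht hgood hk.1 q hq).le
  · rw [if_pos hgood]
    exact cross_le hp hsum hpos g.1 g.2 q hq0 hq1

lemma Xl_bound {L : ℕ} (hL : 0 < L) (hG : Gen ℓ T) (hpos : ∀ t ∈ T, 1 ≤ t 0)
    (hdvd : ∀ t ∈ T, t 0 ∣ (L : ℤ)) {t : Fin (R+1) → ℤ} (ht : t ∈ T)
    {q e mu : ℝ} (hq : 0 < q) (he : 0 < e) (hmu : mu = (t 0 : ℝ) * (ℓ : ℝ) ^ R * q)
    (x : ZMod ℓ → (Fin (R+1) → ℤ)) :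
    ∑ g ∈ (Gs R ℓ L).filter (fun g => (1 + e) * mu < Xl ℓ L T x t (key ℓ L t g)),
      xi ℓ L T x g ≤ (1 + e) / e ^ 2 / mu * Mt ℓ L T q x t := by
  classical
  have ht1 := hpos t ht
  have hmu0 : 0 < mu := by
    rw [hmu]
    have h1 : (0:ℝ) < t 0 := by exact_mod_cast (by omega : 0 < t 0)
    have h2 : (0:ℝ) < (ℓ : ℝ) ^ R := pow_pos (by exact_mod_cast hℓ.out.pos) _
    positivity
  rw [Mt_eq, mul_sum, sum_filter]
  rw [← sum_fiberwise_of_maps_to (s := Gs R ℓ L) (t := (Gs R ℓ L).image (key ℓ L t))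
    (g := key ℓ L t) (fun g hg => mem_image_of_mem _ hg)]
  refine sum_le_sum fun b hb => ?_
  by_cases hX : (1 + e) * mu < Xl ℓ L T x t b
  · have h1 : (∑ g ∈ (Gs R ℓ L).filter fun g => key ℓ L t g = b,
        if (1 + e) * mu < Xl ℓ L T x t (key ℓ L t g) then xi ℓ L T x g else 0) =
        Xl ℓ L T x t b := by
      unfold Xl
      refine sum_congr rfl fun g hg => ?_
      rw [mem_filter] at hg
      rw [hg.2]
      exact if_pos hX
    rw [h1]
    have hex : ∃ g1 ∈ (Gs R ℓ L).filter fun g => key ℓ L t g = b, xi ℓ L T x g1 ≠ 0 := by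
      by_contra hcon
      push Not at hcon
      have : Xl ℓ L T x t b = 0 := sum_eq_zero hcon
      rw [this] at hX
      nlinarith
    obtain ⟨g1, hg1, hxi⟩ := hex
    have hsig : sig x (blk ℓ L t g1) = t := by
      rcases xi_mem (L := L) (T := T) (x := x) (g := g1) with h | h
      · exact absurd h hxi
      · exact h.2 t ht
    rw [mem_filter] at hg1
    have heta : ∀ g ∈ (Gs R ℓ L).filter (fun g => key ℓ L t g = b), eta ℓ L t x g = 1 := by
      intro g hg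
      rw [mem_filter] at hg
      have hk := hg.2.trans hg1.2.symm
      unfold key at hk
      rw [Prod.mk.injEq] at hk
      unfold eta
      rw [hk.1, if_pos hsig]
    have h2 : ∑ g ∈ (Gs R ℓ L).filter (fun g => key ℓ L t g = b), dd ℓ L T q x t g =
        Xl ℓ L T x t b - mu := by
      unfold dd Xl
      rw [sum_sub_distrib]
      congr 1
      rw [sum_congr rfl (fun g hg => by rw [heta g hg, mul_one]), sum_const, nsmul_eq_mul,
        card_key' hL (hG.h0 t ht) ht1 (hdvd t ht) b ⟨g1, hg1.2.symm⟩, hmu]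
    rw [h2]
    set y := Xl ℓ L T x t b - mu with hy
    have hy1 : e * mu < y := by rw [hy]; linarith
    have hX2 : Xl ℓ L T x t b = mu + y := by rw [hy]; ring
    rw [hX2, div_div, div_mul_eq_mul_div, le_div_iff₀ (by positivity)]
    have hemu : 0 < e * mu := by positivity
    have e1 : (e * mu) * (e * mu) ≤ y * y := mul_le_mul hy1.le hy1.le hemu.le (by linarith)
    have e2 : (e * mu) * (e * y) ≤ y * (e * y) :=
      mul_le_mul_of_nonneg_right hy1.le (by nlinarith)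
    nlinarith
  · have h1 : (∑ g ∈ (Gs R ℓ L).filter fun g => key ℓ L t g = b,
        if (1 + e) * mu < Xl ℓ L T x t (key ℓ L t g) then xi ℓ L T x g else 0) = 0 := by
      refine sum_eq_zero fun g hg => ?_
      rw [mem_filter] at hg
      rw [hg.2]
      exact if_neg hX
    rw [h1]
    positivity

/-- the pieces that are kept -/
noncomputable def Wx (ℓ L : ℕ) [NeZero ℓ] (T : Finset (Fin (R+1) → ℤ)) (c : (Fin (R+1) → ℤ) → ℝ)
    (x : ZMod ℓ → (Fin (R+1) → ℤ)) : Finset ((Fin (R+1) → ZMod ℓ) × ℕ) :=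
  (Gs R ℓ L).filter fun g => (∀ t ∈ T, sig x (blk ℓ L t g) = t) ∧
    ∀ t ∈ T, Xl ℓ L T x t (key ℓ L t g) ≤ c t

lemma Wx_card (L : ℕ) (c : (Fin (R+1) → ℤ) → ℝ) (x : ZMod ℓ → (Fin (R+1) → ℤ)) :
    ∑ g ∈ Gs R ℓ L, xi ℓ L T x g ≤ ((Wx ℓ L T c x).card : ℝ) +
      ∑ t ∈ T, ∑ g ∈ (Gs R ℓ L).filter (fun g => c t < Xl ℓ L T x t (key ℓ L t g)),
        xi ℓ L T x g := by
  classical
  unfold Wx
  rw [card_filter]
  push_cast
  simp_rw [sum_filter]
  rw [sum_comm, ← sum_add_distrib]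
  refine sum_le_sum fun g _ => ?_
  have hnn : ∀ t ∈ T, (0:ℝ) ≤ if c t < Xl ℓ L T x t (key ℓ L t g) then xi ℓ L T x g else 0 := by
    intro t _
    split_ifs
    · rcases xi_mem (L := L) (T := T) (x := x) (g := g) with h | h
      · rw [h]
      · rw [h.1]; exact zero_le_one
    · exact le_refl _
  rcases xi_mem (L := L) (T := T) (x := x) (g := g) with h | ⟨h, hs⟩
  · rw [h] at hnn ⊢
    have := sum_nonneg hnn
    split_ifs <;> linarith
  · by_cases hall : ∀ t ∈ T, Xl ℓ L T x t (key ℓ L t g) ≤ c t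
    · rw [if_pos ⟨hs, hall⟩, h]
      rw [h] at hnn
      have := sum_nonneg hnn
      linarith
    · rw [if_neg (fun h' => hall h'.2)]
      push Not at hall
      obtain ⟨t, ht, hlt⟩ := hall
      have := single_le_sum hnn ht
      rw [if_pos hlt] at this
      linarith

lemma core (hG : Gen ℓ T) {p : (Fin (R+1) → ℤ) → ℝ} (hp : ∀ t ∈ T, 0 < p t)
    (hsum : 2 * ∑ t ∈ T, p t ≤ 1) (hpos : ∀ t ∈ T, 1 ≤ t 0) {L : ℕ} (hL : 0 < L)
    (hdvd : ∀ t ∈ T, t 0 ∣ (L : ℤ)) {e : ℝ} (he : 0 < e) :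
    ∃ x : ZMod ℓ → (Fin (R+1) → ℤ),
      (L : ℝ) * (ℓ : ℝ) ^ (R+1) * ∏ t ∈ T, p t - (2 * ((T.card : ℝ) ^ 2 * L) * ∏ t ∈ T, p t +
        ∑ t ∈ T, (1 + e) / e ^ 2 * 6 * ((T.card : ℝ) ^ 2 * (L : ℝ) ^ 2) /
          ((t 0 : ℝ) * ∏ t' ∈ T.erase t, p t')) * (ℓ : ℝ) ^ R ≤
      ((Wx ℓ L T (fun t => (1 + e) * ((t 0 : ℝ) * (ℓ : ℝ) ^ R * ∏ t' ∈ T.erase t, p t')) x).card :
        ℝ) := by
  classical
  have hℓ0 : (0:ℝ) < ℓ := by exact_mod_cast hℓ.out.pos
  have hP0 : 0 < ∏ t ∈ T, p t := prod_pos hp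
  have hple : ∀ t ∈ T, p t ≤ 1 := by
    intro t ht
    have := single_le_sum (fun t' ht' => (hp t' ht').le) ht
    have h0 : 0 ≤ ∑ t ∈ T, p t := sum_nonneg fun t ht => (hp t ht).le
    linarith
  have hq0 : ∀ t ∈ T, 0 < ∏ t' ∈ T.erase t, p t' := fun t _ =>
    prod_pos fun t' ht' => hp t' (mem_of_mem_erase ht')
  have hq1 : ∀ t ∈ T, ∏ t' ∈ T.erase t, p t' ≤ 1 := fun t _ =>
    prod_le_one (fun t' ht' => (hp t' (mem_of_mem_erase ht')).le)
      (fun t' ht' => hple t' (mem_of_mem_erase ht'))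
  let q : (Fin (R+1) → ℤ) → ℝ := fun t => ∏ t' ∈ T.erase t, p t'
  let mu : (Fin (R+1) → ℤ) → ℝ := fun t => (t 0 : ℝ) * (ℓ : ℝ) ^ R * q t
  let F : (ZMod ℓ → (Fin (R+1) → ℤ)) → ℝ := fun x => ∑ g ∈ Gs R ℓ L, xi ℓ L T x g +
    ∑ t ∈ T, (-((1 + e) / e ^ 2 / mu t)) * Mt ℓ L T (q t) x t
  obtain ⟨x, hx⟩ := exists_ge (ι := ZMod ℓ) (Vs T) (Pw T p) (Pw_nonneg hp hsum) (Pw_sum hpos) F
  refine ⟨x, ?_⟩
  have hmu0 : ∀ t ∈ T, 0 < mu t := by
    intro t ht
    have h1 : (0:ℝ) < t 0 := by exact_mod_cast (by have := hpos t ht; omega : 0 < t 0)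
    have h2 := hq0 t ht
    exact mul_pos (mul_pos h1 (pow_pos hℓ0 _)) h2
  -- upper bound for F x
  have hF : F x ≤ ((Wx ℓ L T (fun t => (1 + e) * mu t) x).card : ℝ) := by
    have h1 := Wx_card (T := T) L (fun t => (1 + e) * mu t) x
    have h2 : ∑ t ∈ T, ∑ g ∈ (Gs R ℓ L).filter (fun g => (1 + e) * mu t <
        Xl ℓ L T x t (key ℓ L t g)), xi ℓ L T x g ≤
        ∑ t ∈ T, (1 + e) / e ^ 2 / mu t * Mt ℓ L T (q t) x t :=
      sum_le_sum fun t ht => Xl_bound hL hG hpos hdvd ht (hq0 t ht) he rfl x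
    have h3 : F x = ∑ g ∈ Gs R ℓ L, xi ℓ L T x g -
        ∑ t ∈ T, (1 + e) / e ^ 2 / mu t * Mt ℓ L T (q t) x t := by
      simp only [F]
      rw [sub_eq_add_neg, ← sum_neg_distrib]
      congr 1
      exact sum_congr rfl fun t _ => by ring
    rw [h3]
    linarith
  refine le_trans ?_ hF
  refine le_trans ?_ hx
  -- lower bound for the expectation
  have hE : Ex (Vs T) (Pw T p) F = ∑ g ∈ Gs R ℓ L, Ex (Vs T) (Pw T p) (fun x => xi ℓ L T x g) +
      ∑ t ∈ T, (-((1 + e) / e ^ 2 / mu t)) *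
        Ex (Vs T) (Pw T p) (fun x => Mt ℓ L T (q t) x t) := by
    simp only [F]
    rw [Ex_add, Ex_sum, Ex_sum]
    congr 1
    exact sum_congr rfl fun t _ => Ex_smul _ _ _ _
  rw [hE]
  have hcardG : ((Gs R ℓ L).card : ℝ) = (L : ℝ) * (ℓ : ℝ) ^ (R+1) := by
    unfold Gs
    rw [card_product, card_univ, card_W, card_range]
    push_cast; ring
  have h1 : (L : ℝ) * (ℓ : ℝ) ^ (R+1) * ∏ t ∈ T, p t -
      2 * ((T.card : ℝ) ^ 2 * L) * (∏ t ∈ T, p t) * (ℓ : ℝ) ^ R ≤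
      ∑ g ∈ Gs R ℓ L, Ex (Vs T) (Pw T p) (fun x => xi ℓ L T x g) := by
    have hb := card_bad1 hG (T := T) L
    have hb' : ((((Gs R ℓ L).filter fun g => ¬ good1 ℓ L T g).card : ℕ) : ℝ) ≤
        2 * ((T.card : ℝ) ^ 2 * (L * (ℓ : ℝ) ^ R)) := by exact_mod_cast hb
    have hsplit := card_filter_add_card_filter_not (s := Gs R ℓ L) (fun g => good1 ℓ L T g)
    have hsplit' : ((((Gs R ℓ L).filter fun g => good1 ℓ L T g).card : ℕ) : ℝ) +
        ((((Gs R ℓ L).filter fun g => ¬ good1 ℓ L T g).card : ℕ) : ℝ) =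
        (L : ℝ) * (ℓ : ℝ) ^ (R+1) := by
      rw [← hcardG]
      exact_mod_cast hsplit
    have hlow : ((((Gs R ℓ L).filter fun g => good1 ℓ L T g).card : ℕ) : ℝ) * ∏ t ∈ T, p t ≤
        ∑ g ∈ Gs R ℓ L, Ex (Vs T) (Pw T p) (fun x => xi ℓ L T x g) := by
      rw [← nsmul_eq_mul, ← sum_const, sum_filter]
      refine sum_le_sum fun g _ => ?_
      split_ifs with hg
      · exact (Ex_xi hpos hg).ge
      · have h0 := Ex_mono (ι := ZMod ℓ) (Vs T) (Pw T p) (Pw_nonneg hp hsum) (fun _ => (0:ℝ))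
          (fun x => xi ℓ L T x g) (fun x => by
            rcases xi_mem (L := L) (T := T) (x := x) (g := g) with h | h
            · rw [h]
            · rw [h.1]; exact zero_le_one)
        have h00 : Ex (ι := ZMod ℓ) (Vs T) (Pw T p) (fun _ => (0:ℝ)) = 0 := by
          unfold Ex; simp
        linarith
    refine le_trans ?_ hlow
    have h3 : (L : ℝ) * (ℓ : ℝ) ^ (R+1) - 2 * ((T.card : ℝ) ^ 2 * (L * (ℓ : ℝ) ^ R)) ≤
      ((((Gs R ℓ L).filter fun g => good1 ℓ L T g).card : ℕ) : ℝ) := by linarith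
    have := mul_le_mul_of_nonneg_right h3 hP0.le
    linarith
  have h2 : -(∑ t ∈ T, (1 + e) / e ^ 2 * 6 * ((T.card : ℝ) ^ 2 * (L : ℝ) ^ 2) /
          ((t 0 : ℝ) * q t)) * (ℓ : ℝ) ^ R ≤ ∑ t ∈ T, (-((1 + e) / e ^ 2 / mu t)) *
        Ex (Vs T) (Pw T p) (fun x => Mt ℓ L T (q t) x t) := by
    rw [neg_mul, sum_mul, ← sum_neg_distrib]
    refine sum_le_sum fun t ht => ?_
    have h := Ex_Mt_le hG hp hsum hpos L ht (q t) rfl (hq0 t ht).le (hq1 t ht)
    rw [neg_mul]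
    refine neg_le_neg ?_
    have hc : 0 ≤ (1 + e) / e ^ 2 / mu t := by
      have := hmu0 t ht
      positivity
    refine (mul_le_mul_of_nonneg_left h hc).trans (le_of_eq ?_)
    have h1 : (0:ℝ) < t 0 := by exact_mod_cast (by have := hpos t ht; omega : 0 < t 0)
    have hqt : 0 < q t := hq0 t ht
    simp only [mu]
    have hℓR : (0:ℝ) < (ℓ : ℝ) ^ R := pow_pos hℓ0 _
    field_simp
    ring
  have := add_le_add h1 h2
  refine le_trans (le_of_eq ?_) this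
  simp only [q]
  ring

lemma Gen_eventually (T : Finset (Fin (R+1) → ℤ)) (hpos : ∀ t ∈ T, 1 ≤ t 0)
    (hnp : ∀ t ∈ T, ∀ t' ∈ T, t ≠ t' → ∃ i j, t i * t' j ≠ t j * t' i) :
    ∃ ℓ₀ : ℕ, ∀ ℓ : ℕ, ℓ₀ ≤ ℓ → Gen ℓ T := by
  classical
  let B : ℕ := ∑ s ∈ T ×ˢ T, ∑ i : Fin (R+1), ∑ j : Fin (R+1),
    ((s.1 i * s.2 j - s.1 j * s.2 i).natAbs + (s.1 i - s.2 i).natAbs +
      (s.1 0 + s.2 0).natAbs + (s.1 0).natAbs)
  have hB : ∀ t ∈ T, ∀ t' ∈ T, ∀ i j : Fin (R+1),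
    (t i * t' j - t j * t' i).natAbs + (t i - t' i).natAbs +
      (t 0 + t' 0).natAbs + (t 0).natAbs ≤ B := by
    intro t ht t' ht' i j
    have h1 := single_le_sum (s := T ×ˢ T) (f := fun s => ∑ i : Fin (R+1), ∑ j : Fin (R+1),
      ((s.1 i * s.2 j - s.1 j * s.2 i).natAbs + (s.1 i - s.2 i).natAbs +
      (s.1 0 + s.2 0).natAbs + (s.1 0).natAbs)) (fun _ _ => Nat.zero_le _)
      (mem_product.2 ⟨ht, ht'⟩ : (t, t') ∈ T ×ˢ T)
    have h2 := single_le_sum (s := univ) (f := fun i : Fin (R+1) => ∑ j : Fin (R+1),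
      ((t i * t' j - t j * t' i).natAbs + (t i - t' i).natAbs +
      (t 0 + t' 0).natAbs + (t 0).natAbs)) (fun _ _ => Nat.zero_le _) (mem_univ i)
    have h3 := single_le_sum (s := univ) (f := fun j : Fin (R+1) =>
      ((t i * t' j - t j * t' i).natAbs + (t i - t' i).natAbs +
      (t 0 + t' 0).natAbs + (t 0).natAbs)) (fun _ _ => Nat.zero_le _) (mem_univ j)
    exact h3.trans (h2.trans h1)
  have key : ∀ (ℓ : ℕ), B + 1 ≤ ℓ → ∀ z : ℤ, z ≠ 0 → z.natAbs ≤ B → (z : ZMod ℓ) ≠ 0 := by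
    intro ℓ hℓ z hz hzB h
    rw [ZMod.intCast_zmod_eq_zero_iff_dvd] at h
    have := Int.natAbs_dvd_natAbs.2 h
    rw [Int.natAbs_natCast] at this
    have := Nat.le_of_dvd (Int.natAbs_pos.2 hz) this
    omega
  refine ⟨B + 1, fun ℓ hℓ => ⟨?_, ?_, ?_, ?_⟩⟩
  · intro t ht
    have := hB t ht t ht 0 0
    have h1 := hpos t ht
    exact key ℓ hℓ _ (by omega) (by omega)
  · intro t ht t' ht' hne
    obtain ⟨i, hi⟩ := Function.ne_iff.1 hne
    have := hB t ht t' ht' i 0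
    exact ⟨i, key ℓ hℓ _ (sub_ne_zero.2 hi) (by omega)⟩
  · intro t ht t' ht'
    have := hB t ht t' ht' 0 0
    have h1 := hpos t ht
    have h2 := hpos t' ht'
    exact key ℓ hℓ _ (by omega) (by omega)
  · intro t ht t' ht' hne
    obtain ⟨i, j, hij⟩ := hnp t ht t' ht' hne
    have := hB t ht t' ht' i j
    exact ⟨i, j, key ℓ hℓ _ (sub_ne_zero.2 hij) (by omega)⟩

end Main

/-- **Packing lemma P.** -/
theorem packing {R : ℕ} (T : Finset (Fin (R+1) → ℤ)) (hpos : ∀ t ∈ T, 1 ≤ t 0)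
    (hnp : ∀ t ∈ T, ∀ t' ∈ T, t ≠ t' → ∃ i j, t i * t' j ≠ t j * t' i)
    (p : (Fin (R+1) → ℤ) → ℝ) (hp : ∀ t ∈ T, 0 < p t) (hsum : 2 * ∑ t ∈ T, p t ≤ 1)
    (L : ℕ) (hL : 0 < L) (hdvd : ∀ t ∈ T, t 0 ∣ (L : ℤ)) (ε : ℝ) (hε : 0 < ε) :
    ∃ ℓ₀ : ℕ, ∀ ℓ : ℕ, ℓ₀ ≤ ℓ → ℓ.Prime →
      ∃ (σ : ZMod ℓ → (Fin (R+1) → ℤ)) (W : Finset ((Fin (R+1) → ZMod ℓ) × ℕ)),
        W.Nonempty ∧ (∀ B, σ (-1 - B) = - σ B) ∧ (∀ g ∈ W, g.2 < L) ∧
        (∀ g ∈ W, ∀ t ∈ T, σ (blk ℓ L t g) = t) ∧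
        (∀ t ∈ T, ∀ (B : ZMod ℓ) (r : ℤ),
          ((W.filter fun g => blk ℓ L t g = B ∧ t 0 * g.2 % L = r).card : ℝ) ≤
            (1 + ε) * W.card * t 0 / (p t * (L * ℓ))) := by
  classical
  obtain ⟨ℓ1, h1⟩ := Gen_eventually T hpos hnp
  set P := ∏ t ∈ T, p t with hP
  have hP0 : 0 < P := prod_pos hp
  set e := ε / 2 with he
  have he0 : 0 < e := by positivity
  set C4 := (2 * ((T.card : ℝ) ^ 2 * L) * P +
        ∑ t ∈ T, (1 + e) / e ^ 2 * 6 * ((T.card : ℝ) ^ 2 * (L : ℝ) ^ 2) /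
          ((t 0 : ℝ) * ∏ t' ∈ T.erase t, p t')) with hC4
  have hL0 : (0:ℝ) < L := by exact_mod_cast hL
  have hC40 : 0 ≤ C4 := by
    rw [hC4]
    refine add_nonneg (by positivity) (sum_nonneg fun t ht => ?_)
    have h1 : (0:ℝ) < t 0 := by exact_mod_cast (by have := hpos t ht; omega : 0 < t 0)
    have h2 : 0 < ∏ t' ∈ T.erase t, p t' := prod_pos fun t' ht' => hp t' (mem_of_mem_erase ht')
    positivity
  obtain ⟨ℓ2, h2⟩ := exists_nat_gt (C4 * (1 + ε) / (e * P * L) + C4 / (P * L))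
  refine ⟨max ℓ1 ℓ2, fun ℓ hℓ hprime => ?_⟩
  haveI : Fact ℓ.Prime := ⟨hprime⟩
  have hG := h1 ℓ (le_trans (le_max_left _ _) hℓ)
  have hℓ2 : C4 * (1 + ε) / (e * P * L) + C4 / (P * L) < ℓ :=
    lt_of_lt_of_le h2 (by exact_mod_cast le_trans (le_max_right _ _) hℓ)
  have hℓ0 : (0:ℝ) < ℓ := by exact_mod_cast hprime.pos
  have hA : C4 * (1 + ε) / (e * P * L) ≤ ℓ := by
    have : 0 ≤ C4 / (P * L) := by positivity
    linarith
  have hB : C4 / (P * L) < ℓ := by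
    have : 0 ≤ C4 * (1 + ε) / (e * P * L) := by positivity
    linarith
  obtain ⟨x, hx⟩ := core hG hp hsum hpos hL hdvd he0
  set c : (Fin (R+1) → ℤ) → ℝ := fun t => (1 + e) * ((t 0 : ℝ) * (ℓ : ℝ) ^ R *
    ∏ t' ∈ T.erase t, p t') with hc
  rw [← hC4] at hx
  have hWpos : (0:ℝ) < (Wx ℓ L T c x).card := by
    refine lt_of_lt_of_le ?_ hx
    rw [div_lt_iff₀ (by positivity)] at hB
    have : (0:ℝ) < (ℓ : ℝ) ^ R := pow_pos hℓ0 _
    have h3 := mul_lt_mul_of_pos_right hB this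
    have h4 : (L : ℝ) * (ℓ : ℝ) ^ (R+1) * P = ℓ * (P * L) * (ℓ : ℝ) ^ R := by ring
    rw [← hP, h4]
    linarith
  refine ⟨sig x, Wx ℓ L T c x, ?_, sig_mir x, ?_, ?_, ?_⟩
  · rw [← card_pos]
    exact_mod_cast hWpos
  · intro g hg
    unfold Wx Gs at hg
    rw [mem_filter, mem_product] at hg
    exact mem_range.1 hg.1.2
  · intro g hg
    unfold Wx at hg
    rw [mem_filter] at hg
    exact hg.2.1
  · intro t ht B r
    have ht0 : (0:ℝ) < t 0 := by exact_mod_cast (by have := hpos t ht; omega : 0 < t 0)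
    have hpt := hp t ht
    have hq0 : 0 < ∏ t' ∈ T.erase t, p t' := prod_pos fun t' ht' => hp t' (mem_of_mem_erase ht')
    rcases ((Wx ℓ L T c x).filter fun g => blk ℓ L t g = B ∧ t 0 * g.2 % L = r).eq_empty_or_nonempty
      with hem | ⟨g0, hg0⟩
    · rw [hem, card_empty]
      simp only [Nat.cast_zero]
      positivity
    · rw [mem_filter] at hg0
      have hkey0 : key ℓ L t g0 = (B, r) := by unfold key; rw [hg0.2.1, hg0.2.2]
      have hW0 := hg0.1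
      unfold Wx at hW0
      rw [mem_filter] at hW0
      have hload := hW0.2.2 t ht
      rw [hkey0] at hload
      have hcard : ((((Wx ℓ L T c x).filter fun g => blk ℓ L t g = B ∧
          t 0 * g.2 % L = r).card : ℕ) : ℝ) ≤ Xl ℓ L T x t (B, r) := by
        unfold Xl
        rw [card_eq_sum_ones]
        push_cast
        have hsub : ((Wx ℓ L T c x).filter fun g => blk ℓ L t g = B ∧ t 0 * g.2 % L = r) ⊆
            (Gs R ℓ L).filter fun g => key ℓ L t g = (B, r) := by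
          intro g hg
          unfold Wx at hg
          rw [mem_filter, mem_filter] at hg
          rw [mem_filter]
          refine ⟨hg.1.1, ?_⟩
          unfold key
          rw [hg.2.1, hg.2.2]
        refine le_trans ?_ (sum_le_sum_of_subset_of_nonneg hsub fun g _ _ => ?_)
        · refine sum_le_sum fun g hg => ?_
          unfold Wx at hg
          rw [mem_filter, mem_filter] at hg
          rcases xi_mem (L := L) (T := T) (x := x) (g := g) with h | h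
          · exfalso
            have : xi ℓ L T x g = 1 := by
              unfold xi
              exact prod_eq_one fun t ht => if_pos (hg.1.2.1 t ht)
            rw [this] at h
            exact one_ne_zero h
          · rw [h.1]
        · rcases xi_mem (L := L) (T := T) (x := x) (g := g) with h | h
          · rw [h]
          · rw [h.1]; exact zero_le_one
      refine hcard.trans (hload.trans ?_)
      rw [hc]
      simp only
      rw [le_div_iff₀ (by positivity)]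
      have hprod : P = p t * ∏ t' ∈ T.erase t, p t' := by rw [hP, mul_prod_erase T p ht]
      have hℓR : (0:ℝ) < (ℓ : ℝ) ^ R := pow_pos hℓ0 _
      have h5 : C4 * (1 + ε) ≤ ℓ * (e * P * L) := by
        rwa [div_le_iff₀ (by positivity)] at hA
      have h6 : (1 + e) * (L * (ℓ : ℝ) ^ (R+1) * P) ≤ (1 + ε) * ((Wx ℓ L T c x).card : ℝ) := by
        have h7 := mul_le_mul_of_nonneg_left hx (by positivity : 0 ≤ 1 + ε)
        refine le_trans ?_ h7
        have h8 := mul_le_mul_of_nonneg_right h5 hℓR.le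
        have h9 : (L : ℝ) * (ℓ : ℝ) ^ (R+1) * P * (ε - e) = ℓ * (e * P * L) * (ℓ : ℝ) ^ R := by
          rw [he]; ring
        rw [← hP]
        nlinarith
      calc (1 + e) * ((t 0 : ℝ) * (ℓ : ℝ) ^ R * ∏ t' ∈ T.erase t, p t') * (p t * (L * ℓ))
          = ((1 + e) * (L * (ℓ : ℝ) ^ (R+1) * P)) * t 0 := by rw [hprod]; ring
        _ ≤ ((1 + ε) * ((Wx ℓ L T c x).card : ℝ)) * t 0 :=
          mul_le_mul_of_nonneg_right h6 ht0.le
        _ = (1 + ε) * ((Wx ℓ L T c x).card : ℝ) * t 0 := by ring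

end Crest.Agent.R075.Pack
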