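import Crest.Agent.R075.ProfileMain

/-!
# Row 75: PROFILE LEMMA (helper201)
-/

set_option autoImplicit false

open MeasureTheory Set Filter Topology intervalIntegral

namespace Crest.Agent.R075

/-- nodes `y 0 = 0 < ... < y m = 1` and amplitudes `w j` on `[y j, y (j+1))` -/
structure Nodes (m : ℕ) (y w : ℕ → ℝ) (r n : ℝ) : Prop where
  hm : 1 ≤ m
  hr : 0 < r
  hn : 1 ≤ n
  y0 : y 0 = 0
  ym : y m = 1
  len : ∀ j, j < m → r ≤ y (j + 1) - y j
  w_ge : ∀ j, j < m → 1 / n ≤ w j
  w_le : ∀ j, j < m → w j ≤ 1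
  adj : ∀ j, j + 1 < m → |w (j + 1) - w j| ≤ 1 / n
  w_first : w 0 ≤ 1 / n
  w_last : w (m - 1) ≤ 1 / n

/-- the step function -/
noncomputable def stepW (m : ℕ) (y w : ℕ → ℝ) (u : ℝ) : ℝ :=
  ∑ j ∈ Finset.range m, (Ico (y j) (y (j + 1))).indicator (fun _ => w j) u

section
variable {m : ℕ} {y w : ℕ → ℝ} {r n : ℝ} (hN : Nodes m y w r n)
include hN

lemma Nodes.mono_succ {j : ℕ} (hj : j < m) : y j < y (j + 1) := by
  have := hN.len j hj; have := hN.hr; linarith

lemma Nodes.mono {i j : ℕ} (hij : i ≤ j) (hj : j ≤ m) : y i ≤ y j := by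
  induction j, hij using Nat.le_induction with
  | base => exact le_rfl
  | succ k hk ih => exact (ih (by omega)).trans (hN.mono_succ (by omega)).le

lemma Nodes.mem_unit {j : ℕ} (hj : j ≤ m) : y j ∈ Icc (0 : ℝ) 1 := by
  constructor
  · rw [← hN.y0]; exact hN.mono (Nat.zero_le _) hj
  · rw [← hN.ym]; exact hN.mono hj le_rfl

lemma Nodes.exists_piece {u : ℝ} (h0 : 0 ≤ u) (h1 : u < 1) :
    ∃ j, j < m ∧ y j ≤ u ∧ u < y (j + 1) := by
  classical
  have hex : ∃ k, u < y k := ⟨m, by rw [hN.ym]; exact h1⟩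
  set k := Nat.find hex with hk
  have hk1 : u < y k := Nat.find_spec hex
  have hkm : k ≤ m := Nat.find_min' hex (by rw [hN.ym]; exact h1)
  have hk0 : 1 ≤ k := by
    rcases Nat.eq_zero_or_pos k with h | h
    · rw [h, hN.y0] at hk1; linarith
    · exact h
  refine ⟨k - 1, by omega, ?_, ?_⟩
  · have := Nat.find_min hex (m := k - 1) (by omega)
    exact not_lt.1 this
  · rw [Nat.sub_add_cancel hk0]; exact hk1

lemma Nodes.stepW_piece {u : ℝ} {j : ℕ} (hj : j < m) (h1 : y j ≤ u) (h2 : u < y (j + 1)) :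
    stepW m y w u = w j := by
  unfold stepW
  rw [Finset.sum_eq_single j]
  · rw [Set.indicator_of_mem]; exact ⟨h1, h2⟩
  · intro i hi hij
    rw [Finset.mem_range] at hi
    rw [Set.indicator_of_notMem]
    rintro ⟨h3, h4⟩
    rcases lt_or_gt_of_ne hij with h | h
    · have := hN.mono (i := i + 1) (j := j) (by omega) (by omega)
      linarith
    · have := hN.mono (i := j + 1) (j := i) (by omega) (by omega)
      linarith
  · intro h; exact absurd (Finset.mem_range.2 hj) h

lemma Nodes.stepW_out {u : ℝ} (h : u < 0 ∨ 1 ≤ u) : stepW m y w u = 0 := by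
  unfold stepW
  refine Finset.sum_eq_zero (fun j hj => ?_)
  rw [Finset.mem_range] at hj
  rw [Set.indicator_of_notMem]
  rintro ⟨h3, h4⟩
  have e1 := (hN.mem_unit (j := j) (by omega)).1
  have e2 := (hN.mem_unit (j := j + 1) (by omega)).2
  rcases h with h | h <;> linarith

lemma Nodes.stepW_cases (u : ℝ) :
    ((u < 0 ∨ 1 ≤ u) ∧ stepW m y w u = 0) ∨
      ∃ j, j < m ∧ y j ≤ u ∧ u < y (j + 1) ∧ stepW m y w u = w j := by
  by_cases h : u < 0 ∨ 1 ≤ u
  · exact Or.inl ⟨h, hN.stepW_out h⟩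
  · push Not at h
    obtain ⟨j, hj, h1, h2⟩ := hN.exists_piece h.1 h.2
    exact Or.inr ⟨j, hj, h1, h2, hN.stepW_piece hj h1 h2⟩

lemma Nodes.inv_pos : 0 < 1 / n := by
  have := hN.hn; positivity

lemma Nodes.stepW_01 (u : ℝ) : stepW m y w u = 0 ∨ 1 / n ≤ stepW m y w u := by
  rcases hN.stepW_cases u with ⟨_, h⟩ | ⟨j, hj, _, _, h⟩
  · exact Or.inl h
  · rw [h]; exact Or.inr (hN.w_ge j hj)

lemma Nodes.prf : Prf (stepW m y w) where
  nonneg := by
    intro u
    rcases hN.stepW_01 u with h | h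
    · rw [h]
    · exact hN.inv_pos.le.trans h
  le_one := by
    intro u
    rcases hN.stepW_cases u with ⟨_, h⟩ | ⟨j, hj, _, _, h⟩
    · rw [h]; exact zero_le_one
    · rw [h]; exact hN.w_le j hj
  meas := by
    unfold stepW
    exact Finset.measurable_fun_sum _ (fun j _ => measurable_const.indicator measurableSet_Ico)
  rc := by
    intro u
    rcases hN.stepW_cases u with ⟨h1 | h1, h⟩ | ⟨j, hj, h1, h2, h⟩
    · -- left of 0
      have : ∀ᶠ v in 𝓝[>] u, stepW m y w v = stepW m y w u := by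
        filter_upwards [Ioo_mem_nhdsGT h1] with v hv
        rw [h, hN.stepW_out (Or.inl hv.2)]
      exact (tendsto_congr' this).2 tendsto_const_nhds
    · have : ∀ᶠ v in 𝓝[>] u, stepW m y w v = stepW m y w u := by
        filter_upwards [self_mem_nhdsWithin] with v hv
        rw [h, hN.stepW_out (Or.inr (h1.trans (le_of_lt hv)))]
      exact (tendsto_congr' this).2 tendsto_const_nhds
    · have : ∀ᶠ v in 𝓝[>] u, stepW m y w v = stepW m y w u := by
        filter_upwards [Ioo_mem_nhdsGT h2] with v hv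
        rw [h, hN.stepW_piece hj (h1.trans hv.1.le) hv.2]
      exact (tendsto_congr' this).2 tendsto_const_nhds

lemma Nodes.modulus_aux {u v : ℝ} (huv : u ≤ v) (h : v - u ≤ r) :
    |stepW m y w u - stepW m y w v| ≤ 1 / n := by
  have hi := hN.inv_pos
  have hrr := hN.hr
  have hm := hN.hm
  rcases hN.stepW_cases u with ⟨hu | hu, hu'⟩ | ⟨i, hi', hu1, hu2, hu'⟩
  · rcases hN.stepW_cases v with ⟨hv, hv'⟩ | ⟨j, hj, hv1, hv2, hv'⟩
    · rw [hu', hv', sub_zero, abs_zero]; exact hi.le
    · have hj0 : j = 0 := by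
        by_contra hne
        have h1 := hN.mono (i := 1) (j := j) (by omega) (by omega)
        have h2 := hN.len 0 (by omega)
        have h3 := hN.y0
        rw [zero_add] at h2
        linarith
      rw [hu', hv', hj0, zero_sub, abs_neg, abs_of_nonneg (hi.le.trans (hN.w_ge 0 (by omega)))]
      exact hN.w_first
  · have hv : stepW m y w v = 0 := hN.stepW_out (Or.inr (hu.trans huv))
    rw [hu', hv, sub_zero, abs_zero]; exact hi.le
  · rcases hN.stepW_cases v with ⟨hv, hv'⟩ | ⟨j, hj, hv1, hv2, hv'⟩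
    · have hu0 : 0 ≤ u := (hN.mem_unit (j := i) (by omega)).1.trans hu1
      have hv1 : 1 ≤ v := by
        rcases hv with hv | hv
        · linarith
        · exact hv
      have him : i = m - 1 := by
        by_contra hne
        have h1 := hN.mono (i := i + 1) (j := m - 1) (by omega) (by omega)
        have h2 := hN.len (m - 1) (by omega)
        rw [Nat.sub_add_cancel hm, hN.ym] at h2
        linarith
      rw [hu', hv', him, sub_zero, abs_of_nonneg (hi.le.trans (hN.w_ge (m - 1) (by omega)))]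
      exact hN.w_last
    · have hij : i ≤ j := by
        by_contra hne
        have := hN.mono (i := j + 1) (j := i) (by omega) (by omega)
        linarith
      have hji : j ≤ i + 1 := by
        by_contra hne
        have h1 := hN.mono (i := i + 2) (j := j) (by omega) (by omega)
        have h2 := hN.len (i + 1) (by omega)
        linarith
      rw [hu', hv']
      rcases Nat.eq_or_lt_of_le hij with h5 | h5
      · rw [h5, sub_self, abs_zero]; exact hi.le
      · have : j = i + 1 := by omega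
        rw [this, abs_sub_comm]
        exact hN.adj i (by omega)

lemma Nodes.modulus (u v : ℝ) (h : |u - v| ≤ r) :
    |stepW m y w u - stepW m y w v| ≤ 1 / n := by
  rcases le_total u v with huv | huv
  · rw [abs_sub_comm, abs_of_nonneg (by linarith)] at h
    exact hN.modulus_aux huv h
  · rw [abs_of_nonneg (by linarith)] at h
    rw [abs_sub_comm]
    exact hN.modulus_aux huv h

end

/-! ### change of variables -/

/-- the position as a function of time -/
noncomputable def Xpos (κ : ℝ) (W : ℝ → ℝ) (u : ℝ) : ℝ := κ * ∫ r in (0:ℝ)..u, W r ^ 2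

/-- the Legendre transform -/
noncomputable def Gleg (κ : ℝ) (W : ℝ → ℝ) (u : ℝ) : ℝ := κ * ∫ r in (0:ℝ)..u, W r ^ 2 * (u - r)

section
variable {W : ℝ → ℝ} (hW : Prf W)
include hW

lemma Prf.int_sq (a b : ℝ) : IntervalIntegrable (fun r => W r ^ 2) volume a b := by
  have := hW.int_sq_mul (g := fun _ => (1:ℝ)) continuous_const a b
  simpa using this

lemma Prf.Xpos_continuous (κ : ℝ) : Continuous (Xpos κ W) :=
  continuous_const.mul (intervalIntegral.continuous_primitive (fun a b => hW.int_sq a b) 0)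

lemma Prf.Xpos_hasDeriv (κ u : ℝ) :
    HasDerivWithinAt (Xpos κ W) (κ * W u ^ 2) (Ioi u) u := by
  have h1 : HasDerivWithinAt (fun v => ∫ r in (0:ℝ)..v, W r ^ 2) (W u ^ 2) (Ici u) u :=
    intervalIntegral.integral_hasDerivWithinAt_right (t := Ioi u) (hW.int_sq 0 u)
      ((hW.meas.pow_const 2).stronglyMeasurable.stronglyMeasurableAtFilter) ((hW.rc u).pow 2)
  exact (h1.mono Ioi_subset_Ici_self).const_mul κ

lemma Prf.Xpos_mono {κ : ℝ} (hκ : 0 ≤ κ) : Monotone (Xpos κ W) := by
  intro a b hab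
  unfold Xpos
  apply mul_le_mul_of_nonneg_left _ hκ
  rw [← integral_add_adjacent_intervals (hW.int_sq 0 a) (hW.int_sq a b)]
  have : 0 ≤ ∫ r in a..b, W r ^ 2 :=
    intervalIntegral.integral_nonneg hab (fun r _ => sq_nonneg _)
  linarith

/-- `X(u) Y - κ ∫_0^u W² r = G(Y) - E(u)` -/
lemma Prf.phase_identity (κ Y u : ℝ) :
    Xpos κ W u * Y - κ * (∫ r in (0:ℝ)..u, W r ^ 2 * r) = Gleg κ W Y - Edef κ W Y u := by
  unfold Xpos Gleg Edef
  have h1 : ∫ r in (0:ℝ)..Y, W r ^ 2 * (Y - r)
      = (∫ r in (0:ℝ)..u, W r ^ 2 * (Y - r)) + ∫ r in u..Y, W r ^ 2 * (Y - r) :=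
    (integral_add_adjacent_intervals (hW.int_sq_mul (by fun_prop) _ _)
      (hW.int_sq_mul (by fun_prop) _ _)).symm
  have h2 : ∫ r in (0:ℝ)..u, W r ^ 2 * (Y - r)
      = (∫ r in (0:ℝ)..u, W r ^ 2) * Y - ∫ r in (0:ℝ)..u, W r ^ 2 * r := by
    rw [← intervalIntegral.integral_mul_const, ← intervalIntegral.integral_sub]
    · refine integral_congr (fun r _ => ?_)
      ring
    · exact (hW.int_sq 0 u).mul_const Y
    · exact hW.int_sq_mul continuous_id 0 u
  rw [h1, h2]; ring

/-- the position integral in the time variable; `γ` is inverse to `Xpos` on `[0,1]` -/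
lemma Prf.change_var {κ : ℝ} (hκ : 0 < κ) (hX1 : Xpos κ W 1 = 1) {γ : ℝ → ℝ}
    (hγ : ContinuousOn γ (Icc 0 1)) (hinv : ∀ u ∈ Icc (0:ℝ) 1, γ (Xpos κ W u) = u) (Λ Y : ℝ) :
    (∫ z in (0:ℝ)..1, ee (Λ * (z * Y - ∫ s in (0:ℝ)..z, γ s)))
      = ee (Λ * Gleg κ W Y) *
        ∫ u in (0:ℝ)..1, ((κ * W u ^ 2 : ℝ) : ℂ) * ee (-(Λ * Edef κ W Y u)) := by
  have hX0 : Xpos κ W 0 = 0 := by unfold Xpos; simp
  have hmono := hW.Xpos_mono hκ.le
  have hmaps : ∀ u ∈ Icc (0:ℝ) 1, Xpos κ W u ∈ Icc (0:ℝ) 1 := by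
    intro u hu
    constructor
    · rw [← hX0]; exact hmono hu.1
    · rw [← hX1]; exact hmono hu.2
  have hγint : ∀ a ∈ Icc (0:ℝ) 1, ∀ b ∈ Icc (0:ℝ) 1, IntervalIntegrable γ volume a b := by
    intro a ha b hb
    apply ContinuousOn.intervalIntegrable
    apply hγ.mono
    intro x hx
    rcases le_total a b with h | h
    · rw [uIcc_of_le h] at hx; exact ⟨ha.1.trans hx.1, hx.2.trans hb.2⟩
    · rw [uIcc_of_ge h] at hx; exact ⟨hb.1.trans hx.1, hx.2.trans ha.2⟩
  -- Gamma in the time variable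
  have hΓ : ∀ u ∈ Icc (0:ℝ) 1, (∫ s in (0:ℝ)..(Xpos κ W u), γ s)
      = κ * ∫ r in (0:ℝ)..u, W r ^ 2 * r := by
    intro u hu
    have himg : Xpos κ W '' Icc 0 u ⊆ Icc 0 1 := by
      rintro _ ⟨v, hv, rfl⟩
      exact hmaps v ⟨hv.1, hv.2.trans hu.2⟩
    have h1 := intervalIntegral.integral_deriv_smul_comp''' (a := 0) (b := u)
      (f := Xpos κ W) (f' := fun v => κ * W v ^ 2) (g := γ)
      (hW.Xpos_continuous κ).continuousOn
      (fun v _ => hW.Xpos_hasDeriv κ v)
      (hγ.mono (by
        rw [min_eq_left hu.1, max_eq_right hu.1]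
        exact (image_mono Ioo_subset_Icc_self).trans himg))
      (by
        rw [uIcc_of_le hu.1]
        exact (hγ.integrableOn_Icc).mono_set himg)
      (by
        rw [uIcc_of_le hu.1]
        have hc : IntegrableOn (fun v => κ * (W v ^ 2 * v)) (Icc 0 u) := by
          have := (hW.int_sq_mul continuous_id 0 u).const_mul κ
          rw [intervalIntegrable_iff_integrableOn_Icc_of_le hu.1] at this
          exact this
        refine hc.congr_fun ?_ measurableSet_Icc
        intro v hv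
        simp only [Function.comp, smul_eq_mul]
        rw [hinv v ⟨hv.1, hv.2.trans hu.2⟩]; ring)
    rw [hX0] at h1
    rw [← h1, ← intervalIntegral.integral_const_mul]
    refine integral_congr (fun v hv => ?_)
    rw [uIcc_of_le hu.1] at hv
    simp only [Function.comp, smul_eq_mul]
    rw [hinv v ⟨hv.1, hv.2.trans hu.2⟩]; ring
  set g : ℝ → ℂ := fun z => ee (Λ * (z * Y - ∫ s in (0:ℝ)..z, γ s)) with hg
  have hgc : ContinuousOn g (Icc 0 1) := by
    rw [hg]
    apply ee_continuous.comp_continuousOn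
    apply ContinuousOn.mul continuousOn_const
    apply ContinuousOn.sub (by fun_prop)
    have := intervalIntegral.continuousOn_primitive_interval (μ := volume) (f := γ) (a := 0) (b := 1)
      (by rw [uIcc_of_le zero_le_one]; exact hγ.integrableOn_Icc)
    rwa [uIcc_of_le zero_le_one] at this
  have himg1 : Xpos κ W '' Icc 0 1 ⊆ Icc 0 1 := by
    rintro _ ⟨v, hv, rfl⟩
    exact hmaps v hv
  have hval : ∀ u ∈ Icc (0:ℝ) 1, (κ * W u ^ 2) • g (Xpos κ W u)
      = ee (Λ * Gleg κ W Y) * (((κ * W u ^ 2 : ℝ) : ℂ) * ee (-(Λ * Edef κ W Y u))) := by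
    intro u hu
    rw [hg]
    simp only
    rw [hΓ u hu, hW.phase_identity, Complex.real_smul]
    have : Λ * (Gleg κ W Y - Edef κ W Y u) = Λ * Gleg κ W Y + (-(Λ * Edef κ W Y u)) := by ring
    rw [this, ee_add]; ring
  have h2 := intervalIntegral.integral_deriv_smul_comp''' (a := 0) (b := 1)
      (f := Xpos κ W) (f' := fun v => κ * W v ^ 2) (g := g)
      (hW.Xpos_continuous κ).continuousOn
      (fun v _ => hW.Xpos_hasDeriv κ v)
      (hgc.mono (by
        rw [min_eq_left zero_le_one, max_eq_right zero_le_one]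
        exact (image_mono Ioo_subset_Icc_self).trans himg1))
      (by
        rw [uIcc_of_le zero_le_one]
        exact (hgc.integrableOn_Icc).mono_set himg1)
      (by
        rw [uIcc_of_le zero_le_one]
        have hc : IntegrableOn (fun u => ee (Λ * Gleg κ W Y) *
            (((κ * W u ^ 2 : ℝ) : ℂ) * ee (-(Λ * Edef κ W Y u)))) (Icc 0 1) := by
          have := (hW.int_main κ Λ Y 0 1).const_mul (ee (Λ * Gleg κ W Y))
          rw [intervalIntegrable_iff_integrableOn_Icc_of_le zero_le_one] at this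
          exact this
        refine hc.congr_fun ?_ measurableSet_Icc
        intro v hv
        exact (hval v hv).symm)
  rw [hX0, hX1] at h2
  rw [← h2, ← intervalIntegral.integral_const_mul]
  refine integral_congr (fun v hv => ?_)
  rw [uIcc_of_le zero_le_one] at hv
  exact hval v hv

end

end Crest.Agent.R075
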