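import Crest.Agent.R075.Osc

/-!
# Row 75: the profile lemma in the time variable (helper201)

`W` = amplitude profile (right continuous, values in `[0,1]`), density `κ W²`.
For `y : ℝ` the phase defect is `E u = κ ∫_u^y W(r)² (y-r) dr ≥ 0`.
-/

set_option autoImplicit false

open MeasureTheory Set Filter Topology intervalIntegral

namespace Crest.Agent.R075

/-- phase defect -/
noncomputable def Edef (κ : ℝ) (W : ℝ → ℝ) (y u : ℝ) : ℝ :=
  κ * ∫ r in u..y, W r ^ 2 * (y - r)

/-- standing assumptions on the profile -/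
structure Prf (W : ℝ → ℝ) : Prop where
  nonneg : ∀ u, 0 ≤ W u
  le_one : ∀ u, W u ≤ 1
  meas : Measurable W
  rc : ∀ u, ContinuousWithinAt W (Ioi u) u

section
variable {W : ℝ → ℝ} (hW : Prf W)
include hW

lemma Prf.sq_le (u : ℝ) : W u ^ 2 ≤ 1 := by
  have := hW.nonneg u; have := hW.le_one u; nlinarith

lemma Prf.int_sq_mul {g : ℝ → ℝ} (hg : Continuous g) (a b : ℝ) :
    IntervalIntegrable (fun r => W r ^ 2 * g r) volume a b := by
  have h1 : IntervalIntegrable g volume a b := hg.intervalIntegrable a b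
  refine h1.mono_fun ((hW.meas.pow_const 2).mul hg.measurable).aestronglyMeasurable ?_
  refine Eventually.of_forall (fun r => ?_)
  simp only [norm_mul, Real.norm_eq_abs]
  have : |W r ^ 2| ≤ 1 := by rw [abs_of_nonneg (sq_nonneg _)]; exact hW.sq_le r
  calc |W r ^ 2| * |g r| ≤ 1 * |g r| := by gcongr
    _ = |g r| := one_mul _

lemma Prf.int_sq_mulC {g : ℝ → ℂ} (hg : Continuous g) (a b : ℝ) :
    IntervalIntegrable (fun r => ((W r ^ 2 : ℝ) : ℂ) * g r) volume a b := by
  have h1 : IntervalIntegrable g volume a b := hg.intervalIntegrable a b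
  refine h1.mono_fun ((Complex.measurable_ofReal.comp (hW.meas.pow_const 2)).mul
    hg.measurable).aestronglyMeasurable ?_
  refine Eventually.of_forall (fun r => ?_)
  simp only [norm_mul, Complex.norm_real, Real.norm_eq_abs]
  have : |W r ^ 2| ≤ 1 := by rw [abs_of_nonneg (sq_nonneg _)]; exact hW.sq_le r
  calc |W r ^ 2| * ‖g r‖ ≤ 1 * ‖g r‖ := by gcongr
    _ = ‖g r‖ := one_mul _

lemma Prf.Edef_hasDeriv (κ y u : ℝ) :
    HasDerivWithinAt (Edef κ W y) (-(κ * (W u ^ 2 * (y - u)))) (Ioi u) u := by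
  have hint : IntervalIntegrable (fun r => W r ^ 2 * (y - r)) volume y u :=
    hW.int_sq_mul (by fun_prop) _ _
  have hmeas : StronglyMeasurableAtFilter (fun r => W r ^ 2 * (y - r)) (𝓝[Ioi u] u) volume :=
    (((hW.meas.pow_const 2).mul (by fun_prop : Measurable fun r : ℝ => y - r)).stronglyMeasurable
      ).stronglyMeasurableAtFilter
  have hcont : ContinuousWithinAt (fun r => W r ^ 2 * (y - r)) (Ioi u) u :=
    ((hW.rc u).pow 2).mul (by fun_prop)
  have h1 : HasDerivWithinAt (fun v => ∫ r in y..v, W r ^ 2 * (y - r)) (W u ^ 2 * (y - u))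
      (Ici u) u :=
    intervalIntegral.integral_hasDerivWithinAt_right hint hmeas hcont
  have h2 := ((h1.mono Ioi_subset_Ici_self).neg).const_mul κ
  have h3 : Edef κ W y = fun v => κ * (-fun v => ∫ r in y..v, W r ^ 2 * (y - r)) v := by
    funext v
    unfold Edef
    rw [integral_symm]; rfl
  rw [h3]
  convert! h2 using 1
  ring

lemma Prf.Edef_continuous (κ y : ℝ) : Continuous (Edef κ W y) := by
  have h3 : Edef κ W y = fun v => κ * (-(∫ r in y..v, W r ^ 2 * (y - r))) := by
    funext v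
    unfold Edef
    rw [integral_symm]
  rw [h3]
  apply Continuous.mul continuous_const
  apply Continuous.neg
  exact intervalIntegral.continuous_primitive (fun a b => hW.int_sq_mul (by fun_prop) a b) y

/-- right derivative of the oscillating factor -/
lemma Prf.osc_hasDeriv (κ Λ y u : ℝ) :
    HasDerivWithinAt (fun v => ee (-(Λ * Edef κ W y v)))
      (2 * Real.pi * Complex.I * ((Λ * (κ * (W u ^ 2 * (y - u))) : ℝ) : ℂ)
        * ee (-(Λ * Edef κ W y u))) (Ioi u) u := by
  have h1 := ((hW.Edef_hasDeriv κ y u).const_mul Λ).neg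
  have h2 := (ee_hasDerivAt (-(Λ * Edef κ W y u)))
  have h3 := HasDerivAt.scomp_hasDerivWithinAt (g₁ := ee) (h := fun v => -(Λ * Edef κ W y v))
    u h2 h1
  convert! h3 using 1
  rw [Complex.real_smul]
  push_cast
  ring

/-- tail estimate: no stationary point in `[a,b]` -/
lemma Prf.tail (κ Λ y a b d : ℝ) (hΛ : 0 < Λ) (hab : a ≤ b) (hd : 0 < d)
    (h : b + d ≤ y ∨ y + d ≤ a) :
    ‖∫ u in a..b, ((κ * W u ^ 2 : ℝ) : ℂ) * ee (-(Λ * Edef κ W y u))‖ ≤ 1 / (Real.pi * Λ * d) := by
  have hpi := Real.pi_pos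
  set f : ℝ → ℂ := fun u => ee (-(Λ * Edef κ W y u)) with hf
  have hfc : Continuous f := by
    rw [hf]
    exact ee_continuous.comp ((continuous_const.mul (hW.Edef_continuous κ y)).neg)
  have hfn : ∀ u, ‖f u‖ = 1 := fun u => by rw [hf]; simp
  have hyne : ∀ u ∈ Icc a b, y - u ≠ 0 := by
    intro u hu h0
    rcases h with h | h
    · linarith [hu.2]
    · linarith [hu.1]
  have hyneC : ∀ u ∈ Icc a b, ((y - u : ℝ) : ℂ) ≠ 0 := by
    intro u hu; exact_mod_cast hyne u hu
  have hΛC : (Λ : ℂ) ≠ 0 := by exact_mod_cast hΛ.ne'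
  have hpiC : (Real.pi : ℂ) ≠ 0 := by exact_mod_cast hpi.ne'
  set c : ℂ := 2 * Real.pi * Complex.I * Λ with hc
  have hc0 : c ≠ 0 := by
    rw [hc]; simp [hpiC, hΛC, Complex.I_ne_zero]
  have hcn : ‖c‖ = 2 * Real.pi * Λ := by
    rw [hc]
    simp [abs_of_pos hpi, abs_of_pos hΛ]
  set v : ℝ → ℂ := fun u => f u / (c * ((y - u : ℝ) : ℂ)) with hv
  have hvc : ContinuousOn v (Icc a b) := by
    rw [hv]
    apply ContinuousOn.div hfc.continuousOn
    · exact (continuous_const.mul (Complex.continuous_ofReal.comp (by fun_prop))).continuousOn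
    · intro u hu
      exact mul_ne_zero hc0 (hyneC u hu)
  have hderiv : ∀ u ∈ Ioo a b, HasDerivWithinAt v
      (((κ * W u ^ 2 : ℝ) : ℂ) * f u + f u / (c * ((y - u : ℝ) : ℂ) ^ 2)) (Ioi u) u := by
    intro u hu
    have hu' := hyneC u ⟨hu.1.le, hu.2.le⟩
    have h1 : HasDerivWithinAt (fun v : ℝ => c * ((y - v : ℝ) : ℂ)) (c * (-1)) (Ioi u) u := by
      have h2 : HasDerivAt (fun v : ℝ => y - v) (-1) u := by
        simpa using (hasDerivAt_id u).const_sub y
      have h3 := h2.ofReal_comp
      have h4 := (h3.const_mul c).hasDerivWithinAt (s := Ioi u)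
      convert! h4 using 1
      push_cast; ring
    have h5 := (hW.osc_hasDeriv κ Λ y u).div h1 (mul_ne_zero hc0 hu')
    convert! h5 using 1
    simp only [hf]
    rw [hc]
    push_cast at hu' ⊢
    field_simp
    ring
  have hint1 : IntervalIntegrable (fun u => ((κ * W u ^ 2 : ℝ) : ℂ) * f u) volume a b := by
    have := (hW.int_sq_mulC hfc a b).const_mul (κ : ℂ)
    convert! this using 1
    funext u; push_cast; ring
  have hcont2 : ContinuousOn (fun u : ℝ => f u / (c * ((y - u : ℝ) : ℂ) ^ 2)) (uIcc a b) := by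
    rw [uIcc_of_le hab]
    apply ContinuousOn.div hfc.continuousOn
    · exact (continuous_const.mul ((Complex.continuous_ofReal.comp (by fun_prop)).pow 2)).continuousOn
    · intro u hu
      exact mul_ne_zero hc0 (pow_ne_zero 2 (hyneC u hu))
  have hint2 : IntervalIntegrable (fun u : ℝ => f u / (c * ((y - u : ℝ) : ℂ) ^ 2)) volume a b :=
    hcont2.intervalIntegrable
  have hFTC := intervalIntegral.integral_eq_sub_of_hasDeriv_right_of_le hab hvc hderiv
    (hint1.add hint2)
  rw [integral_add hint1 hint2] at hFTC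
  have hmain : ∫ u in a..b, ((κ * W u ^ 2 : ℝ) : ℂ) * f u
      = v b - v a - ∫ u in a..b, f u / (c * ((y - u : ℝ) : ℂ) ^ 2) := by
    rw [← hFTC]; ring
  have hvn : ∀ u, ‖v u‖ = 1 / (2 * Real.pi * Λ * |y - u|) := by
    intro u
    rw [hv]
    simp only
    rw [norm_div, hfn, norm_mul, hcn, Complex.norm_real, Real.norm_eq_abs]
  -- the remaining integral
  have hI : ‖∫ u in a..b, f u / (c * ((y - u : ℝ) : ℂ) ^ 2)‖
      ≤ 1 / (2 * Real.pi * Λ) * |1 / (y - b) - 1 / (y - a)| := by
    have hg : IntervalIntegrable (fun u : ℝ => 1 / (2 * Real.pi * Λ) * ((y - u) ^ 2)⁻¹)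
        volume a b := by
      apply ContinuousOn.intervalIntegrable
      rw [uIcc_of_le hab]
      apply ContinuousOn.mul continuousOn_const
      apply ContinuousOn.inv₀ (by fun_prop)
      intro u hu
      exact pow_ne_zero 2 (hyne u hu)
    have h1 := norm_integral_le_of_norm_le
      (f := fun u : ℝ => f u / (c * ((y - u : ℝ) : ℂ) ^ 2))
      (g := fun u : ℝ => 1 / (2 * Real.pi * Λ) * ((y - u) ^ 2)⁻¹) hab (by
        refine Eventually.of_forall (fun u hu => ?_)
        rw [norm_div, hfn, norm_mul, hcn, norm_pow, Complex.norm_real, Real.norm_eq_abs, sq_abs]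
        rw [one_div, mul_inv, one_div]) hg
    refine h1.trans (le_of_eq ?_)
    rw [intervalIntegral.integral_const_mul]
    congr 1
    have hd' : ∀ u ∈ uIcc a b, HasDerivAt (fun x : ℝ => (y - x)⁻¹) (((y - u) ^ 2)⁻¹) u := by
      intro u hu
      rw [uIcc_of_le hab] at hu
      have h2 : HasDerivAt (fun v : ℝ => y - v) (-1) u := by
        simpa using (hasDerivAt_id u).const_sub y
      have := h2.fun_inv (hyne u hu)
      convert! this using 1
      rw [neg_neg, one_div]
    have hi2 : IntervalIntegrable (fun u : ℝ => ((y - u) ^ 2)⁻¹) volume a b := by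
      apply ContinuousOn.intervalIntegrable
      rw [uIcc_of_le hab]
      apply ContinuousOn.inv₀ (by fun_prop)
      intro u hu
      exact pow_ne_zero 2 (hyne u hu)
    have hval := integral_eq_sub_of_hasDerivAt hd' hi2
    have hnn : 0 ≤ ∫ u in a..b, ((y - u) ^ 2)⁻¹ :=
      intervalIntegral.integral_nonneg hab (fun u _ => by positivity)
    rw [hval] at hnn ⊢
    rw [one_div, one_div, abs_of_nonneg hnn]
  rw [hmain]
  have hfin : ‖v b - v a - ∫ u in a..b, f u / (c * ((y - u : ℝ) : ℂ) ^ 2)‖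
      ≤ 1 / (2 * Real.pi * Λ) * (1 / |y - b| + 1 / |y - a| + |1 / (y - b) - 1 / (y - a)|) := by
    calc ‖v b - v a - ∫ u in a..b, f u / (c * ((y - u : ℝ) : ℂ) ^ 2)‖
        ≤ ‖v b‖ + ‖v a‖ + ‖∫ u in a..b, f u / (c * ((y - u : ℝ) : ℂ) ^ 2)‖ := by
          refine (norm_sub_le _ _).trans ?_
          gcongr
          exact norm_sub_le _ _
      _ ≤ 1 / (2 * Real.pi * Λ * |y - b|) + 1 / (2 * Real.pi * Λ * |y - a|)
          + 1 / (2 * Real.pi * Λ) * |1 / (y - b) - 1 / (y - a)| := by
          rw [hvn, hvn]; gcongr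
      _ = _ := by
          rw [one_div_mul_eq_div, one_div_mul_eq_div]; ring_nf
  refine hfin.trans ?_
  have key : 1 / |y - b| + 1 / |y - a| + |1 / (y - b) - 1 / (y - a)| ≤ 2 / d := by
    rcases h with h | h
    · have hb : 0 < y - b := by linarith
      have ha : 0 < y - a := by linarith
      have h1 : 1 / (y - a) ≤ 1 / (y - b) := one_div_le_one_div_of_le hb (by linarith)
      rw [abs_of_pos hb, abs_of_pos ha, abs_of_nonneg (by linarith)]
      have h2 : 1 / (y - b) ≤ 1 / d := one_div_le_one_div_of_le hd (by linarith)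
      have h3 : 2 / d = 2 * (1 / d) := by ring
      rw [h3]; linarith
    · have hb : 0 < b - y := by linarith
      have ha : 0 < a - y := by linarith
      have h1 : 1 / (b - y) ≤ 1 / (a - y) := one_div_le_one_div_of_le ha (by linarith)
      have e1 : |y - b| = b - y := by rw [abs_sub_comm, abs_of_pos hb]
      have e2 : |y - a| = a - y := by rw [abs_sub_comm, abs_of_pos ha]
      have e3 : 1 / (y - b) = -(1 / (b - y)) := by rw [← neg_sub b y]; rw [one_div_neg_eq_neg_one_div]
      have e4 : 1 / (y - a) = -(1 / (a - y)) := by rw [← neg_sub a y]; rw [one_div_neg_eq_neg_one_div]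
      rw [e1, e2, e3, e4, abs_of_nonneg (by linarith)]
      have h2 : 1 / (a - y) ≤ 1 / d := one_div_le_one_div_of_le hd (by linarith)
      have h3 : 2 / d = 2 * (1 / d) := by ring
      rw [h3]; linarith
  calc 1 / (2 * Real.pi * Λ) * (1 / |y - b| + 1 / |y - a| + |1 / (y - b) - 1 / (y - a)|)
      ≤ 1 / (2 * Real.pi * Λ) * (2 / d) := by gcongr
    _ = 1 / (Real.pi * Λ * d) := by
        field_simp

end

end Crest.Agent.R075
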