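import Crest.Agent.R075.ProfileCore

/-!
# Row 75: the profile lemma in the time variable, final estimate (helper201)
-/

set_option autoImplicit false

open MeasureTheory Set Filter Topology intervalIntegral

namespace Crest.Agent.R075

section
variable {W : ℝ → ℝ} (hW : Prf W)
include hW

lemma Prf.osc_continuous (κ Λ y : ℝ) : Continuous (fun u => ee (-(Λ * Edef κ W y u))) :=
  ee_continuous.comp ((continuous_const.mul (hW.Edef_continuous κ y)).neg)

lemma Prf.int_main (κ Λ y a b : ℝ) :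
    IntervalIntegrable (fun u => ((κ * W u ^ 2 : ℝ) : ℂ) * ee (-(Λ * Edef κ W y u))) volume a b := by
  have := (hW.int_sq_mulC (hW.osc_continuous κ Λ y) a b).const_mul (κ : ℂ)
  convert! this using 1
  funext u; push_cast; ring

/-- near part: comparison with the pure quadratic phase -/
lemma Prf.near (κ Λ y h β : ℝ) (hκ : 0 ≤ κ) (hΛ : 0 ≤ Λ) (hh : 0 ≤ h)
    (hβ : ∀ u, |u - y| ≤ h → |W u ^ 2 - W y ^ 2| ≤ β) :
    ‖(∫ u in (y - h)..(y + h), ((κ * W u ^ 2 : ℝ) : ℂ) * ee (-(Λ * Edef κ W y u)))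
      - ∫ u in (y - h)..(y + h), ((κ * W y ^ 2 : ℝ) : ℂ) *
          ee (-(Λ * (κ * W y ^ 2) / 2 * (u - y) ^ 2))‖
      ≤ 2 * h * (κ * β + κ * W y ^ 2 * (2 * Real.pi * (Λ * (κ * (β * h ^ 2))))) := by
  have hpi := Real.pi_pos
  have hβ0 : 0 ≤ β := (abs_nonneg _).trans (hβ y (by simpa using hh))
  have hint2 : IntervalIntegrable (fun u => ((κ * W y ^ 2 : ℝ) : ℂ) *
      ee (-(Λ * (κ * W y ^ 2) / 2 * (u - y) ^ 2))) volume (y - h) (y + h) :=
    (continuous_const.mul (ee_continuous.comp (by fun_prop))).intervalIntegrable _ _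
  rw [← integral_sub (hW.int_main κ Λ y _ _) hint2]
  have hE : ∀ u, |u - y| ≤ h →
      |Edef κ W y u - κ * W y ^ 2 / 2 * (u - y) ^ 2| ≤ κ * (β * h ^ 2) := by
    intro u hu
    have h1 : κ * W y ^ 2 / 2 * (u - y) ^ 2 = κ * ∫ r in u..y, W y ^ 2 * (y - r) := by
      have hd : ∀ r ∈ uIcc u y, HasDerivAt (fun r : ℝ => -(W y ^ 2 / 2 * (y - r) ^ 2))
          (W y ^ 2 * (y - r)) r := by
        intro r _
        have h2 : HasDerivAt (fun v : ℝ => y - v) (-1) r := by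
          simpa using (hasDerivAt_id r).const_sub y
        have h3 := ((h2.pow 2).const_mul (W y ^ 2 / 2)).fun_neg
        convert! h3 using 1
        simp
        ring
      rw [integral_eq_sub_of_hasDerivAt hd ((by fun_prop : Continuous fun r : ℝ =>
        W y ^ 2 * (y - r)).intervalIntegrable _ _)]
      ring
    rw [h1]
    unfold Edef
    rw [← mul_sub, ← integral_sub (hW.int_sq_mul (by fun_prop) _ _)
      ((by fun_prop : Continuous fun r : ℝ => W y ^ 2 * (y - r)).intervalIntegrable _ _),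
      abs_mul, abs_of_nonneg hκ]
    apply mul_le_mul_of_nonneg_left _ hκ
    have h4 : ‖∫ r in u..y, (W r ^ 2 * (y - r) - W y ^ 2 * (y - r))‖ ≤ (β * h) * |y - u| := by
      apply intervalIntegral.norm_integral_le_of_norm_le_const
      intro r hr
      have hr' : |r - y| ≤ |u - y| := by
        rcases le_total u y with huy | huy
        · rw [uIoc_of_le huy] at hr
          rw [abs_sub_comm, abs_sub_comm u, abs_of_nonneg (by linarith [hr.2]),
            abs_of_nonneg (by linarith)]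
          linarith [hr.1]
        · rw [uIoc_of_ge huy] at hr
          rw [abs_of_nonneg (by linarith [hr.1]), abs_of_nonneg (by linarith)]
          linarith [hr.2]
      rw [← sub_mul, Real.norm_eq_abs, abs_mul]
      apply mul_le_mul (hβ r (hr'.trans hu)) _ (abs_nonneg _) hβ0
      rw [abs_sub_comm]; exact hr'.trans hu
    rw [Real.norm_eq_abs] at h4
    refine h4.trans ?_
    rw [abs_sub_comm] at hu
    calc β * h * |y - u| ≤ β * h * h := by gcongr
      _ = β * h ^ 2 := by ring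
  have hbd : ∀ u ∈ Set.uIoc (y - h) (y + h),
      ‖((κ * W u ^ 2 : ℝ) : ℂ) * ee (-(Λ * Edef κ W y u)) - ((κ * W y ^ 2 : ℝ) : ℂ) *
          ee (-(Λ * (κ * W y ^ 2) / 2 * (u - y) ^ 2))‖
        ≤ κ * β + κ * W y ^ 2 * (2 * Real.pi * (Λ * (κ * (β * h ^ 2)))) := by
    intro u hu
    rw [uIoc_of_le (by linarith)] at hu
    have hu' : |u - y| ≤ h := by
      rw [abs_le]; constructor <;> linarith [hu.1, hu.2]
    have h1 : ((κ * W u ^ 2 : ℝ) : ℂ) * ee (-(Λ * Edef κ W y u)) - ((κ * W y ^ 2 : ℝ) : ℂ) *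
          ee (-(Λ * (κ * W y ^ 2) / 2 * (u - y) ^ 2))
        = ((κ * (W u ^ 2 - W y ^ 2) : ℝ) : ℂ) * ee (-(Λ * Edef κ W y u))
          + ((κ * W y ^ 2 : ℝ) : ℂ) * (ee (-(Λ * Edef κ W y u))
            - ee (-(Λ * (κ * W y ^ 2) / 2 * (u - y) ^ 2))) := by
      push_cast; ring
    rw [h1]
    refine (norm_add_le _ _).trans ?_
    rw [norm_mul, norm_mul, norm_ee, mul_one, Complex.norm_real, Complex.norm_real,
      Real.norm_eq_abs, Real.norm_eq_abs, abs_mul, abs_of_nonneg hκ,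
      abs_of_nonneg (mul_nonneg hκ (sq_nonneg (W y)))]
    have h2 := norm_ee_sub_le (-(Λ * Edef κ W y u)) (-(Λ * (κ * W y ^ 2) / 2 * (u - y) ^ 2))
    have h3 : |(-(Λ * Edef κ W y u)) - (-(Λ * (κ * W y ^ 2) / 2 * (u - y) ^ 2))|
        ≤ Λ * (κ * (β * h ^ 2)) := by
      have : (-(Λ * Edef κ W y u)) - (-(Λ * (κ * W y ^ 2) / 2 * (u - y) ^ 2))
          = -(Λ * (Edef κ W y u - κ * W y ^ 2 / 2 * (u - y) ^ 2)) := by ring
      rw [this, abs_neg, abs_mul, abs_of_nonneg hΛ]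
      exact mul_le_mul_of_nonneg_left (hE u hu') hΛ
    have h4 : ‖ee (-(Λ * Edef κ W y u)) - ee (-(Λ * (κ * W y ^ 2) / 2 * (u - y) ^ 2))‖
        ≤ 2 * Real.pi * (Λ * (κ * (β * h ^ 2))) :=
      h2.trans (mul_le_mul_of_nonneg_left h3 (by positivity))
    have h5 := hβ u hu'
    have h6 : 0 ≤ κ * W y ^ 2 := mul_nonneg hκ (sq_nonneg _)
    gcongr
  have := intervalIntegral.norm_integral_le_of_norm_le_const hbd
  refine this.trans (le_of_eq ?_)
  have : y + h - (y - h) = 2 * h := by ring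
  rw [this, abs_of_nonneg (by linarith)]
  ring

omit hW in
/-- the pure quadratic phase -/
lemma quad_main {κ Λ w y A : ℝ} (hκ : 0 < κ) (hΛ : 0 < Λ) (hw : 0 < w) (hA : 0 < A) :
    ‖((Real.sqrt Λ : ℝ) : ℂ) * (∫ u in (y - A / (Real.sqrt (Λ * κ) * w))..(y + A / (Real.sqrt (Λ * κ) * w)),
        ((κ * w ^ 2 : ℝ) : ℂ) * ee (-(Λ * (κ * w ^ 2) / 2 * (u - y) ^ 2)))
      - ((Real.sqrt κ * w : ℝ) : ℂ) * ee (-(1 / 8))‖ ≤ Real.sqrt κ * w * (2 / (Real.pi * A)) := by
  set c : ℝ := Real.sqrt (Λ * κ) * w with hc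
  have hsq : 0 < Real.sqrt (Λ * κ) := Real.sqrt_pos.2 (mul_pos hΛ hκ)
  have hc0 : 0 < c := mul_pos hsq hw
  have hc2 : c ^ 2 = Λ * (κ * w ^ 2) := by
    rw [hc, mul_pow, Real.sq_sqrt (mul_pos hΛ hκ).le]; ring
  set F : ℝ → ℂ := fun v => ee (-(v ^ 2 / 2)) with hF
  have h1 : (∫ u in (y - A / c)..(y + A / c),
      ((κ * w ^ 2 : ℝ) : ℂ) * ee (-(Λ * (κ * w ^ 2) / 2 * (u - y) ^ 2)))
      = ((κ * w ^ 2 : ℝ) : ℂ) * ∫ u in (y - A / c)..(y + A / c), F (c * u + (-(c * y))) := by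
    rw [← intervalIntegral.integral_const_mul]
    refine integral_congr (fun u _ => ?_)
    rw [hF]
    simp only
    congr 2
    rw [← hc2]; ring
  rw [h1, intervalIntegral.integral_comp_mul_add (f := F) hc0.ne']
  have e1 : c * (y - A / c) + -(c * y) = -A := by field_simp; ring
  have e2 : c * (y + A / c) + -(c * y) = A := by field_simp; ring
  rw [e1, e2]
  have hk : ((Real.sqrt Λ : ℝ) : ℂ) * (((κ * w ^ 2 : ℝ) : ℂ) * (c⁻¹ • ∫ v in (-A)..A, F v))
      = ((Real.sqrt κ * w : ℝ) : ℂ) * ∫ v in (-A)..A, F v := by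
    rw [Complex.real_smul, ← mul_assoc, ← mul_assoc, ← Complex.ofReal_mul, ← Complex.ofReal_mul]
    congr 2
    rw [hc, Real.sqrt_mul hΛ.le]
    have h3 : Real.sqrt κ * Real.sqrt κ = κ := Real.mul_self_sqrt hκ.le
    have h4 : 0 < Real.sqrt Λ := Real.sqrt_pos.2 hΛ
    have h5 : 0 < Real.sqrt κ := Real.sqrt_pos.2 hκ
    field_simp
    nlinarith
  rw [hk, ← mul_sub, norm_mul, Complex.norm_real, Real.norm_eq_abs,
    abs_of_nonneg (by positivity)]
  exact mul_le_mul_of_nonneg_left (fresnel_neg_symm hA) (by positivity)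

/-- the final estimate in the time variable -/
theorem Prf.core {κ Λ A n r a b : ℝ} (hκ : 0 < κ) (hΛ : 0 < Λ) (hA : 0 < A) (hn : 1 ≤ n)
    (hmod : ∀ u v, |u - v| ≤ r → |W u - W v| ≤ 1 / n) (h01 : ∀ u, W u = 0 ∨ 1 / n ≤ W u)
    (hr : A * n ≤ r * Real.sqrt (Λ * κ)) (hab : a ≤ b)
    (hsupp : ∀ u, u < a ∨ b ≤ u → W u = 0) (y : ℝ) :
    ‖((Real.sqrt Λ : ℝ) : ℂ) * (∫ u in a..b, ((κ * W u ^ 2 : ℝ) : ℂ) * ee (-(Λ * Edef κ W y u)))
      - ((Real.sqrt κ * W y : ℝ) : ℂ) * ee (-(1 / 8))‖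
      ≤ Real.sqrt κ * (4 / (Real.pi * A) + 6 * A * (1 + 2 * Real.pi * A ^ 2) / n) := by
  have hpi := Real.pi_pos
  have hn0 : 0 < n := by linarith
  set f : ℝ → ℂ := fun u => ((κ * W u ^ 2 : ℝ) : ℂ) * ee (-(Λ * Edef κ W y u)) with hf
  set wb : ℝ := max (W y) (1 / n) with hwb
  have hwb1 : 1 / n ≤ wb := le_max_right _ _
  have hwb0 : 0 < wb := lt_of_lt_of_le (by positivity) hwb1
  have hwbW : W y ≤ wb := le_max_left _ _
  have hwble : wb ≤ 1 := max_le (hW.le_one y) (by rw [div_le_one hn0]; exact hn)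
  have hs : 0 < Real.sqrt (Λ * κ) := Real.sqrt_pos.2 (mul_pos hΛ hκ)
  have hs2 : Real.sqrt (Λ * κ) ^ 2 = Λ * κ := Real.sq_sqrt (mul_pos hΛ hκ).le
  set h : ℝ := A / (Real.sqrt (Λ * κ) * wb) with hh
  have hh0 : 0 < h := by rw [hh]; positivity
  have hhr : h ≤ r := by
    rw [hh, div_le_iff₀ (by positivity)]
    have h1 : 1 ≤ n * wb := by
      have := mul_le_mul_of_nonneg_left hwb1 hn0.le
      rwa [mul_one_div_cancel hn0.ne'] at this
    calc A = A * 1 := (mul_one A).symm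
      _ ≤ A * (n * wb) := by gcongr
      _ = (A * n) * wb := by ring
      _ ≤ (r * Real.sqrt (Λ * κ)) * wb := by gcongr
      _ = r * (Real.sqrt (Λ * κ) * wb) := by ring
  -- difference of the squares on the window
  set β : ℝ := 3 * wb / n with hβd
  have hβ : ∀ u, |u - y| ≤ h → |W u ^ 2 - W y ^ 2| ≤ β := by
    intro u hu
    have h1 := hmod u y (hu.trans hhr)
    have h2 : W u ^ 2 - W y ^ 2 = (W u - W y) * (W u + W y) := by ring
    have h3 : W u ≤ W y + 1 / n := by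
      have := (abs_le.1 h1).2; linarith
    have h4 : 0 ≤ W u + W y := add_nonneg (hW.nonneg u) (hW.nonneg y)
    rw [h2, abs_mul, abs_of_nonneg h4]
    have h5 : W u + W y ≤ 3 * wb := by linarith
    calc |W u - W y| * (W u + W y) ≤ 1 / n * (3 * wb) := by gcongr
      _ = β := by rw [hβd]; ring
  -- extended interval
  set a0 : ℝ := min a (y - h) with ha0
  set b0 : ℝ := max b (y + h) with hb0
  have hint : ∀ u v : ℝ, IntervalIntegrable f volume u v := fun u v => hW.int_main κ Λ y u v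
  have hz1 : ∫ u in a0..a, f u = 0 := by
    apply intervalIntegral.integral_zero_ae
    have hne : ∀ᵐ u : ℝ ∂volume, u ≠ a := by
      rw [ae_iff]; simp
    filter_upwards [hne] with u hu hmem
    rw [uIoc_of_le (min_le_left _ _)] at hmem
    have : W u = 0 := hsupp u (Or.inl (lt_of_le_of_ne hmem.2 hu))
    rw [hf]; simp [this]
  have hz2 : ∫ u in b..b0, f u = 0 := by
    apply intervalIntegral.integral_zero_ae
    refine Eventually.of_forall (fun u hmem => ?_)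
    rw [uIoc_of_le (le_max_left _ _)] at hmem
    have : W u = 0 := hsupp u (Or.inr hmem.1.le)
    rw [hf]; simp [this]
  have hsplit : ∫ u in a..b, f u = (∫ u in a0..(y - h), f u) + (∫ u in (y - h)..(y + h), f u)
      + ∫ u in (y + h)..b0, f u := by
    rw [integral_add_adjacent_intervals (hint _ _) (hint _ _),
      integral_add_adjacent_intervals (hint _ _) (hint _ _),
      ← integral_add_adjacent_intervals (hint a0 a) (hint a b0),
      ← integral_add_adjacent_intervals (hint a b) (hint b b0), hz1, hz2]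
    ring
  have ht1 : ‖∫ u in a0..(y - h), f u‖ ≤ 1 / (Real.pi * Λ * h) :=
    hW.tail κ Λ y a0 (y - h) h hΛ (min_le_right _ _) hh0 (Or.inl (by linarith))
  have ht2 : ‖∫ u in (y + h)..b0, f u‖ ≤ 1 / (Real.pi * Λ * h) :=
    hW.tail κ Λ y (y + h) b0 h hΛ (le_max_right _ _) hh0 (Or.inr (by linarith))
  have hsΛ : 0 < Real.sqrt Λ := Real.sqrt_pos.2 hΛ
  have hsκ : 0 < Real.sqrt κ := Real.sqrt_pos.2 hκ
  have hΛ2 : Real.sqrt Λ * Real.sqrt Λ = Λ := Real.mul_self_sqrt hΛ.le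
  have hκ2 : Real.sqrt κ * Real.sqrt κ = κ := Real.mul_self_sqrt hκ.le
  have hsm : Real.sqrt (Λ * κ) = Real.sqrt Λ * Real.sqrt κ := Real.sqrt_mul hΛ.le κ
  have htail : Real.sqrt Λ * (1 / (Real.pi * Λ * h)) ≤ Real.sqrt κ * (1 / (Real.pi * A)) := by
    have e1 : Real.sqrt Λ * (1 / (Real.pi * Λ * h)) = Real.sqrt κ * wb * (1 / (Real.pi * A)) := by
      rw [hh, hsm]
      field_simp
      rw [sq, hΛ2]
    rw [e1]
    have : Real.sqrt κ * wb ≤ Real.sqrt κ * 1 := by gcongr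
    have h9 : 0 ≤ 1 / (Real.pi * A) := by positivity
    calc Real.sqrt κ * wb * (1 / (Real.pi * A)) ≤ Real.sqrt κ * 1 * (1 / (Real.pi * A)) := by gcongr
      _ = Real.sqrt κ * (1 / (Real.pi * A)) := by ring
  have hnear := hW.near κ Λ y h β hκ.le hΛ.le hh0.le hβ
  have hβ0 : 0 ≤ β := by rw [hβd]; positivity
  have hnear2 : Real.sqrt Λ * (2 * h * (κ * β + κ * W y ^ 2 * (2 * Real.pi * (Λ * (κ * (β * h ^ 2))))))
      ≤ Real.sqrt κ * (6 * A * (1 + 2 * Real.pi * A ^ 2) / n) := by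
    have e1 : Λ * κ * h ^ 2 = A ^ 2 / wb ^ 2 := by
      rw [hh, div_pow, mul_pow, hs2]
      have : Λ * κ ≠ 0 := (mul_pos hΛ hκ).ne'
      field_simp
    have e2 : W y ^ 2 * (Λ * κ * h ^ 2) ≤ A ^ 2 := by
      rw [e1]
      have h10 : W y ^ 2 ≤ wb ^ 2 := by
        have := hW.nonneg y
        exact pow_le_pow_left₀ this hwbW 2
      calc W y ^ 2 * (A ^ 2 / wb ^ 2) ≤ wb ^ 2 * (A ^ 2 / wb ^ 2) := by gcongr
        _ = A ^ 2 := by field_simp
    have e3 : κ * β + κ * W y ^ 2 * (2 * Real.pi * (Λ * (κ * (β * h ^ 2))))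
        = κ * β * (1 + 2 * Real.pi * (W y ^ 2 * (Λ * κ * h ^ 2))) := by ring
    rw [e3]
    have e4 : Real.sqrt Λ * (2 * h * (κ * β * (1 + 2 * Real.pi * (W y ^ 2 * (Λ * κ * h ^ 2)))))
        ≤ Real.sqrt Λ * (2 * h * (κ * β * (1 + 2 * Real.pi * A ^ 2))) := by
      gcongr
    refine e4.trans (le_of_eq ?_)
    rw [hβd, hh, hsm]
    field_simp
    rw [sq, hκ2]
    ring
  -- main term
  have hmain : ‖((Real.sqrt Λ : ℝ) : ℂ) * (∫ u in (y - h)..(y + h), ((κ * W y ^ 2 : ℝ) : ℂ) *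
          ee (-(Λ * (κ * W y ^ 2) / 2 * (u - y) ^ 2)))
      - ((Real.sqrt κ * W y : ℝ) : ℂ) * ee (-(1 / 8))‖ ≤ Real.sqrt κ * (2 / (Real.pi * A)) := by
    rcases h01 y with h0 | h1
    · rw [h0]
      simp only [ne_eq, OfNat.ofNat_ne_zero, not_false_eq_true, zero_pow, mul_zero,
        Complex.ofReal_zero, zero_mul, intervalIntegral.integral_zero, sub_zero, norm_zero]
      positivity
    · have hw0 : 0 < W y := lt_of_lt_of_le (by positivity) h1
      have hwe : wb = W y := max_eq_left h1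
      rw [hh, hwe]
      refine (quad_main hκ hΛ hw0 hA).trans ?_
      have := hW.le_one y
      have h9 : 0 ≤ 2 / (Real.pi * A) := by positivity
      calc Real.sqrt κ * W y * (2 / (Real.pi * A)) ≤ Real.sqrt κ * 1 * (2 / (Real.pi * A)) := by
            gcongr
        _ = _ := by ring
  -- sum up
  set Q : ℂ := ∫ u in (y - h)..(y + h), ((κ * W y ^ 2 : ℝ) : ℂ) *
          ee (-(Λ * (κ * W y ^ 2) / 2 * (u - y) ^ 2)) with hQ
  have hdec : ((Real.sqrt Λ : ℝ) : ℂ) * (∫ u in a..b, f u)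
      - ((Real.sqrt κ * W y : ℝ) : ℂ) * ee (-(1 / 8))
      = (((Real.sqrt Λ : ℝ) : ℂ) * Q - ((Real.sqrt κ * W y : ℝ) : ℂ) * ee (-(1 / 8)))
        + ((Real.sqrt Λ : ℝ) : ℂ) * ((∫ u in (y - h)..(y + h), f u) - Q)
        + ((Real.sqrt Λ : ℝ) : ℂ) * (∫ u in a0..(y - h), f u)
        + ((Real.sqrt Λ : ℝ) : ℂ) * (∫ u in (y + h)..b0, f u) := by
    rw [hsplit]; ring
  have nΛ : ‖((Real.sqrt Λ : ℝ) : ℂ)‖ = Real.sqrt Λ := by
    rw [Complex.norm_real, Real.norm_of_nonneg hsΛ.le]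
  have hfin : ‖((Real.sqrt Λ : ℝ) : ℂ) * (∫ u in a..b, f u)
      - ((Real.sqrt κ * W y : ℝ) : ℂ) * ee (-(1 / 8))‖
      ≤ Real.sqrt κ * (2 / (Real.pi * A))
        + Real.sqrt κ * (6 * A * (1 + 2 * Real.pi * A ^ 2) / n)
        + Real.sqrt κ * (1 / (Real.pi * A)) + Real.sqrt κ * (1 / (Real.pi * A)) := by
    rw [hdec]
    refine (norm_add_le _ _).trans (add_le_add ((norm_add_le _ _).trans (add_le_add
      ((norm_add_le _ _).trans (add_le_add hmain ?_)) ?_)) ?_)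
    · rw [norm_mul, nΛ]
      exact (mul_le_mul_of_nonneg_left hnear hsΛ.le).trans hnear2
    · rw [norm_mul, nΛ]
      exact (mul_le_mul_of_nonneg_left ht1 hsΛ.le).trans htail
    · rw [norm_mul, nΛ]
      exact (mul_le_mul_of_nonneg_left ht2 hsΛ.le).trans htail
  refine hfin.trans (le_of_eq ?_)
  ring

end

end Crest.Agent.R075
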