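import Crest.Agent.R075.RoundSpencer

/-!
Row 75, THM S (S2, S3): full colouring and rounding of `u ∈ [0,1]^N` with small `∑ min (u, 1-u)`.
-/

set_option autoImplicit false

namespace Crest.Agent.R075.Round

open Finset

lemma sqrt_sqrt_le {X Y : ℝ} (hY : 0 ≤ Y) (h : X ≤ Y ^ 4) : Real.sqrt (Real.sqrt X) ≤ Y := by
  apply Real.sqrt_le_iff.mpr
  refine ⟨hY, ?_⟩
  apply Real.sqrt_le_iff.mpr
  refine ⟨by positivity, ?_⟩
  calc X ≤ Y ^ 4 := h
    _ = (Y ^ 2) ^ 2 := by ring

/-- the theta constant `(7/8)^{1/4} ≤ 0.97`. -/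
lemma theta_pow : (7 / 8 : ℝ) ≤ (97 / 100 : ℝ) ^ 4 := by norm_num

/-- (S2) full colouring. -/
theorem full_colouring (c : ℝ) (hc : 1 ≤ c) : ∃ K : ℝ, 0 < K ∧
    ∀ (N : ℕ) (ι κ : Type) [Fintype ι] [DecidableEq ι] [Fintype κ] [DecidableEq κ]
      (v : κ → ι → ℝ), (∀ i j, |v i j| ≤ 1) → 0 < N → Fintype.card ι ≤ N →
      (Fintype.card κ : ℝ) ≤ c * N → ∀ A : Finset ι,
      ∃ x : ι → ℝ, (∀ j ∈ A, x j = 1 ∨ x j = -1) ∧ (∀ j, j ∉ A → x j = 0) ∧
        ∀ i, |∑ j, v i j * x j| ≤ K * Real.sqrt (Real.sqrt (N * (A.card : ℝ))) := by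
  set K1 : ℝ := 4 * Real.sqrt (Real.log (2 * c) + 1) with hK1
  have hlc : 0 ≤ Real.log (2 * c) := Real.log_nonneg (by linarith)
  have hK10 : 0 < K1 := by positivity
  refine ⟨K1 * 100, by positivity, ?_⟩
  intro N ι κ _ _ _ _ v hv hN hι hκ
  have hN0 : (0 : ℝ) < N := by exact_mod_cast hN
  -- strong induction on card
  have main : ∀ n : ℕ, ∀ A : Finset ι, A.card = n →
      ∃ x : ι → ℝ, (∀ j ∈ A, x j = 1 ∨ x j = -1) ∧ (∀ j, j ∉ A → x j = 0) ∧
        ∀ i, |∑ j, v i j * x j| ≤ K1 * 100 * Real.sqrt (Real.sqrt (N * (A.card : ℝ))) := by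
    intro n
    induction n using Nat.strong_induction_on with
    | _ n ih =>
      intro A hA
      rcases Nat.eq_zero_or_pos n with h0 | hpos
      · refine ⟨fun _ => 0, ?_, ?_, ?_⟩
        · intro j hj
          rw [h0, Finset.card_eq_zero] at hA
          rw [hA] at hj
          exact absurd hj (Finset.notMem_empty j)
        · intro j _; rfl
        · intro i
          simp only [mul_zero, Finset.sum_const_zero, abs_zero]
          positivity
      · -- partial colouring on the subtype
        have hcardA : Fintype.card {j // j ∈ A} = n := by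
          rw [Fintype.card_coe]; exact hA
        have hn0 : (0 : ℝ) < n := by exact_mod_cast hpos
        have hAN : n ≤ N := by
          rw [← hA]; exact (Finset.card_le_univ A).trans hι
        have hANr : (n : ℝ) ≤ N := by exact_mod_cast hAN
        obtain ⟨x', hx1, hx2, hx3⟩ := partial_colouring (ι := {j // j ∈ A}) (κ := κ)
          (fun i j => v i j.1) (fun i j => hv i j.1) (c * N) hκ
          (by rw [hcardA]; nlinarith) (by rw [hcardA]; exact hpos)
        rw [hcardA] at hx2 hx3
        set xe : ι → ℝ := fun j => if h : j ∈ A then x' ⟨j, h⟩ else 0 with hxe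
        have hxe1 : ∀ j : {j // j ∈ A}, xe j.1 = x' j := by
          intro j
          simp only [hxe, j.2, dif_pos]
        have hxe0 : ∀ j, j ∉ A → xe j = 0 := by
          intro j hj
          simp only [hxe, hj, dif_neg, not_false_eq_true]
        have hsumxe : ∀ i, ∑ j, v i j * xe j = ∑ j : {j // j ∈ A}, v i j.1 * x' j := by
          intro i
          have h1 : ∑ j, v i j * xe j = ∑ j ∈ A, v i j * xe j := by
            symm
            apply Finset.sum_subset (Finset.subset_univ A)
            intro j _ hj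
            rw [hxe0 j hj, mul_zero]
          rw [h1, ← Finset.sum_coe_sort A (fun j => v i j * xe j)]
          apply Finset.sum_congr rfl
          intro j _
          rw [hxe1]
        set A' := A.filter (fun j => xe j = 0) with hA'
        -- card of A'
        have hcnt : (Finset.univ.filter (fun j : {j // j ∈ A} => x' j ≠ 0)).card =
            (A.filter (fun j => xe j ≠ 0)).card := by
          apply Finset.card_bij (fun (j : {j // j ∈ A}) _ => j.1)
          · intro j hj
            rw [Finset.mem_filter] at hj ⊢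
            exact ⟨j.2, by rw [hxe1]; exact hj.2⟩
          · intro j _ j' _ h
            exact Subtype.ext h
          · intro j hj
            rw [Finset.mem_filter] at hj
            refine ⟨⟨j, hj.1⟩, ?_, rfl⟩
            rw [Finset.mem_filter]
            exact ⟨Finset.mem_univ _, by rw [← hxe1]; exact hj.2⟩
        have hsplit : A'.card + (A.filter (fun j => xe j ≠ 0)).card = n := by
          rw [hA', ← hA]
          exact Finset.card_filter_add_card_filter_not (fun j => xe j = 0)
        rw [hcnt] at hx2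
        have hA'card : (A'.card : ℝ) ≤ 7 / 8 * n := by
          have : (A'.card : ℝ) + ((A.filter (fun j => xe j ≠ 0)).card : ℝ) = n := by
            exact_mod_cast hsplit
          linarith
        have hlt : A'.card < n := by
          have : (A'.card : ℝ) < n := by linarith
          exact_mod_cast this
        obtain ⟨x'', hy1, hy2, hy3⟩ := ih A'.card hlt A' rfl
        refine ⟨fun j => xe j + x'' j, ?_, ?_, ?_⟩
        · intro j hj
          by_cases hj0 : xe j = 0
          · have : j ∈ A' := by rw [hA', Finset.mem_filter]; exact ⟨hj, hj0⟩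
            rcases hy1 j this with h | h
            · left; simp only [hj0, h]; norm_num
            · right; simp only [hj0, h]; norm_num
          · have : j ∉ A' := by
              rw [hA', Finset.mem_filter]
              exact fun h => hj0 h.2
            have h0 := hy2 j this
            have h1 := hx1 ⟨j, hj⟩
            rw [← hxe1 ⟨j, hj⟩] at h1
            rcases h1 with h | h | h
            · exact absurd h hj0
            · left; simp only at h; simp only [h, h0]; norm_num
            · right; simp only at h; simp only [h, h0]; norm_num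
        · intro j hj
          have h1 : j ∉ A' := by
            rw [hA', Finset.mem_filter]
            exact fun h => hj h.1
          simp only [hxe0 j hj, hy2 j h1]; norm_num
        · intro i
          have e1 : ∑ j, v i j * (xe j + x'' j) = ∑ j, v i j * xe j + ∑ j, v i j * x'' j := by
            rw [← Finset.sum_add_distrib]
            apply Finset.sum_congr rfl
            intro j _; ring
          rw [e1]
          have hs0 : 0 < (n : ℝ) / N := by positivity
          have hs1 : (n : ℝ) / N ≤ 1 := by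
            rw [div_le_one hN0]; exact hANr
          -- partial part
          have p1 : |∑ j, v i j * xe j| ≤ K1 * Real.sqrt (Real.sqrt (N * (n : ℝ))) := by
            rw [hsumxe]
            refine (hx3 i).trans ?_
            rw [hK1]
            rw [mul_assoc, mul_assoc]
            apply mul_le_mul_of_nonneg_left _ (by norm_num)
            rw [← Real.sqrt_mul' _ (by positivity), ← Real.sqrt_mul (by positivity)]
            apply Real.sqrt_le_sqrt
            have hla := log_aux (2 * c) ((n : ℝ) / N) (by linarith) hs0 hs1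
            have e2 : 2 * c / ((n : ℝ) / N) = 2 * (c * N) / n := by field_simp
            rw [e2] at hla
            have e3 : Real.sqrt (N * (n : ℝ)) * Real.sqrt ((n : ℝ) / N) = n := by
              rw [← Real.sqrt_mul (by positivity)]
              have : (N : ℝ) * n * (n / N) = n ^ 2 := by field_simp
              rw [this, Real.sqrt_sq hn0.le]
            calc Real.log (2 * (c * N) / n) * n
                = Real.log (2 * (c * N) / n) *
                    (Real.sqrt (N * (n : ℝ)) * Real.sqrt ((n : ℝ) / N)) := by rw [e3]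
              _ = Real.sqrt (N * (n : ℝ)) *
                    (Real.sqrt ((n : ℝ) / N) * Real.log (2 * (c * N) / n)) := by ring
              _ ≤ Real.sqrt (N * (n : ℝ)) * (Real.log (2 * c) + 1) := by
                  apply mul_le_mul_of_nonneg_left hla (Real.sqrt_nonneg _)
              _ = _ := by ring
          have p2 : |∑ j, v i j * x'' j| ≤
              K1 * 100 * (97 / 100 * Real.sqrt (Real.sqrt (N * (n : ℝ)))) := by
            refine (hy3 i).trans ?_
            apply mul_le_mul_of_nonneg_left _ (by positivity)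
            apply sqrt_sqrt_le (by positivity)
            rw [mul_pow]
            have e4 : Real.sqrt (Real.sqrt (N * (n : ℝ))) ^ 4 = N * n := by
              have : Real.sqrt (Real.sqrt (N * (n : ℝ))) ^ 4 =
                  (Real.sqrt (Real.sqrt (N * (n : ℝ))) ^ 2) ^ 2 := by ring
              rw [this, Real.sq_sqrt (Real.sqrt_nonneg _), Real.sq_sqrt (by positivity)]
            rw [e4]
            have := theta_pow
            calc (N : ℝ) * A'.card ≤ N * (7 / 8 * n) := by
                  apply mul_le_mul_of_nonneg_left hA'card hN0.le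
              _ = 7 / 8 * (N * n) := by ring
              _ ≤ (97 / 100) ^ 4 * (N * n) := by
                  apply mul_le_mul_of_nonneg_right this (by positivity)
          rw [hA]
          calc |∑ j, v i j * xe j + ∑ j, v i j * x'' j|
              ≤ |∑ j, v i j * xe j| + |∑ j, v i j * x'' j| := abs_add_le _ _
            _ ≤ K1 * Real.sqrt (Real.sqrt (N * (n : ℝ))) +
                K1 * 100 * (97 / 100 * Real.sqrt (Real.sqrt (N * (n : ℝ)))) := add_le_add p1 p2
            _ ≤ K1 * 100 * Real.sqrt (Real.sqrt (N * (n : ℝ))) := by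
                have : 0 ≤ K1 * Real.sqrt (Real.sqrt (N * (n : ℝ))) := by positivity
                nlinarith
  intro A
  exact main A.card A rfl

/-- choose the global sign of the colouring so that one extra functional is `≤ 0`. -/
theorem full_colouring' (c : ℝ) (hc : 1 ≤ c) : ∃ K : ℝ, 0 < K ∧
    ∀ (N : ℕ) (ι κ : Type) [Fintype ι] [DecidableEq ι] [Fintype κ] [DecidableEq κ]
      (v : κ → ι → ℝ), (∀ i j, |v i j| ≤ 1) → 0 < N → Fintype.card ι ≤ N →
      (Fintype.card κ : ℝ) ≤ c * N → ∀ (s : ι → ℝ) (A : Finset ι),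
      ∃ x : ι → ℝ, (∀ j ∈ A, x j = 1 ∨ x j = -1) ∧ (∀ j, j ∉ A → x j = 0) ∧
        (∑ j, s j * x j ≤ 0) ∧
        ∀ i, |∑ j, v i j * x j| ≤ K * Real.sqrt (Real.sqrt (N * (A.card : ℝ))) := by
  obtain ⟨K, hK, h⟩ := full_colouring c hc
  refine ⟨K, hK, ?_⟩
  intro N ι κ _ _ _ _ v hv hN hι hκ s A
  obtain ⟨x, h1, h2, h3⟩ := h N ι κ v hv hN hι hκ A
  by_cases hs : ∑ j, s j * x j ≤ 0
  · exact ⟨x, h1, h2, hs, h3⟩
  · push Not at hs
    refine ⟨fun j => -x j, ?_, ?_, ?_, ?_⟩
    · intro j hj
      rcases h1 j hj with h | h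
      · right; show -x j = -1; rw [h]
      · left; show -x j = 1; rw [h]; norm_num
    · intro j hj
      simp only [h2 j hj, neg_zero]
    · simp only [mul_neg, Finset.sum_neg_distrib]
      linarith
    · intro i
      simp only [mul_neg, Finset.sum_neg_distrib, abs_neg]
      exact h3 i

/-- one digit: from level `l+1` to level `l` and so on (S3, dyadic part). -/
theorem round_dyadic (c : ℝ) (hc : 1 ≤ c) : ∃ K : ℝ, 0 < K ∧
    ∀ (N : ℕ) (ι κ : Type) [Fintype ι] [DecidableEq ι] [Fintype κ] [DecidableEq κ]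
      (v : κ → ι → ℝ), (∀ i j, |v i j| ≤ 1) → 0 < N → Fintype.card ι ≤ N →
      (Fintype.card κ : ℝ) ≤ c * N → ∀ (δ : ℝ), 0 ≤ δ → ∀ (l : ℕ) (u : ι → ℝ),
      (∀ k, 0 ≤ u k ∧ u k ≤ 1) → (∀ k, ∃ z : ℤ, u k * 2 ^ l = z) →
      (∑ k, min (u k) (1 - u k) ≤ δ * N) →
      ∃ w : ι → ℝ, (∀ k, w k = 0 ∨ w k = 1) ∧
        ∀ i, |∑ k, v i k * (w k - u k)| ≤
          (K * (Real.sqrt N * Real.sqrt (Real.sqrt δ))) * (2 * (1 - (3 / 5 : ℝ) ^ l)) := by
  obtain ⟨K, hK, h⟩ := full_colouring' c hc
  refine ⟨K, hK, ?_⟩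
  intro N ι κ _ _ _ _ v hv hN hι hκ δ hδ l
  have hN0 : (0 : ℝ) < N := by exact_mod_cast hN
  set B : ℝ := K * (Real.sqrt N * Real.sqrt (Real.sqrt δ)) with hB
  have hB0 : 0 ≤ B := by positivity
  induction l with
  | zero =>
    intro u hu hz _
    refine ⟨u, ?_, ?_⟩
    · intro k
      obtain ⟨z, hz⟩ := hz k
      rw [pow_zero, mul_one] at hz
      have h0 := (hu k).1
      have h1 := (hu k).2
      rw [hz] at h0 h1 ⊢
      have h0' : 0 ≤ z := by exact_mod_cast h0
      have h1' : z ≤ 1 := by exact_mod_cast h1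
      have : z = 0 ∨ z = 1 := by omega
      rcases this with h | h
      · left; rw [h]; norm_num
      · right; rw [h]; norm_num
    · intro i
      simp
  | succ l ih =>
    intro u hu hz hsum
    choose z hz using hz
    set A : Finset ι := Finset.univ.filter (fun k => Odd (z k)) with hA
    set s : ι → ℝ := fun k => if u k ≤ 1 / 2 then 1 else -1 with hs
    obtain ⟨x, hx1, hx2, hx3, hx4⟩ := h N ι κ v hv hN hι hκ s A
    have hpow : (0 : ℝ) < 2 ^ (l + 1) := by positivity
    set h2 : ℝ := ((2 : ℝ) ^ (l + 1))⁻¹ with hh2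
    have hh20 : 0 < h2 := by positivity
    have hu2 : ∀ k, u k = z k * h2 := by
      intro k
      rw [← hz k, hh2]; field_simp
    -- for k ∈ A : h2 ≤ u k ≤ 1 - h2
    have hAk : ∀ k ∈ A, h2 ≤ u k ∧ u k ≤ 1 - h2 := by
      intro k hk
      rw [hA, Finset.mem_filter] at hk
      obtain ⟨q, hq⟩ := hk.2
      have h0 := (hu k).1
      have h1 := (hu k).2
      have e1 := hz k
      have z0 : 0 ≤ z k := by
        have : (0 : ℝ) ≤ z k := by rw [← e1]; positivity
        exact_mod_cast this
      have z1 : z k ≤ 2 ^ (l + 1) := by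
        have : (z k : ℝ) ≤ 2 ^ (l + 1) := by rw [← e1]; nlinarith
        exact_mod_cast this
      have z2 : 1 ≤ z k := by omega
      have z3 : z k ≤ 2 ^ (l + 1) - 1 := by
        have hev : (2 : ℤ) ∣ 2 ^ (l + 1) := dvd_pow_self 2 (by omega)
        omega
      have z2' : (1 : ℝ) ≤ z k := by exact_mod_cast z2
      have z3' : (z k : ℝ) ≤ 2 ^ (l + 1) - 1 := by exact_mod_cast z3
      rw [hu2 k]
      constructor
      · nlinarith
      · have : (2 : ℝ) ^ (l + 1) * h2 = 1 := by rw [hh2]; field_simp
        nlinarith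
    have hminA : ∀ k ∈ A, h2 ≤ min (u k) (1 - u k) := by
      intro k hk
      have := hAk k hk
      apply le_min <;> linarith
    have hmin0 : ∀ k, 0 ≤ min (u k) (1 - u k) := by
      intro k
      apply le_min (hu k).1
      linarith [(hu k).2]
    have hcard : (A.card : ℝ) ≤ 2 ^ (l + 1) * (δ * N) := by
      have h1 : (A.card : ℝ) * h2 ≤ ∑ k, min (u k) (1 - u k) := by
        rw [← nsmul_eq_mul]
        refine (Finset.card_nsmul_le_sum A _ _ hminA).trans ?_
        apply Finset.sum_le_sum_of_subset_of_nonneg (Finset.subset_univ A)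
        intro k _ _; exact hmin0 k
      have h3 : (A.card : ℝ) * h2 ≤ δ * N := h1.trans hsum
      have h4 : (A.card : ℝ) = 2 ^ (l + 1) * (A.card * h2) := by
        rw [hh2]; field_simp
      rw [h4]
      apply mul_le_mul_of_nonneg_left h3 (by positivity)
    set u' : ι → ℝ := fun k => u k + h2 * x k with hu'
    have hu'1 : ∀ k, 0 ≤ u' k ∧ u' k ≤ 1 := by
      intro k
      by_cases hk : k ∈ A
      · have := hAk k hk
        rcases hx1 k hk with h | h
        · simp only [hu', h]; constructor <;> linarith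
        · simp only [hu', h]; constructor <;> linarith
      · simp only [hu', hx2 k hk]
        have := hu k
        constructor <;> linarith
    have hu'2 : ∀ k, ∃ z' : ℤ, u' k * 2 ^ l = z' := by
      intro k
      have hh : h2 * 2 ^ l = 1 / 2 := by
        rw [hh2, pow_succ]; field_simp
      by_cases hk : k ∈ A
      · have hodd := hk
        rw [hA, Finset.mem_filter] at hodd
        obtain ⟨q, hq⟩ := hodd.2
        have hqr : (z k : ℝ) = 2 * q + 1 := by exact_mod_cast hq
        rcases hx1 k hk with h | h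
        · refine ⟨q + 1, ?_⟩
          simp only [hu', h, hu2 k, hqr]
          push_cast
          linear_combination (2 * (q : ℝ) + 1 + 1) * hh
        · refine ⟨q, ?_⟩
          simp only [hu', h, hu2 k, hqr]
          linear_combination (2 * (q : ℝ) + 1 - 1) * hh
      · have hev : ¬ Odd (z k) := by
          intro ho
          exact hk (by rw [hA, Finset.mem_filter]; exact ⟨Finset.mem_univ _, ho⟩)
        rw [Int.not_odd_iff_even] at hev
        obtain ⟨q, hq⟩ := hev
        have hqr : (z k : ℝ) = q + q := by exact_mod_cast hq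
        refine ⟨q, ?_⟩
        simp only [hu', hx2 k hk, hu2 k, hqr]
        linear_combination (2 * (q : ℝ)) * hh
    have hu'3 : ∑ k, min (u' k) (1 - u' k) ≤ δ * N := by
      have hk : ∀ k, min (u' k) (1 - u' k) ≤ min (u k) (1 - u k) + h2 * (s k * x k) := by
        intro k
        by_cases hk : u k ≤ 1 / 2
        · have e : min (u k) (1 - u k) = u k := min_eq_left (by linarith)
          simp only [hs, hk, if_true, e, one_mul]
          exact min_le_left _ _
        · have e : min (u k) (1 - u k) = 1 - u k := by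
            apply min_eq_right
            push Not at hk
            linarith
          simp only [hs, hk, if_false, e]
          refine (min_le_right _ _).trans ?_
          simp only [hu']
          linarith
      calc ∑ k, min (u' k) (1 - u' k) ≤ ∑ k, (min (u k) (1 - u k) + h2 * (s k * x k)) :=
            Finset.sum_le_sum (fun k _ => hk k)
        _ = ∑ k, min (u k) (1 - u k) + h2 * ∑ k, s k * x k := by
            rw [Finset.sum_add_distrib, ← Finset.mul_sum]
        _ ≤ δ * N := by nlinarith
    obtain ⟨w, hw1, hw2⟩ := ih u' hu'1 hu'2 hu'3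
    refine ⟨w, hw1, ?_⟩
    intro i
    have e1 : ∑ k, v i k * (w k - u k) = ∑ k, v i k * (w k - u' k) + h2 * ∑ k, v i k * x k := by
      rw [Finset.mul_sum, ← Finset.sum_add_distrib]
      apply Finset.sum_congr rfl
      intro k _
      simp only [hu']; ring
    have p2 : |h2 * ∑ k, v i k * x k| ≤ B * (3 / 5 : ℝ) ^ (l + 1) := by
      rw [abs_mul, abs_of_pos hh20]
      have p3 : Real.sqrt (Real.sqrt (N * (A.card : ℝ))) ≤
          (Real.sqrt N * Real.sqrt (Real.sqrt δ)) * (6 / 5 : ℝ) ^ (l + 1) := by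
        apply sqrt_sqrt_le (by positivity)
        rw [mul_pow, mul_pow]
        have e4 : Real.sqrt (Real.sqrt δ) ^ 4 = δ := by
          have : Real.sqrt (Real.sqrt δ) ^ 4 = (Real.sqrt (Real.sqrt δ) ^ 2) ^ 2 := by ring
          rw [this, Real.sq_sqrt (Real.sqrt_nonneg _), Real.sq_sqrt hδ]
        have e5 : Real.sqrt N ^ 4 = (N : ℝ) ^ 2 := by
          have : Real.sqrt N ^ 4 = (Real.sqrt (N : ℝ) ^ 2) ^ 2 := by ring
          rw [this, Real.sq_sqrt hN0.le]
        rw [e4, e5]
        have e6 : (2 : ℝ) ^ (l + 1) ≤ ((6 / 5 : ℝ) ^ (l + 1)) ^ 4 := by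
          rw [← pow_mul, mul_comm, pow_mul]
          apply pow_le_pow_left₀ (by norm_num)
          norm_num
        calc (N : ℝ) * A.card ≤ N * (2 ^ (l + 1) * (δ * N)) := by
              apply mul_le_mul_of_nonneg_left hcard hN0.le
          _ = (N : ℝ) ^ 2 * δ * 2 ^ (l + 1) := by ring
          _ ≤ (N : ℝ) ^ 2 * δ * ((6 / 5 : ℝ) ^ (l + 1)) ^ 4 := by
              apply mul_le_mul_of_nonneg_left e6 (by positivity)
      calc h2 * |∑ k, v i k * x k| ≤ h2 * (K * ((Real.sqrt N * Real.sqrt (Real.sqrt δ)) *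
            (6 / 5 : ℝ) ^ (l + 1))) := by
            apply mul_le_mul_of_nonneg_left _ hh20.le
            refine (hx4 i).trans ?_
            apply mul_le_mul_of_nonneg_left p3 hK.le
        _ = B * ((6 / 5 : ℝ) ^ (l + 1) * h2) := by rw [hB]; ring
        _ = B * (3 / 5 : ℝ) ^ (l + 1) := by
            congr 1
            rw [hh2, ← inv_pow, ← mul_pow]
            norm_num
    rw [e1]
    calc |∑ k, v i k * (w k - u' k) + h2 * ∑ k, v i k * x k|
        ≤ |∑ k, v i k * (w k - u' k)| + |h2 * ∑ k, v i k * x k| := abs_add_le _ _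
      _ ≤ B * (2 * (1 - (3 / 5 : ℝ) ^ l)) + B * (3 / 5 : ℝ) ^ (l + 1) := add_le_add (hw2 i) p2
      _ ≤ B * (2 * (1 - (3 / 5 : ℝ) ^ (l + 1))) := by
          rw [← mul_add]
          apply mul_le_mul_of_nonneg_left _ hB0
          have : (0 : ℝ) ≤ (3 / 5 : ℝ) ^ l := by positivity
          rw [pow_succ]
          linarith

/-- (S3) rounding, general real `u`. -/
theorem round_functionals (c : ℝ) (hc : 1 ≤ c) : ∃ K : ℝ, 0 < K ∧
    ∀ (N : ℕ) (ι κ : Type) [Fintype ι] [DecidableEq ι] [Fintype κ] [DecidableEq κ]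
      (v : κ → ι → ℝ), (∀ i j, |v i j| ≤ 1) → 0 < N → Fintype.card ι ≤ N →
      (Fintype.card κ : ℝ) ≤ c * N → ∀ (δ : ℝ), 0 < δ → δ ≤ 1 → ∀ (u : ι → ℝ),
      (∀ k, 0 ≤ u k ∧ u k ≤ 1) →
      (∑ k, min (u k) (1 - u k) ≤ δ * N) →
      ∃ w : ι → ℝ, (∀ k, w k = 0 ∨ w k = 1) ∧
        ∀ i, |∑ k, v i k * (w k - u k)| ≤ K * (Real.sqrt N * Real.sqrt (Real.sqrt δ)) := by
  obtain ⟨K, hK, h⟩ := round_dyadic c hc
  refine ⟨K * 4 + 1, by positivity, ?_⟩
  intro N ι κ _ _ _ _ v hv hN hι hκ δ hδ hδ1 u hu hsum
  have hN0 : (0 : ℝ) < N := by exact_mod_cast hN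
  have hN1 : (1 : ℝ) ≤ N := by exact_mod_cast hN
  obtain ⟨M, hM⟩ : ∃ M : ℕ, (N : ℝ) / δ ≤ 2 ^ M := by
    obtain ⟨M, hM⟩ := pow_unbounded_of_one_lt ((N : ℝ) / δ) (by norm_num : (1 : ℝ) < 2)
    exact ⟨M, hM.le⟩
  have hM0 : (0 : ℝ) < 2 ^ M := by positivity
  set h2 : ℝ := ((2 : ℝ) ^ M)⁻¹ with hh2
  have hh20 : 0 < h2 := by positivity
  have hNh : N * h2 ≤ δ := by
    rw [div_le_iff₀ hδ] at hM
    rw [hh2, ← div_eq_mul_inv, div_le_iff₀ hM0]
    linarith
  set u' : ι → ℝ := fun k => (⌊u k * 2 ^ M⌋ : ℝ) * h2 with hu'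
  have hmul : (2 : ℝ) ^ M * h2 = 1 := by rw [hh2]; field_simp
  have hle : ∀ k, u' k ≤ u k := by
    intro k
    have := Int.floor_le (u k * 2 ^ M)
    calc u' k = (⌊u k * 2 ^ M⌋ : ℝ) * h2 := rfl
      _ ≤ (u k * 2 ^ M) * h2 := by apply mul_le_mul_of_nonneg_right this hh20.le
      _ = u k := by rw [mul_assoc, hmul, mul_one]
  have hge : ∀ k, u k ≤ u' k + h2 := by
    intro k
    have := (Int.lt_floor_add_one (u k * 2 ^ M)).le
    calc u k = (u k * 2 ^ M) * h2 := by rw [mul_assoc, hmul, mul_one]
      _ ≤ ((⌊u k * 2 ^ M⌋ : ℝ) + 1) * h2 := by apply mul_le_mul_of_nonneg_right this hh20.le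
      _ = u' k + h2 := by simp only [hu']; ring
  have h0 : ∀ k, 0 ≤ u' k := by
    intro k
    have : (0 : ℤ) ≤ ⌊u k * 2 ^ M⌋ := by
      apply Int.floor_nonneg.mpr
      have := (hu k).1
      positivity
    have h' : (0 : ℝ) ≤ (⌊u k * 2 ^ M⌋ : ℝ) := by exact_mod_cast this
    simp only [hu']; positivity
  have hcardN : (Fintype.card ι : ℝ) ≤ N := by exact_mod_cast hι
  have hsum' : ∑ k, min (u' k) (1 - u' k) ≤ (2 * δ) * N := by
    calc ∑ k, min (u' k) (1 - u' k) ≤ ∑ k, (min (u k) (1 - u k) + h2) := by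
          apply Finset.sum_le_sum
          intro k _
          rw [← min_add_add_right]
          apply min_le_min
          · linarith [hle k]
          · linarith [hge k]
      _ = ∑ k, min (u k) (1 - u k) + Fintype.card ι * h2 := by
          rw [Finset.sum_add_distrib]; simp
      _ ≤ δ * N + N * h2 := by
          apply add_le_add hsum
          apply mul_le_mul_of_nonneg_right hcardN hh20.le
      _ ≤ (2 * δ) * N := by nlinarith
  obtain ⟨w, hw1, hw2⟩ := h N ι κ v hv hN hι hκ (2 * δ) (by linarith) M u'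
    (fun k => ⟨h0 k, (hle k).trans (hu k).2⟩)
    (fun k => ⟨⌊u k * 2 ^ M⌋, by
      simp only [hu']
      rw [mul_assoc, mul_comm h2, hmul, mul_one]⟩) hsum'
  refine ⟨w, hw1, ?_⟩
  intro i
  have e1 : ∑ k, v i k * (w k - u k) = ∑ k, v i k * (w k - u' k) + ∑ k, v i k * (u' k - u k) := by
    rw [← Finset.sum_add_distrib]
    apply Finset.sum_congr rfl
    intro k _; ring
  have p2 : |∑ k, v i k * (u' k - u k)| ≤ δ := by
    calc |∑ k, v i k * (u' k - u k)| ≤ ∑ k, |v i k * (u' k - u k)| :=
          Finset.abs_sum_le_sum_abs _ _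
      _ ≤ ∑ _k : ι, h2 := by
          apply Finset.sum_le_sum
          intro k _
          rw [abs_mul]
          have a1 := hv i k
          have a2 : |u' k - u k| ≤ h2 := by
            rw [abs_le]
            constructor <;> linarith [hle k, hge k]
          calc |v i k| * |u' k - u k| ≤ 1 * h2 :=
                mul_le_mul a1 a2 (abs_nonneg _) (by norm_num)
            _ = h2 := one_mul _
      _ = Fintype.card ι * h2 := by simp
      _ ≤ N * h2 := mul_le_mul_of_nonneg_right hcardN hh20.le
      _ ≤ δ := hNh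
  have hq0 : 0 ≤ Real.sqrt (Real.sqrt δ) := Real.sqrt_nonneg _
  have hq4 : Real.sqrt (Real.sqrt δ) ^ 4 = δ := by
    have : Real.sqrt (Real.sqrt δ) ^ 4 = (Real.sqrt (Real.sqrt δ) ^ 2) ^ 2 := by ring
    rw [this, Real.sq_sqrt (Real.sqrt_nonneg _), Real.sq_sqrt hδ.le]
  have hq1 : Real.sqrt (Real.sqrt δ) ≤ 1 := by
    apply sqrt_sqrt_le (by norm_num); simpa using hδ1
  have hq2 : Real.sqrt (Real.sqrt (2 * δ)) ≤ 2 * Real.sqrt (Real.sqrt δ) := by
    apply sqrt_sqrt_le (by positivity)
    rw [mul_pow, hq4]; nlinarith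
  have hδq : δ ≤ Real.sqrt (Real.sqrt δ) := by
    calc δ = Real.sqrt (Real.sqrt δ) ^ 4 := hq4.symm
      _ ≤ Real.sqrt (Real.sqrt δ) := pow_le_of_le_one hq0 hq1 (by norm_num)
  have hsN : 1 ≤ Real.sqrt N := Real.one_le_sqrt.mpr hN1
  have h35 : (0 : ℝ) ≤ (3 / 5 : ℝ) ^ M := by positivity
  rw [e1]
  calc |∑ k, v i k * (w k - u' k) + ∑ k, v i k * (u' k - u k)|
      ≤ |∑ k, v i k * (w k - u' k)| + |∑ k, v i k * (u' k - u k)| := abs_add_le _ _
    _ ≤ (K * (Real.sqrt N * Real.sqrt (Real.sqrt (2 * δ)))) * (2 * (1 - (3 / 5 : ℝ) ^ M)) + δ :=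
        add_le_add (hw2 i) p2
    _ ≤ (K * (Real.sqrt N * (2 * Real.sqrt (Real.sqrt δ)))) * 2 +
          Real.sqrt N * Real.sqrt (Real.sqrt δ) := by
        apply add_le_add
        · apply mul_le_mul
          · gcongr
          · linarith
          · have : (3 / 5 : ℝ) ^ M ≤ 1 := pow_le_one₀ (by norm_num) (by norm_num)
            linarith
          · positivity
        · nlinarith
    _ = (K * 4 + 1) * (Real.sqrt N * Real.sqrt (Real.sqrt δ)) := by ring

end Crest.Agent.R075.Round
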