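import Mathlib

/-!
Row 75, THM S (S1): Spencer-type partial colouring, self-contained.
-/

set_option autoImplicit false

namespace Crest.Agent.R075.Round

open Finset

/-- sign of a Boolean -/
noncomputable def sg (b : Bool) : ℝ := if b then 1 else -1

lemma sg_true : sg true = 1 := rfl
lemma sg_false : sg false = -1 := by simp [sg]

lemma abs_sg (b : Bool) : |sg b| = 1 := by cases b <;> simp [sg]

section mgf
variable {ι : Type*} [Fintype ι] [DecidableEq ι]

lemma sum_exp_sg (v : ι → ℝ) :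
    ∑ ε : ι → Bool, Real.exp (∑ j, v j * sg (ε j)) = ∏ j, (Real.exp (v j) + Real.exp (-v j)) := by
  have h := Finset.prod_univ_sum (R := ℝ) (κ := fun _ : ι => Bool)
    (fun _ => (Finset.univ : Finset Bool)) (fun j b => Real.exp (v j * sg b))
  rw [Fintype.piFinset_univ] at h
  have h2 : (∏ j, ∑ b : Bool, Real.exp (v j * sg b)) = ∏ j, (Real.exp (v j) + Real.exp (-v j)) := by
    apply Finset.prod_congr rfl
    intro j _
    simp [sg]
  rw [← h2, h]
  apply Finset.sum_congr rfl
  intro ε _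
  rw [Real.exp_sum]

lemma sum_exp_sg_le (v : ι → ℝ) :
    ∑ ε : ι → Bool, Real.exp (∑ j, v j * sg (ε j)) ≤
      2 ^ (Fintype.card ι) * Real.exp ((∑ j, v j ^ 2) / 2) := by
  rw [sum_exp_sg]
  have h : ∀ j, Real.exp (v j) + Real.exp (-v j) ≤ 2 * Real.exp (v j ^ 2 / 2) := by
    intro j
    have := Real.cosh_le_exp_half_sq (v j)
    rw [Real.cosh_eq] at this
    linarith
  calc ∏ j, (Real.exp (v j) + Real.exp (-v j)) ≤ ∏ j, (2 * Real.exp (v j ^ 2 / 2)) := by
        apply Finset.prod_le_prod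
        · intro j _; positivity
        · intro j _; exact h j
    _ = 2 ^ (Fintype.card ι) * Real.exp ((∑ j, v j ^ 2) / 2) := by
        rw [Finset.prod_mul_distrib, Finset.prod_const, Finset.card_univ, ← Real.exp_sum,
          Finset.sum_div]

end mgf

lemma abs_round_le_exp (y t : ℝ) (ht : 1 ≤ t) :
    |((round y : ℤ) : ℝ)| ≤ Real.exp (-t) * (Real.exp (2 * t * y) + Real.exp (-(2 * t * y))) := by
  have h1 : |y - round y| ≤ 1 / 2 := abs_sub_round y
  have h2 : |((round y : ℤ) : ℝ)| ≤ |y| + 1 / 2 := by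
    have : |((round y : ℤ) : ℝ)| ≤ |y| + |y - round y| := by
      have := abs_sub_abs_le_abs_sub ((round y : ℤ) : ℝ) y
      rw [abs_sub_comm] at this
      linarith
    linarith
  by_cases hy : |y| < 1 / 2
  · have h3 : |((round y : ℤ) : ℝ)| < 1 := by linarith
    have h4 : |(round y : ℤ)| < 1 := by exact_mod_cast h3
    have h5 : (round y : ℤ) = 0 := by
      rwa [Int.abs_lt_one_iff] at h4
    rw [h5]
    simp
    positivity
  · push Not at hy
    have h3 : |((round y : ℤ) : ℝ)| ≤ 2 * |y| := by linarith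
    have h4 : 2 * |y| ≤ Real.exp (2 * |y| - 1) := by
      have := Real.add_one_le_exp (2 * |y| - 1)
      linarith
    have h5 : Real.exp (2 * |y| - 1) ≤ Real.exp (t * (2 * |y| - 1)) := by
      apply Real.exp_le_exp.mpr
      nlinarith
    have h6 : Real.exp (t * (2 * |y| - 1)) = Real.exp (-t) * Real.exp (2 * t * |y|) := by
      rw [← Real.exp_add]; congr 1; ring
    have h7 : Real.exp (2 * t * |y|) ≤ Real.exp (2 * t * y) + Real.exp (-(2 * t * y)) := by
      rcases abs_cases y with ⟨h, _⟩ | ⟨h, _⟩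
      · rw [h]
        have := Real.exp_pos (-(2 * t * y))
        linarith
      · rw [h]
        have := Real.exp_pos (2 * t * y)
        have e : 2 * t * -y = -(2 * t * y) := by ring
        rw [e]
        linarith
    calc |((round y : ℤ) : ℝ)| ≤ Real.exp (-t) * Real.exp (2 * t * |y|) := by
          linarith
      _ ≤ _ := by
          apply mul_le_mul_of_nonneg_left h7 (Real.exp_pos _).le

section first
variable {ι : Type*} [Fintype ι] [DecidableEq ι]

/-- E|round(<v,ε>/(2 λ √n))| ≤ 2 exp(-λ²/2). -/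
lemma sum_abs_round_le (v : ι → ℝ) (hv : ∀ j, |v j| ≤ 1) (lam s : ℝ) (hlam : 1 ≤ lam)
    (hs : 0 < s) (hsn : (Fintype.card ι : ℝ) ≤ s ^ 2) :
    ∑ ε : ι → Bool, |((round ((∑ j, v j * sg (ε j)) / (2 * lam * s)) : ℤ) : ℝ)| ≤
      2 ^ (Fintype.card ι) * (2 * Real.exp (-(lam ^ 2 / 2))) := by
  set t := lam ^ 2 with ht
  have ht1 : 1 ≤ t := by rw [ht]; nlinarith
  have hlam0 : 0 < lam := by linarith
  set w : ι → ℝ := fun j => 2 * t * v j / (2 * lam * s) with hw
  have key : ∀ ε : ι → Bool, |((round ((∑ j, v j * sg (ε j)) / (2 * lam * s)) : ℤ) : ℝ)| ≤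
      Real.exp (-t) * (Real.exp (∑ j, w j * sg (ε j)) + Real.exp (∑ j, (-w j) * sg (ε j))) := by
    intro ε
    have h := abs_round_le_exp ((∑ j, v j * sg (ε j)) / (2 * lam * s)) t ht1
    have e1 : 2 * t * ((∑ j, v j * sg (ε j)) / (2 * lam * s)) = ∑ j, w j * sg (ε j) := by
      rw [Finset.sum_div, Finset.mul_sum]
      apply Finset.sum_congr rfl
      intro j _
      simp only [hw]; ring
    have e2 : -(∑ j, w j * sg (ε j)) = ∑ j, (-w j) * sg (ε j) := by
      rw [← Finset.sum_neg_distrib]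
      apply Finset.sum_congr rfl
      intro j _; ring
    rw [e1, e2] at h
    exact h
  have hw2 : (∑ j, w j ^ 2) / 2 ≤ t / 2 := by
    have : ∀ j, w j ^ 2 ≤ t / s ^ 2 := by
      intro j
      have hv2 : v j ^ 2 ≤ 1 := by
        have := hv j
        rw [← sq_abs]; nlinarith [abs_nonneg (v j)]
      have e : w j ^ 2 = (t / s ^ 2) * v j ^ 2 := by
        simp only [hw, ht]; field_simp
      rw [e]
      have : 0 ≤ t / s ^ 2 := by positivity
      nlinarith
    have h2 : ∑ j, w j ^ 2 ≤ (Fintype.card ι : ℝ) * (t / s ^ 2) := by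
      calc ∑ j, w j ^ 2 ≤ ∑ _j : ι, t / s ^ 2 := Finset.sum_le_sum (fun j _ => this j)
        _ = (Fintype.card ι : ℝ) * (t / s ^ 2) := by simp
    have h3 : (Fintype.card ι : ℝ) * (t / s ^ 2) ≤ s ^ 2 * (t / s ^ 2) := by
      apply mul_le_mul_of_nonneg_right hsn (by positivity)
    have h4 : s ^ 2 * (t / s ^ 2) = t := by field_simp
    linarith
  have hE : ∀ u : ι → ℝ, (∑ j, u j ^ 2) / 2 ≤ t / 2 →
      ∑ ε : ι → Bool, Real.exp (∑ j, u j * sg (ε j)) ≤ 2 ^ (Fintype.card ι) * Real.exp (t / 2) := by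
    intro u hu
    refine (sum_exp_sg_le u).trans ?_
    apply mul_le_mul_of_nonneg_left (Real.exp_le_exp.mpr hu) (by positivity)
  have h1 := hE w hw2
  have h2 := hE (fun j => -w j) (by simpa using hw2)
  calc ∑ ε : ι → Bool, |((round ((∑ j, v j * sg (ε j)) / (2 * lam * s)) : ℤ) : ℝ)|
      ≤ ∑ ε : ι → Bool, Real.exp (-t) *
          (Real.exp (∑ j, w j * sg (ε j)) + Real.exp (∑ j, (-w j) * sg (ε j))) :=
        Finset.sum_le_sum (fun ε _ => key ε)
    _ = Real.exp (-t) * (∑ ε : ι → Bool, Real.exp (∑ j, w j * sg (ε j)) +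
          ∑ ε : ι → Bool, Real.exp (∑ j, (-w j) * sg (ε j))) := by
        rw [← Finset.mul_sum, Finset.sum_add_distrib]
    _ ≤ Real.exp (-t) * (2 ^ (Fintype.card ι) * Real.exp (t / 2) +
          2 ^ (Fintype.card ι) * Real.exp (t / 2)) := by
        apply mul_le_mul_of_nonneg_left (add_le_add h1 h2) (Real.exp_pos _).le
    _ = 2 ^ (Fintype.card ι) * (2 * Real.exp (-(t / 2))) := by
        have : Real.exp (-(t/2)) = Real.exp (-t) * Real.exp (t / 2) := by
          rw [← Real.exp_add]; congr 1; ring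
        rw [this]; ring

end first

/-- `∑_{|k| ≤ B} x^{|k|} ≤ 1 + 4x ≤ exp (4x)` for `0 ≤ x ≤ 1/2`. -/
lemma sum_Icc_pow_le (x : ℝ) (hx0 : 0 ≤ x) (hx : x ≤ 1 / 2) (B : ℕ) :
    ∑ k ∈ Finset.Icc (-(B : ℤ)) B, x ^ k.natAbs ≤ Real.exp (4 * x) := by
  have h : ∀ B : ℕ, ∑ k ∈ Finset.Icc (-(B : ℤ)) B, x ^ k.natAbs ≤ 1 + 4 * x - 4 * x ^ (B + 1) := by
    intro B
    induction B with
    | zero => simp
    | succ B ih =>
      have e : Finset.Icc (-((B + 1 : ℕ) : ℤ)) ((B + 1 : ℕ) : ℤ) =
          insert ((B + 1 : ℕ) : ℤ) (insert (-((B + 1 : ℕ) : ℤ)) (Finset.Icc (-(B : ℤ)) B)) := by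
        ext k
        simp only [Finset.mem_Icc, Finset.mem_insert]
        push_cast
        omega
      rw [e, Finset.sum_insert, Finset.sum_insert]
      · have e1 : ((B + 1 : ℕ) : ℤ).natAbs = B + 1 := Int.natAbs_natCast _
        have e2 : (-((B + 1 : ℕ) : ℤ)).natAbs = B + 1 := by
          rw [Int.natAbs_neg]; exact Int.natAbs_natCast _
        rw [e1, e2]
        have h3 : x ^ (B + 1 + 1) = x * x ^ (B + 1) := by rw [pow_succ]; ring
        have h4 : 0 ≤ x ^ (B + 1) := by positivity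
        rw [h3]
        nlinarith
      · simp only [Finset.mem_Icc]
        push_cast
        omega
      · simp only [Finset.mem_Icc, Finset.mem_insert]
        push_cast
        omega
  have h1 := h B
  have h2 : 0 ≤ x ^ (B + 1) := by positivity
  have h3 := Real.add_one_le_exp (4 * x)
  linarith

section ball
variable {ι : Type*} [Fintype ι] [DecidableEq ι]

/-- number of sign vectors at Hamming distance `≤ n/8` from a given one. -/
lemma card_ball_le (ε₀ : ι → Bool) :
    ((Finset.univ.filter (fun ε : ι → Bool =>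
      (8 : ℝ) * ((Finset.univ.filter (fun j => ε j ≠ ε₀ j)).card : ℝ) ≤ Fintype.card ι)).card : ℝ) ≤
      Real.exp ((Fintype.card ι : ℝ) * (1 / 8 + 3 / 8 * Real.log 2)) := by
  set n := Fintype.card ι with hn
  -- weight: product over j of (if ε j ≠ ε₀ j then 1/8 else 1)
  have hprod : ∑ ε : ι → Bool, ∏ j, (if ε j ≠ ε₀ j then (1 / 8 : ℝ) else 1) = (9 / 8 : ℝ) ^ n := by
    have h := Finset.prod_univ_sum (R := ℝ) (κ := fun _ : ι => Bool)
      (fun _ => (Finset.univ : Finset Bool)) (fun j b => if b ≠ ε₀ j then (1 / 8 : ℝ) else 1)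
    rw [Fintype.piFinset_univ] at h
    rw [← h]
    have : ∀ j : ι, ∑ b : Bool, (if b ≠ ε₀ j then (1 / 8 : ℝ) else 1) = 9 / 8 := by
      intro j
      rw [Fintype.sum_bool]
      cases ε₀ j <;> norm_num
    rw [Finset.prod_congr rfl (fun j _ => this j), Finset.prod_const, Finset.card_univ]
  have hw : ∀ ε : ι → Bool, ∏ j, (if ε j ≠ ε₀ j then (1 / 8 : ℝ) else 1) =
      Real.exp (-(3 * Real.log 2) * ((Finset.univ.filter (fun j => ε j ≠ ε₀ j)).card : ℝ)) := by
    intro ε
    rw [Finset.prod_ite]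
    simp only [Finset.prod_const, one_pow, mul_one]
    have : (1 / 8 : ℝ) = Real.exp (-(3 * Real.log 2)) := by
      rw [Real.exp_neg, mul_comm, Real.exp_mul, Real.exp_log (by norm_num)]
      norm_num
    rw [this, ← Real.exp_nat_mul]
    congr 1; ring
  have hlow : ∀ ε ∈ (Finset.univ.filter (fun ε : ι → Bool =>
      (8 : ℝ) * ((Finset.univ.filter (fun j => ε j ≠ ε₀ j)).card : ℝ) ≤ n)),
      Real.exp (-(3 / 8 * Real.log 2) * n) ≤ ∏ j, (if ε j ≠ ε₀ j then (1 / 8 : ℝ) else 1) := by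
    intro ε hε
    rw [hw]
    apply Real.exp_le_exp.mpr
    have := (Finset.mem_filter.mp hε).2
    have hl : 0 < Real.log 2 := Real.log_pos (by norm_num)
    nlinarith
  have hsum : ((Finset.univ.filter (fun ε : ι → Bool =>
      (8 : ℝ) * ((Finset.univ.filter (fun j => ε j ≠ ε₀ j)).card : ℝ) ≤ n)).card : ℝ) *
      Real.exp (-(3 / 8 * Real.log 2) * n) ≤ (9 / 8 : ℝ) ^ n := by
    rw [← hprod, ← nsmul_eq_mul]
    refine (Finset.card_nsmul_le_sum _ _ _ hlow).trans ?_
    apply Finset.sum_le_sum_of_subset_of_nonneg (Finset.filter_subset _ _)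
    intro ε _ _
    apply Finset.prod_nonneg
    intro j _
    split_ifs <;> norm_num
  have h98 : (9 / 8 : ℝ) ^ n ≤ Real.exp (n * (1 / 8)) := by
    rw [Real.exp_nat_mul]
    apply pow_le_pow_left₀ (by norm_num)
    have := Real.add_one_le_exp (1 / 8 : ℝ)
    linarith
  have hexp : Real.exp ((n : ℝ) * (1 / 8 + 3 / 8 * Real.log 2)) * Real.exp (-(3 / 8 * Real.log 2) * n)
      = Real.exp (n * (1 / 8)) := by
    rw [← Real.exp_add]; congr 1; ring
  have hp := Real.exp_pos (-(3 / 8 * Real.log 2) * n)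
  have := hsum.trans h98
  rw [← hexp] at this
  exact le_of_mul_le_mul_right this hp

end ball

section partial_col
variable {ι κ : Type*} [Fintype ι] [DecidableEq ι] [Fintype κ] [DecidableEq κ]

/-- Entropy/pigeonhole step. -/
lemma exists_far_pair (r : (ι → Bool) → κ → ℤ) (K a : ℝ) (hK : Real.log 2 ≤ K)
    (hsum : ∑ ε : ι → Bool, ∑ i, |((r ε i : ℤ) : ℝ)| ≤ 2 ^ (Fintype.card ι) * a)
    (hlt : K * a + 4 * (Fintype.card κ) * Real.exp (-K) <
      (Fintype.card ι : ℝ) * (5 / 8 * Real.log 2 - 1 / 8)) :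
    ∃ ε ε' : ι → Bool, r ε = r ε' ∧
      (Fintype.card ι : ℝ) < 8 * ((Finset.univ.filter (fun j => ε j ≠ ε' j)).card : ℝ) := by
  classical
  by_contra hcon
  push Not at hcon
  set n := Fintype.card ι with hn
  set m := Fintype.card κ with hm
  set V : ℝ := Real.exp ((n : ℝ) * (1 / 8 + 3 / 8 * Real.log 2)) with hV
  set S : (ι → Bool) → ℝ := fun ε => ∑ i, |((r ε i : ℤ) : ℝ)| with hS
  have hl2 : 0 < Real.log 2 := Real.log_pos (by norm_num)
  have hK0 : 0 < K := by linarith
  -- lower bound by Jensen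
  have hlow : 2 ^ n * Real.exp (-(K * a)) ≤ ∑ ε : ι → Bool, Real.exp (-(K * S ε)) := by
    have h1 : ∀ ε : ι → Bool, Real.exp (-(K * a)) * (1 - K * (S ε - a)) ≤ Real.exp (-(K * S ε)) := by
      intro ε
      have h2 := Real.add_one_le_exp (-(K * (S ε - a)))
      have h3 : Real.exp (-(K * S ε)) = Real.exp (-(K * a)) * Real.exp (-(K * (S ε - a))) := by
        rw [← Real.exp_add]; congr 1; ring
      rw [h3]
      apply mul_le_mul_of_nonneg_left _ (Real.exp_pos _).le
      linarith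
    have h2 : ∑ ε : ι → Bool, Real.exp (-(K * a)) * (1 - K * (S ε - a)) =
        Real.exp (-(K * a)) * (2 ^ n - K * (∑ ε : ι → Bool, S ε - 2 ^ n * a)) := by
      rw [← Finset.mul_sum, Finset.sum_sub_distrib, ← Finset.mul_sum, Finset.sum_sub_distrib]
      simp [hn]
    calc 2 ^ n * Real.exp (-(K * a)) = Real.exp (-(K * a)) * 2 ^ n := by ring
      _ ≤ Real.exp (-(K * a)) * (2 ^ n - K * (∑ ε : ι → Bool, S ε - 2 ^ n * a)) := by
          apply mul_le_mul_of_nonneg_left _ (Real.exp_pos _).le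
          have : ∑ ε : ι → Bool, S ε - 2 ^ n * a ≤ 0 := by linarith
          nlinarith
      _ = ∑ ε : ι → Bool, Real.exp (-(K * a)) * (1 - K * (S ε - a)) := h2.symm
      _ ≤ _ := Finset.sum_le_sum (fun ε _ => h1 ε)
  -- a bound on the |r|
  obtain ⟨B, hB⟩ : ∃ B : ℕ, ∀ ε i, (r ε i).natAbs ≤ B := by
    refine ⟨∑ ε : ι → Bool, ∑ i, (r ε i).natAbs, fun ε i => ?_⟩
    calc (r ε i).natAbs ≤ ∑ i, (r ε i).natAbs :=
          Finset.single_le_sum (f := fun i => (r ε i).natAbs) (fun _ _ => Nat.zero_le _)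
            (Finset.mem_univ i)
      _ ≤ _ := Finset.single_le_sum (f := fun ε => ∑ i, (r ε i).natAbs)
            (fun _ _ => Nat.zero_le _) (Finset.mem_univ ε)
  -- upper bound
  set x := Real.exp (-K) with hx
  have hx0 : 0 ≤ x := (Real.exp_pos _).le
  have hx2 : x ≤ 1 / 2 := by
    rw [hx]
    have : Real.exp (-K) ≤ Real.exp (-Real.log 2) := Real.exp_le_exp.mpr (by linarith)
    rw [Real.exp_neg (Real.log 2), Real.exp_log (by norm_num)] at this
    linarith
  set W : (κ → ℤ) → ℝ := fun ρ => ∏ i, x ^ (ρ i).natAbs with hW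
  have hSW : ∀ ε, Real.exp (-(K * S ε)) = W (r ε) := by
    intro ε
    simp only [hW, hx, hS]
    rw [Finset.mul_sum, ← Finset.sum_neg_distrib, Real.exp_sum]
    apply Finset.prod_congr rfl
    intro i _
    rw [← Real.exp_nat_mul]
    congr 1
    have : |((r ε i : ℤ) : ℝ)| = ((r ε i).natAbs : ℝ) := by
      rw [Nat.cast_natAbs]; simp
    rw [this]; ring
  set P : Finset (κ → ℤ) := Fintype.piFinset (fun _ : κ => Finset.Icc (-(B : ℤ)) B) with hP
  have hmem : ∀ ε, r ε ∈ P := by
    intro ε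
    rw [hP, Fintype.mem_piFinset]
    intro i
    have := hB ε i
    rw [Finset.mem_Icc]
    omega
  have hclass : ∀ ρ ∈ P, ((Finset.univ.filter (fun ε => r ε = ρ)).card : ℝ) ≤ V := by
    intro ρ _
    by_cases hne : (Finset.univ.filter (fun ε => r ε = ρ)).Nonempty
    · obtain ⟨ε₀, hε₀⟩ := hne
      refine le_trans ?_ (card_ball_le ε₀)
      norm_cast
      apply Finset.card_le_card
      intro ε hε
      rw [Finset.mem_filter] at hε hε₀ ⊢
      refine ⟨Finset.mem_univ _, ?_⟩
      have h := hcon ε ε₀ (hε.2.trans hε₀.2.symm)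
      exact_mod_cast h
    · rw [Finset.not_nonempty_iff_eq_empty] at hne
      rw [hne]
      simp
      exact (Real.exp_pos _).le
  have hup : ∑ ε : ι → Bool, Real.exp (-(K * S ε)) ≤ V * Real.exp (4 * m * x) := by
    calc ∑ ε : ι → Bool, Real.exp (-(K * S ε)) = ∑ ε : ι → Bool, W (r ε) :=
          Finset.sum_congr rfl (fun ε _ => hSW ε)
      _ = ∑ ρ ∈ P, ∑ ε ∈ Finset.univ.filter (fun ε => r ε = ρ), W (r ε) := by
          rw [Finset.sum_fiberwise_of_maps_to (fun ε _ => hmem ε)]
      _ = ∑ ρ ∈ P, ((Finset.univ.filter (fun ε => r ε = ρ)).card : ℝ) * W ρ := by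
          apply Finset.sum_congr rfl
          intro ρ _
          rw [← nsmul_eq_mul, ← Finset.sum_const]
          apply Finset.sum_congr rfl
          intro ε hε
          rw [(Finset.mem_filter.mp hε).2]
      _ ≤ ∑ ρ ∈ P, V * W ρ := by
          apply Finset.sum_le_sum
          intro ρ hρ
          apply mul_le_mul_of_nonneg_right (hclass ρ hρ)
          apply Finset.prod_nonneg
          intro i _; positivity
      _ = V * ∏ _i : κ, ∑ k ∈ Finset.Icc (-(B : ℤ)) B, x ^ k.natAbs := by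
          rw [← Finset.mul_sum]
          congr 1
          rw [hP]
          rw [Finset.sum_prod_piFinset (Finset.Icc (-(B : ℤ)) B) (fun (_ : κ) k => x ^ k.natAbs)]
      _ ≤ V * ∏ _i : κ, Real.exp (4 * x) := by
          apply mul_le_mul_of_nonneg_left _ (Real.exp_pos _).le
          apply Finset.prod_le_prod
          · intro i _
            apply Finset.sum_nonneg
            intro k _; positivity
          · intro i _
            exact sum_Icc_pow_le x hx0 hx2 B
      _ = V * Real.exp (4 * m * x) := by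
          rw [Finset.prod_const, Finset.card_univ, ← Real.exp_nat_mul, ← hm]
          congr 2; ring
  have hfin := hlow.trans hup
  rw [hV] at hfin
  have h2n : (2 : ℝ) ^ n = Real.exp (n * Real.log 2) := by
    rw [Real.exp_nat_mul, Real.exp_log (by norm_num)]
  rw [h2n, ← Real.exp_add, ← Real.exp_add] at hfin
  have := Real.exp_le_exp.mp hfin
  nlinarith

/-- (S1) partial colouring. -/
theorem partial_colouring (v : κ → ι → ℝ) (hv : ∀ i j, |v i j| ≤ 1) (M : ℝ)
    (hκ : (Fintype.card κ : ℝ) ≤ M) (hι : (Fintype.card ι : ℝ) ≤ M) (hpos : 0 < Fintype.card ι) :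
    ∃ x : ι → ℝ, (∀ j, x j = 0 ∨ x j = 1 ∨ x j = -1) ∧
      (Fintype.card ι : ℝ) < 8 * ((Finset.univ.filter (fun j => x j ≠ 0)).card : ℝ) ∧
      ∀ i, |∑ j, v i j * x j| ≤
        4 * Real.sqrt (Real.log (2 * M / Fintype.card ι)) * Real.sqrt (Fintype.card ι) := by
  set n := Fintype.card ι with hn
  have hn0 : (0 : ℝ) < n := by exact_mod_cast hpos
  have hM0 : 0 < M := lt_of_lt_of_le hn0 hι
  set y := 2 * M / n with hy
  have hy2 : 2 ≤ y := by
    rw [hy, le_div_iff₀ hn0]; linarith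
  set L := Real.log y with hL
  have hl2 : Real.log 2 ≤ L := Real.log_le_log (by norm_num) hy2
  have hl2' : 0.6931471803 < Real.log 2 := Real.log_two_gt_d9
  have hL0 : 0 < L := by linarith
  have hyL : Real.exp L = y := Real.exp_log (by linarith)
  set lam := 4 * Real.sqrt L with hlam
  have hlam2 : lam ^ 2 = 16 * L := by
    rw [hlam, mul_pow, Real.sq_sqrt hL0.le]; norm_num
  have hlam0 : 0 ≤ lam := by positivity
  have hlam1 : 1 ≤ lam := by nlinarith
  set s := Real.sqrt n with hs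
  have hs0 : 0 < s := Real.sqrt_pos.mpr hn0
  have hs2 : s ^ 2 = n := Real.sq_sqrt hn0.le
  set r : (ι → Bool) → κ → ℤ := fun ε i => round ((∑ j, v i j * sg (ε j)) / (2 * lam * s)) with hr
  have hsum : ∑ ε : ι → Bool, ∑ i, |((r ε i : ℤ) : ℝ)| ≤
      2 ^ n * (M * (2 * Real.exp (-(lam ^ 2 / 2)))) := by
    rw [Finset.sum_comm]
    calc ∑ i, ∑ ε : ι → Bool, |((r ε i : ℤ) : ℝ)|
        ≤ ∑ _i : κ, 2 ^ n * (2 * Real.exp (-(lam ^ 2 / 2))) := by
          apply Finset.sum_le_sum
          intro i _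
          exact sum_abs_round_le (v i) (hv i) lam s hlam1 hs0 (by rw [hs2])
      _ = (Fintype.card κ : ℝ) * (2 ^ n * (2 * Real.exp (-(lam ^ 2 / 2)))) := by simp
      _ ≤ M * (2 ^ n * (2 * Real.exp (-(lam ^ 2 / 2)))) := by
          apply mul_le_mul_of_nonneg_right hκ (by positivity)
      _ = _ := by ring
  have hlt : (L + 3) * (M * (2 * Real.exp (-(lam ^ 2 / 2)))) +
      4 * (Fintype.card κ) * Real.exp (-(L + 3)) < (n : ℝ) * (5 / 8 * Real.log 2 - 1 / 8) := by
    have hMn : 2 * M = y * n := by rw [hy]; field_simp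
    have e1 : Real.exp (-(lam ^ 2 / 2)) = (y ^ 8)⁻¹ := by
      rw [hlam2, ← hyL, ← Real.exp_nat_mul, ← Real.exp_neg]
      congr 1; push_cast; ring
    have e2 : Real.exp (-(L + 3)) = y⁻¹ * Real.exp (-3) := by
      rw [← hyL, ← Real.exp_neg, ← Real.exp_add]; congr 1; ring
    have h3 : Real.exp (-3) ≤ 1 / 20 := by
      have : (20 : ℝ) ≤ Real.exp 3 := by
        have h27 := Real.exp_one_gt_d9
        have e : Real.exp 3 = (Real.exp 1) ^ 3 := by
          rw [← Real.exp_nat_mul]; norm_num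
        rw [e]
        have : (2.7182818283 : ℝ) ^ 3 ≤ (Real.exp 1) ^ 3 :=
          pow_le_pow_left₀ (by norm_num) h27.le 3
        norm_num at this ⊢
        linarith
      rw [Real.exp_neg]
      rw [inv_le_comm₀ (Real.exp_pos 3) (by norm_num)]
      norm_num
      exact this
    have hLy : L + 1 ≤ y := by rw [← hyL]; exact Real.add_one_le_exp L
    have hy0 : 0 < y := by linarith
    have t2 : 4 * (Fintype.card κ) * Real.exp (-(L + 3)) ≤ n * (1 / 10) := by
      rw [e2]
      calc 4 * (Fintype.card κ : ℝ) * (y⁻¹ * Real.exp (-3)) ≤ 4 * M * (y⁻¹ * (1 / 20)) := by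
            gcongr
        _ = n * (1 / 10) := by
            have : 4 * M = 2 * (y * n) := by linarith
            rw [this]; field_simp; norm_num
    have t1 : (L + 3) * (M * (2 * Real.exp (-(lam ^ 2 / 2)))) ≤ n * (1 / 20) := by
      rw [e1]
      have e3 : (L + 3) * (M * (2 * (y ^ 8)⁻¹)) = n * ((L + 3) * (y ^ 7)⁻¹) := by
        have : M * (2 * (y ^ 8)⁻¹) = (2 * M) * (y ^ 8)⁻¹ := by ring
        rw [this, hMn]; field_simp
      rw [e3]
      apply mul_le_mul_of_nonneg_left _ hn0.le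
      rw [← div_eq_mul_inv, div_le_iff₀ (by positivity)]
      have h64 : (64 : ℝ) ≤ y ^ 6 := by
        have : (2 : ℝ) ^ 6 ≤ y ^ 6 := pow_le_pow_left₀ (by norm_num) hy2 6
        norm_num at this; exact this
      have : y ^ 7 = y ^ 6 * y := by ring
      rw [this]
      nlinarith
    nlinarith
  obtain ⟨ε, ε', hrr, hfar⟩ := exists_far_pair r (L + 3) _ (by linarith) hsum hlt
  refine ⟨fun j => (sg (ε j) - sg (ε' j)) / 2, ?_, ?_, ?_⟩
  · intro j
    rcases Bool.eq_false_or_eq_true (ε j) with h | h <;>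
    rcases Bool.eq_false_or_eq_true (ε' j) with h' | h' <;>
    simp [sg, h, h'] <;> norm_num
  · have : (Finset.univ.filter (fun j => (sg (ε j) - sg (ε' j)) / 2 ≠ 0)) =
        (Finset.univ.filter (fun j => ε j ≠ ε' j)) := by
      ext j
      simp only [Finset.mem_filter, Finset.mem_univ, true_and]
      rcases Bool.eq_false_or_eq_true (ε j) with h | h <;>
      rcases Bool.eq_false_or_eq_true (ε' j) with h' | h' <;>
      simp [sg, h, h'] <;> norm_num
    rw [this]
    exact hfar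
  · intro i
    have h1 := congrFun hrr i
    simp only [hr] at h1
    set p := (∑ j, v i j * sg (ε j)) / (2 * lam * s) with hp
    set p' := (∑ j, v i j * sg (ε' j)) / (2 * lam * s) with hp'
    have h2 : |p - p'| ≤ 1 := by
      have a1 := abs_sub_round p
      have a2 := abs_sub_round p'
      rw [← h1] at a2
      have : |p - p'| ≤ |p - round p| + |p' - round p| := by
        have := abs_sub_le p (round p : ℝ) p'
        rw [abs_sub_comm ((round p : ℤ) : ℝ) p'] at this
        exact this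
      linarith
    have hls : 0 < lam * s := by positivity
    have h3 : ∑ j, v i j * ((sg (ε j) - sg (ε' j)) / 2) = (p - p') * (lam * s) := by
      have e1 : ∑ j, v i j * sg (ε j) = p * (2 * lam * s) := by rw [hp]; field_simp
      have e2 : ∑ j, v i j * sg (ε' j) = p' * (2 * lam * s) := by rw [hp']; field_simp
      have e3 : ∑ j, v i j * ((sg (ε j) - sg (ε' j)) / 2) =
          (∑ j, v i j * sg (ε j) - ∑ j, v i j * sg (ε' j)) / 2 := by
        rw [← Finset.sum_sub_distrib, Finset.sum_div]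
        apply Finset.sum_congr rfl
        intro j _; ring
      rw [e3, e1, e2]; ring
    rw [h3, abs_mul, abs_of_pos hls]
    calc |p - p'| * (lam * s) ≤ 1 * (lam * s) := by
          apply mul_le_mul_of_nonneg_right h2 hls.le
      _ = lam * s := one_mul _

end partial_col

section full

/-- auxiliary: `√s · log (c/s) ≤ log c + 1` form, for `0 < a ≤ N`, `1 ≤ c`. -/
lemma log_aux (c s : ℝ) (hc : 1 ≤ c) (hs0 : 0 < s) (hs1 : s ≤ 1) :
    Real.sqrt s * Real.log (c / s) ≤ Real.log c + 1 := by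
  have hq0 : 0 < Real.sqrt s := Real.sqrt_pos.mpr hs0
  have hq1 : Real.sqrt s ≤ 1 := Real.sqrt_le_one.mpr hs1
  have hq2 : Real.sqrt s ^ 2 = s := Real.sq_sqrt hs0.le
  have hlc : 0 ≤ Real.log c := Real.log_nonneg hc
  rw [Real.log_div (by linarith) hs0.ne']
  set q := Real.sqrt s with hq
  have hls : Real.log s = 2 * Real.log q := by
    rw [← hq2, Real.log_pow]; norm_num
  have hlq : q * (-(2 * Real.log q)) ≤ 1 := by
    -- with u = 1/q : log u ≤ u/e ; 2 q log u ≤ 2/e <1
    have hu : Real.log (1 / (Real.exp 1 * q)) ≤ 1 / (Real.exp 1 * q) - 1 :=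
      Real.log_le_sub_one_of_pos (by positivity)
    rw [one_div, Real.log_inv, Real.log_mul (Real.exp_pos 1).ne' hq0.ne', Real.log_exp] at hu
    have h3 : -Real.log q ≤ (Real.exp 1 * q)⁻¹ := by linarith
    have h4 : q * (-(2 * Real.log q)) ≤ 2 * (q * (Real.exp 1 * q)⁻¹) := by nlinarith
    have h5 : q * (Real.exp 1 * q)⁻¹ = (Real.exp 1)⁻¹ := by field_simp
    rw [h5] at h4
    have h6 : (2 : ℝ) ≤ Real.exp 1 := by
      have := Real.add_one_le_exp (1 : ℝ); linarith
    have h7 : (Real.exp 1)⁻¹ ≤ 2⁻¹ := by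
      apply inv_anti₀ (by norm_num) h6
    linarith
  rw [hls]
  have : q * (Real.log c - 2 * Real.log q) = q * Real.log c + q * (-(2 * Real.log q)) := by ring
  rw [this]
  nlinarith

end full

end Crest.Agent.R075.Round
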