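import Crest.Agent.R075.Design
import Crest.Agent.R075.Enum
import Crest.Agent.R075.PackMain

/-!
# Row 75, THM D: the tiling exists (helper332)
-/

set_option autoImplicit false

namespace Crest.Agent.R075

theorem packStmt : PackStmt := by
  intro R T hpos hnp p hp hsum L hL hdvd eps heps
  obtain ⟨l0, h⟩ := Pack.packing T hpos hnp p hp hsum L hL hdvd eps heps
  exact ⟨l0, fun l hl hlp => h l hl hlp⟩

theorem tiling_exists (ε : ℝ) (hε : 0 < ε) : Nonempty (Tiling ε) :=
  tiling_of_pack enum_tiles packStmt ε hε

end Crest.Agent.R075
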